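import Vale.Agent.P347S.Poinc
import Vale.Agent.P347Q.Poincare

/-!
Module Poinc2: Poincare inequality and variance bound for `LPot κ Φ`.

* `poincare`: generalise `P347Q/Poincare.lean` (Prekopa-Leindler; only the lower curvature bound and
  `C²` smoothness of the potential are really used there).
* `var_lip`: Prekopa-Leindler with `F = e^{δ f}`, `G = e^{-δ f}`, `H = e^{δ² L²/(2κ)}` gives
  `(∫ e^{δ f}) (∫ e^{-δ f}) ≤ e^{δ² L²/κ}`; expand at `δ → 0` (truncate `f` first if convenient),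
  or deduce it from `poincare` by mollification.
-/

open MeasureTheory ProbabilityTheory Function
open scoped ENNReal BigOperators Topology

namespace P347S

open P347Q

variable {d : ℕ} {κ : ℝ} {Φ : E d → ℝ}

namespace Poin2

/-- Prekopa-Leindler for a potential with curvature at least `κ` -/
theorem gibbs_pl (hU : LPot κ Φ) {F G H : E d → ℝ≥0∞} (hF : Measurable F)
    (hG : Measurable G) (hH : Measurable H)
    (h : ∀ m z, F (m + z) * G (m - z) ≤ ENNReal.ofReal (Real.exp (κ * ‖z‖ ^ 2)) * H m ^ 2) :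
    (∫⁻ x, F x ∂(gibbs Φ)) * (∫⁻ x, G x ∂(gibbs Φ)) ≤ (∫⁻ x, H x ∂(gibbs Φ)) ^ 2 := by
  have hUc : Continuous Φ := hU.smooth.continuous
  have he : Measurable (fun x => ENNReal.ofReal (Real.exp (-Φ x))) := by
    have : Continuous (fun x => Real.exp (-Φ x)) := by fun_prop
    exact this.measurable.ennreal_ofReal
  have hpl := P347Q.Poin.midPL_E d (fun x => ENNReal.ofReal (Real.exp (-Φ x)) * F x)
    (fun x => ENNReal.ofReal (Real.exp (-Φ x)) * G x)
    (fun x => ENNReal.ofReal (Real.exp (-Φ x)) * H x) (he.mul hF) (he.mul hG) (he.mul hH) (by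
      intro x y
      set m : E d := (1 / 2 : ℝ) • (x + y) with hm
      set z : E d := (1 / 2 : ℝ) • (x - y) with hz
      have hx : x = m + z := by rw [hm, hz]; module
      have hy : y = m - z := by rw [hm, hz]; module
      have h1 := P347Q.Poin.taylor_lower hU.smooth (c := κ) hU.lower m z
      have h2 := P347Q.Poin.taylor_lower hU.smooth (c := κ) hU.lower m (-z)
      rw [norm_neg, map_neg] at h2
      have h3 : ENNReal.ofReal (Real.exp (-Φ x)) * ENNReal.ofReal (Real.exp (-Φ y)) ≤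
          ENNReal.ofReal (Real.exp (-(κ * ‖z‖ ^ 2))) * ENNReal.ofReal (Real.exp (-Φ m)) ^ 2 := by
        rw [← ENNReal.ofReal_mul (Real.exp_nonneg _), ← ENNReal.ofReal_pow (Real.exp_nonneg _),
          ← ENNReal.ofReal_mul (Real.exp_nonneg _)]
        apply ENNReal.ofReal_le_ofReal
        rw [← Real.exp_add, ← Real.exp_nat_mul, ← Real.exp_add]
        apply Real.exp_le_exp.2
        rw [hx, hy, sub_eq_add_neg m z]
        push_cast
        linarith
      have h4 := h m z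
      rw [← hx, ← hy] at h4
      have h5 : ENNReal.ofReal (Real.exp (-(κ * ‖z‖ ^ 2))) *
          ENNReal.ofReal (Real.exp (κ * ‖z‖ ^ 2)) = 1 := by
        rw [← ENNReal.ofReal_mul (Real.exp_nonneg _), ← Real.exp_add]
        simp
      calc ENNReal.ofReal (Real.exp (-Φ x)) * F x * (ENNReal.ofReal (Real.exp (-Φ y)) * G y)
          = (ENNReal.ofReal (Real.exp (-Φ x)) * ENNReal.ofReal (Real.exp (-Φ y))) *
            (F x * G y) := by ring
        _ ≤ (ENNReal.ofReal (Real.exp (-(κ * ‖z‖ ^ 2))) * ENNReal.ofReal (Real.exp (-Φ m)) ^ 2) *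
            (ENNReal.ofReal (Real.exp (κ * ‖z‖ ^ 2)) * H m ^ 2) := mul_le_mul' h3 h4
        _ = (ENNReal.ofReal (Real.exp (-(κ * ‖z‖ ^ 2))) *
            ENNReal.ofReal (Real.exp (κ * ‖z‖ ^ 2))) *
            (ENNReal.ofReal (Real.exp (-Φ m)) * H m) ^ 2 := by ring
        _ = (ENNReal.ofReal (Real.exp (-Φ m)) * H m) ^ 2 := by rw [h5, one_mul])
  have key : ∀ K : E d → ℝ≥0∞, Measurable K → ∫⁻ x, K x ∂(gibbs Φ) =
      (∫⁻ x, ENNReal.ofReal (Real.exp (-Φ x)))⁻¹ *
        ∫⁻ x, ENNReal.ofReal (Real.exp (-Φ x)) * K x := by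
    intro K hK
    rw [gibbs, lintegral_smul_measure, lintegral_withDensity_eq_lintegral_mul _ he hK]
    rfl
  rw [key F hF, key G hG, key H hH]
  set c := (∫⁻ x, ENNReal.ofReal (Real.exp (-Φ x)))⁻¹
  calc c * (∫⁻ x, ENNReal.ofReal (Real.exp (-Φ x)) * F x) *
        (c * ∫⁻ x, ENNReal.ofReal (Real.exp (-Φ x)) * G x)
      = c ^ 2 * ((∫⁻ x, ENNReal.ofReal (Real.exp (-Φ x)) * F x) *
        ∫⁻ x, ENNReal.ofReal (Real.exp (-Φ x)) * G x) := by ring
    _ ≤ c ^ 2 * (∫⁻ x, ENNReal.ofReal (Real.exp (-Φ x)) * H x) ^ 2 := mul_le_mul_right hpl _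
    _ = _ := by ring

/-- an abstract expansion: exponential moment bounds give a variance bound -/
theorem var_step {X : Type*} [MeasurableSpace X] (μ : Measure X) [IsProbabilityMeasure μ]
    {f q : X → ℝ} (hf : AEStronglyMeasurable f μ) (hqm : AEStronglyMeasurable q μ)
    {A B Q : ℝ} (hA : ∀ x, |f x| ≤ A) (hq0 : ∀ x, 0 ≤ q x) (hQ : ∀ x, q x ≤ Q)
    (hB0 : 0 ≤ B) {δ : ℝ} (hδ : 0 < δ)
    (hstep : (∫ x, Real.exp (δ * f x) ∂μ) * (∫ x, Real.exp (-(δ * f x)) ∂μ) ≤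
      (∫ x, Real.exp (δ ^ 2 * (1 / 2 + δ * B) * q x) ∂μ) ^ 2)
    (hδB : δ * B ≤ 1 / 2) (hδA : δ * (2 * A) ≤ 1) (hδG : δ ^ 2 * Q ≤ 1) :
    ∫ x, (f x - ∫ y, f y ∂μ) ^ 2 ∂μ -
        δ ^ 2 * (∫ x, (f x - ∫ y, f y ∂μ) ^ 2 ∂μ) ^ 2 ≤
      2 * ((1 / 2 + δ * B) * ∫ x, q x ∂μ + δ ^ 2 * Q ^ 2) +
        δ ^ 2 * ((1 / 2 + δ * B) * ∫ x, q x ∂μ + δ ^ 2 * Q ^ 2) ^ 2 := by
  have hne : Nonempty X := by
    by_contra h
    rw [not_nonempty_iff] at h
    have h1 := measure_univ (μ := μ)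
    rw [Set.eq_empty_of_isEmpty (Set.univ : Set X), measure_empty] at h1
    exact zero_ne_one h1
  obtain ⟨x0⟩ := hne
  have hQ0 : 0 ≤ Q := (hq0 x0).trans (hQ x0)
  have hA0 : 0 ≤ A := (abs_nonneg _).trans (hA x0)
  have bdd : ∀ φ : X → ℝ, AEStronglyMeasurable φ μ → (K : ℝ) → (∀ x, |φ x| ≤ K) →
      Integrable φ μ := by
    intro φ hφ K hK
    exact Integrable.of_bound hφ K (Filter.Eventually.of_forall hK)
  have ifx := bdd f hf A hA
  set a := ∫ y, f y ∂μ with ha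
  have haA : |a| ≤ A := by
    have := norm_integral_le_of_norm_le_const (μ := μ) (f := f) (C := A)
      (Filter.Eventually.of_forall hA)
    simpa using this
  have hg : ∀ x, |f x - a| ≤ 2 * A := by
    intro x
    have h1 := abs_sub (f x) a
    have h2 := hA x
    linarith
  have hgc : AEStronglyMeasurable (fun x => f x - a) μ := hf.sub aestronglyMeasurable_const
  have hgd : AEStronglyMeasurable (fun x => δ * (f x - a)) μ := hgc.const_mul δ
  have ig := bdd (fun x => f x - a) hgc _ hg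
  have ig2 : Integrable (fun x => (f x - a) ^ 2) μ :=
    bdd _ (hgc.pow 2) ((2 * A) ^ 2) fun x => by
      rw [abs_pow]; exact pow_le_pow_left₀ (abs_nonneg _) (hg x) 2
  have ig0 : ∫ x, (f x - a) ∂μ = 0 := by
    rw [integral_sub ifx (integrable_const _), integral_const]
    simp [ha]
  set V := ∫ x, (f x - a) ^ 2 ∂μ with hV
  have hV0 : 0 ≤ V := integral_nonneg fun _ => sq_nonneg _
  have hs : ∀ x, |δ * (f x - a)| ≤ 1 := by
    intro x
    rw [abs_mul, abs_of_pos hδ]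
    exact (mul_le_mul_of_nonneg_left (hg x) hδ.le).trans hδA
  have icosh : Integrable (fun x => Real.cosh (δ * (f x - a))) μ :=
    bdd _ (Real.continuous_cosh.comp_aestronglyMeasurable hgd) (Real.cosh 1) fun x => by
      rw [abs_of_pos (Real.cosh_pos _)]
      exact Real.cosh_le_cosh.2 (by simpa using hs x)
  have isinh : Integrable (fun x => Real.sinh (δ * (f x - a))) μ :=
    bdd _ (Real.continuous_sinh.comp_aestronglyMeasurable hgd) (Real.cosh 1) fun x => by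
      have h1 : |Real.sinh (δ * (f x - a))| ≤ Real.cosh (δ * (f x - a)) := by
        rw [abs_le]
        constructor
        · have := Real.exp_pos (δ * (f x - a))
          rw [Real.sinh_eq, Real.cosh_eq]
          linarith
        · exact Real.sinh_lt_cosh _ |>.le
      exact h1.trans (Real.cosh_le_cosh.2 (by simpa using hs x))
  set u := ∫ x, Real.cosh (δ * (f x - a)) ∂μ with hu
  set v := ∫ x, Real.sinh (δ * (f x - a)) ∂μ with hv
  have e1 : ∫ x, Real.exp (δ * f x) ∂μ = Real.exp (δ * a) * (u + v) := by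
    rw [hu, hv, ← integral_add icosh isinh, ← integral_const_mul]
    congr 1
    funext x
    rw [Real.cosh_add_sinh, ← Real.exp_add]
    congr 1
    ring
  have e2 : ∫ x, Real.exp (-(δ * f x)) ∂μ = Real.exp (-(δ * a)) * (u - v) := by
    rw [hu, hv, ← integral_sub icosh isinh, ← integral_const_mul]
    congr 1
    funext x
    rw [Real.cosh_sub_sinh, ← Real.exp_add]
    congr 1
    ring
  rw [e1, e2] at hstep
  have e3 : Real.exp (δ * a) * (u + v) * (Real.exp (-(δ * a)) * (u - v)) = u ^ 2 - v ^ 2 := by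
    have : Real.exp (δ * a) * Real.exp (-(δ * a)) = 1 := by rw [← Real.exp_add]; simp
    linear_combination (u + v) * (u - v) * this
  rw [e3] at hstep
  have hu1 : 1 + δ ^ 2 * V / 2 ≤ u := by
    have h1 : ∫ x, (1 + δ ^ 2 / 2 * (f x - a) ^ 2) ∂μ ≤ u := by
      apply integral_mono ((integrable_const _).add (ig2.const_mul _)) icosh
      intro x
      have := P347Q.Poin.le_cosh (δ * (f x - a))
      simp only [Pi.add_apply] at *
      linarith [mul_pow δ (f x - a) 2]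
    rw [integral_add (integrable_const _) (ig2.const_mul _), integral_const_mul] at h1
    simp only [integral_const, probReal_univ, smul_eq_mul, mul_one] at h1
    linarith
  have hv1 : |v| ≤ δ ^ 2 * V := by
    have h1 : v = ∫ x, (Real.sinh (δ * (f x - a)) - δ * (f x - a)) ∂μ := by
      rw [integral_sub isinh (ig.const_mul _), integral_const_mul, ig0, mul_zero, sub_zero]
    rw [h1]
    refine (abs_integral_le_integral_abs).trans ?_
    have h2 : δ ^ 2 * V = ∫ x, δ ^ 2 * (f x - a) ^ 2 ∂μ := by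
      rw [integral_const_mul]
    rw [h2]
    apply integral_mono (isinh.sub (ig.const_mul _)).abs (ig2.const_mul _)
    intro x
    have := P347Q.Poin.sinh_sub_le (hs x)
    rw [mul_pow] at this
    exact this
  have hv2 : v ^ 2 ≤ (δ ^ 2 * V) ^ 2 := by
    rw [← sq_abs v]
    exact pow_le_pow_left₀ (abs_nonneg _) hv1 2
  have hu2 : (1 + δ ^ 2 * V / 2) ^ 2 ≤ u ^ 2 := pow_le_pow_left₀ (by positivity) hu1 2
  -- the right-hand side
  have iq : Integrable q μ :=
    bdd _ hqm Q fun x => by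
      rw [abs_of_nonneg (hq0 x)]; exact hQ x
  set Γ := ∫ x, q x ∂μ with hΓ
  have hΓ0 : 0 ≤ Γ := integral_nonneg hq0
  have hw1 : ∫ x, Real.exp (δ ^ 2 * (1 / 2 + δ * B) * q x) ∂μ ≤
      1 + δ ^ 2 * ((1 / 2 + δ * B) * Γ + δ ^ 2 * Q ^ 2) := by
    have hq : ∀ x, 0 ≤ δ ^ 2 * (1 / 2 + δ * B) * q x ∧
        δ ^ 2 * (1 / 2 + δ * B) * q x ≤ δ ^ 2 * Q := by
      intro x
      have h1 : q x ≤ Q := hQ x
      have h2 := hq0 x
      refine ⟨by positivity, ?_⟩
      calc δ ^ 2 * (1 / 2 + δ * B) * q x ≤ δ ^ 2 * 1 * Q := by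
            gcongr
            linarith
        _ = δ ^ 2 * Q := by ring
    have ie : Integrable (fun x => Real.exp (δ ^ 2 * (1 / 2 + δ * B) * q x))
        μ := bdd _ (Real.continuous_exp.comp_aestronglyMeasurable (hqm.const_mul _))
          (Real.exp 1) fun x => by
      rw [abs_of_pos (Real.exp_pos _)]
      exact Real.exp_le_exp.2 ((hq x).2.trans hδG)
    have h1 : ∫ x, Real.exp (δ ^ 2 * (1 / 2 + δ * B) * q x) ∂μ ≤
        ∫ x, ((1 + δ ^ 4 * Q ^ 2) + δ ^ 2 * (1 / 2 + δ * B) * q x) ∂μ := by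
      apply integral_mono ie ((integrable_const _).add (iq.const_mul _))
      intro x
      have h2 := Real.abs_exp_sub_one_sub_id_le
        (x := δ ^ 2 * (1 / 2 + δ * B) * q x)
        (by rw [abs_of_nonneg (hq x).1]; exact (hq x).2.trans hδG)
      have h3 : (δ ^ 2 * (1 / 2 + δ * B) * q x) ^ 2 ≤ (δ ^ 2 * Q) ^ 2 :=
        pow_le_pow_left₀ (hq x).1 (hq x).2 2
      have h4 := (abs_le.1 h2).2
      simp only [Pi.add_apply]
      nlinarith
    rw [integral_add (integrable_const _) (iq.const_mul _), integral_const_mul] at h1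
    simp only [integral_const, probReal_univ, smul_eq_mul, one_mul] at h1
    linarith
  have hw0 : 0 ≤ ∫ x, Real.exp (δ ^ 2 * (1 / 2 + δ * B) * q x) ∂μ :=
    integral_nonneg fun _ => Real.exp_nonneg _
  have hw2 := pow_le_pow_left₀ hw0 hw1 2
  have hδ2 : 0 < δ ^ 2 := by positivity
  set s := (1 / 2 + δ * B) * Γ + δ ^ 2 * Q ^ 2 with hs'
  have hfin : δ ^ 2 * (V - δ ^ 2 * V ^ 2) ≤ δ ^ 2 * (2 * s + δ ^ 2 * s ^ 2) := by
    have h5 : 0 ≤ (δ ^ 2 * V / 2) ^ 2 := sq_nonneg _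
    have h6 : (1 + δ ^ 2 * V / 2) ^ 2 - (δ ^ 2 * V) ^ 2 ≤ (1 + δ ^ 2 * s) ^ 2 := by
      linarith only [hu2, hv2, hstep, hw2]
    have h7 : (1 + δ ^ 2 * V / 2) ^ 2 = 1 + δ ^ 2 * V + (δ ^ 2 * V / 2) ^ 2 := by ring
    have h8 : (1 + δ ^ 2 * s) ^ 2 = 1 + δ ^ 2 * (2 * s + δ ^ 2 * s ^ 2) := by ring
    have h9 : δ ^ 2 * (V - δ ^ 2 * V ^ 2) = δ ^ 2 * V - (δ ^ 2 * V) ^ 2 := by ring
    rw [h9]
    linarith only [h5, h6, h7, h8]
  exact le_of_mul_le_mul_left hfin hδ2

theorem var_of_exp {X : Type*} [MeasurableSpace X] (μ : Measure X) [IsProbabilityMeasure μ]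
    {f q : X → ℝ} (hf : AEStronglyMeasurable f μ) (hqm : AEStronglyMeasurable q μ)
    {A B Q : ℝ} (hA : ∀ x, |f x| ≤ A) (hq0 : ∀ x, 0 ≤ q x) (hQ : ∀ x, q x ≤ Q)
    (hB0 : 0 ≤ B)
    (hstep : ∀ δ : ℝ, 0 < δ → δ * B ≤ 1 / 2 →
      (∫ x, Real.exp (δ * f x) ∂μ) * (∫ x, Real.exp (-(δ * f x)) ∂μ) ≤
      (∫ x, Real.exp (δ ^ 2 * (1 / 2 + δ * B) * q x) ∂μ) ^ 2) :
    ∫ x, (f x - ∫ y, f y ∂μ) ^ 2 ∂μ ≤ ∫ x, q x ∂μ := by
  set V := ∫ x, (f x - ∫ y, f y ∂μ) ^ 2 ∂μ with hV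
  set Γ := ∫ x, q x ∂μ with hΓ
  have c1 : Continuous fun δ : ℝ => V - δ ^ 2 * V ^ 2 := by fun_prop
  have c2 : Continuous fun δ : ℝ => 2 * ((1 / 2 + δ * B) * Γ + δ ^ 2 * Q ^ 2) +
        δ ^ 2 * ((1 / 2 + δ * B) * Γ + δ ^ 2 * Q ^ 2) ^ 2 := by fun_prop
  have t1 := (c1.tendsto 0).mono_left (nhdsWithin_le_nhds (s := Set.Ioi 0))
  have t2 := (c2.tendsto 0).mono_left (nhdsWithin_le_nhds (s := Set.Ioi 0))
  have small : ∀ φ : ℝ → ℝ, Continuous φ → φ 0 = 0 → ∀ K : ℝ, 0 < K →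
      ∀ᶠ δ in 𝓝[>] (0 : ℝ), φ δ ≤ K := by
    intro φ hφ h0 K hK
    have : Filter.Tendsto φ (𝓝[>] 0) (𝓝 0) := by
      have := (hφ.tendsto 0).mono_left (nhdsWithin_le_nhds (s := Set.Ioi 0))
      rwa [h0] at this
    exact this.eventually_le_const hK
  have hle : ∀ᶠ δ in 𝓝[>] (0 : ℝ), V - δ ^ 2 * V ^ 2 ≤
      2 * ((1 / 2 + δ * B) * Γ + δ ^ 2 * Q ^ 2) +
        δ ^ 2 * ((1 / 2 + δ * B) * Γ + δ ^ 2 * Q ^ 2) ^ 2 := by
    filter_upwards [self_mem_nhdsWithin,
      small (fun δ => δ * B) (by fun_prop) (by simp) (1 / 2) (by norm_num),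
      small (fun δ => δ * (2 * A)) (by fun_prop) (by simp) 1 (by norm_num),
      small (fun δ => δ ^ 2 * Q) (by fun_prop) (by simp) 1 (by norm_num)] with δ h0 h1 h2 h3
    exact var_step μ hf hqm hA hq0 hQ hB0 h0 (hstep δ h0 h1) h1 h2 h3
  have := le_of_tendsto_of_tendsto t1 t2 hle
  norm_num at this
  linarith

/-- conversion of Prekopa-Leindler to Bochner integrals of exponentials of bounded functions -/
theorem pl_exp (hU : LPot κ Φ) (hκ : 0 < κ) {f h : E d → ℝ} (hf : Continuous f)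
    (hh : Continuous h) {A K : ℝ} (hA : ∀ x, |f x| ≤ A) (hK : ∀ x, |h x| ≤ K)
    (hfh : ∀ m z, f (m + z) - f (m - z) ≤ κ * ‖z‖ ^ 2 + 2 * h m) :
    (∫ x, Real.exp (f x) ∂(gibbs Φ)) * (∫ x, Real.exp (-(f x)) ∂(gibbs Φ)) ≤
      (∫ x, Real.exp (h x) ∂(gibbs Φ)) ^ 2 := by
  have := hU.prob hκ
  have bdd : ∀ φ : E d → ℝ, Continuous φ → (∃ K, ∀ x, |φ x| ≤ K) →
      Integrable (fun x => Real.exp (φ x)) (gibbs Φ) := by
    intro φ hφ ⟨K, hK⟩
    refine Integrable.of_bound (by fun_prop) (Real.exp K) (Filter.Eventually.of_forall fun x => ?_)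
    rw [Real.norm_eq_abs, abs_of_pos (Real.exp_pos _)]
    exact Real.exp_le_exp.2 ((le_abs_self _).trans (hK x))
  have i1 := bdd f hf ⟨A, hA⟩
  have i2 := bdd (fun x => -(f x)) (by fun_prop) ⟨A, fun x => by rw [abs_neg]; exact hA x⟩
  have i3 := bdd h hh ⟨K, hK⟩
  have hpl := gibbs_pl hU (F := fun x => ENNReal.ofReal (Real.exp (f x)))
    (G := fun x => ENNReal.ofReal (Real.exp (-(f x))))
    (H := fun x => ENNReal.ofReal (Real.exp (h x)))
    (by fun_prop : Continuous fun x => Real.exp (f x)).measurable.ennreal_ofReal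
    (by fun_prop : Continuous fun x => Real.exp (-(f x))).measurable.ennreal_ofReal
    (by fun_prop : Continuous fun x => Real.exp (h x)).measurable.ennreal_ofReal (by
      intro m z
      rw [← ENNReal.ofReal_mul (Real.exp_nonneg _), ← ENNReal.ofReal_pow (Real.exp_nonneg _),
        ← ENNReal.ofReal_mul (Real.exp_nonneg _)]
      apply ENNReal.ofReal_le_ofReal
      rw [← Real.exp_add, ← Real.exp_nat_mul, ← Real.exp_add]
      apply Real.exp_le_exp.2
      push_cast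
      have := hfh m z
      linarith)
  rw [← ofReal_integral_eq_lintegral_ofReal i1 (Filter.Eventually.of_forall fun _ =>
      Real.exp_nonneg _), ← ofReal_integral_eq_lintegral_ofReal i2
      (Filter.Eventually.of_forall fun _ => Real.exp_nonneg _),
    ← ofReal_integral_eq_lintegral_ofReal i3 (Filter.Eventually.of_forall fun _ =>
      Real.exp_nonneg _), ← ENNReal.ofReal_mul (integral_nonneg fun _ => Real.exp_nonneg _),
    ← ENNReal.ofReal_pow (integral_nonneg fun _ => Real.exp_nonneg _)] at hpl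
  exact (ENNReal.ofReal_le_ofReal_iff (by positivity)).1 hpl

theorem poincare_bdd (hU : LPot κ Φ) (hκ : 0 < κ) {f : E d → ℝ} (hf : ContDiff ℝ 2 f)
    {A B G : ℝ} (hA : ∀ x, |f x| ≤ A) (hG : ∀ x, ‖fderiv ℝ f x‖ ≤ G) (hB0 : 0 ≤ B)
    (hB : ∀ x w, |fderiv ℝ (fderiv ℝ f) x w w| ≤ B * ‖w‖ ^ 2) :
    ∫ x, (f x - ∫ y, f y ∂(gibbs Φ)) ^ 2 ∂(gibbs Φ) ≤
      κ⁻¹ * ∫ x, ‖fderiv ℝ f x‖ ^ 2 ∂(gibbs Φ) := by
  have := hU.prob hκ
  have hfc : Continuous f := hf.continuous
  have hfc1 : Continuous (fderiv ℝ f) := hf.continuous_fderiv (by norm_num)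
  rw [← integral_const_mul]
  have hQ : ∀ x, κ⁻¹ * ‖fderiv ℝ f x‖ ^ 2 ≤ κ⁻¹ * G ^ 2 := fun x =>
    mul_le_mul_of_nonneg_left (pow_le_pow_left₀ (norm_nonneg _) (hG x) 2) (by positivity)
  have hq0 : ∀ x, 0 ≤ κ⁻¹ * ‖fderiv ℝ f x‖ ^ 2 := fun x => by positivity
  have hqc : Continuous fun x => κ⁻¹ * ‖fderiv ℝ f x‖ ^ 2 := by fun_prop
  refine var_of_exp (gibbs Φ) (A := A) (Q := κ⁻¹ * G ^ 2) (B := B / κ)
    hfc.aestronglyMeasurable hqc.aestronglyMeasurable hA hq0 hQ
    (by positivity) ?_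
  intro δ hδ hδB
  refine pl_exp hU hκ (f := fun x => δ * f x)
    (h := fun x => δ ^ 2 * (1 / 2 + δ * (B / κ)) * (κ⁻¹ * ‖fderiv ℝ f x‖ ^ 2))
    (A := δ * A) (K := δ ^ 2 * (1 / 2 + δ * (B / κ)) * (κ⁻¹ * G ^ 2)) (by fun_prop) (by fun_prop)
    (fun x => ?_) (fun x => ?_) ?_
  · rw [abs_mul, abs_of_pos hδ]; exact mul_le_mul_of_nonneg_left (hA x) hδ.le
  · rw [abs_of_nonneg (by positivity)]
    exact mul_le_mul_of_nonneg_left (hQ x) (by positivity)
  · intro m z
    have t1 := P347Q.Poin.taylor_lower hf (c := -B) (fun x w => by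
      have := (abs_le.1 (hB x w)).1; linarith) m (-z)
    have t2 := P347Q.Poin.taylor_lower hf.neg (c := -B) (fun x w => by
      have h1 : (fderiv ℝ fun y => -f y) = fun y => -fderiv ℝ f y := by
        funext y; exact fderiv_fun_neg
      have h2 : fderiv ℝ (fderiv ℝ fun y => -f y) x = -fderiv ℝ (fderiv ℝ f) x := by
        rw [h1]; exact fderiv_fun_neg
      rw [h2]
      have := (abs_le.1 (hB x w)).2
      simp only [neg_apply]
      linarith) m z
    have h1 : fderiv ℝ (fun y => -f y) m = -fderiv ℝ f m := fderiv_fun_neg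
    rw [h1] at t2
    simp only [ neg_apply, map_neg, norm_neg,
      ← sub_eq_add_neg] at t1 t2
    have t3 : fderiv ℝ f m z ≤ ‖fderiv ℝ f m‖ * ‖z‖ :=
      (le_abs_self _).trans ((fderiv ℝ f m).le_opNorm z)
    set g := ‖fderiv ℝ f m‖
    set r := ‖z‖
    have hg : 0 ≤ g := norm_nonneg _
    have hr : 0 ≤ r := norm_nonneg _
    have t4 : f (m + z) - f (m - z) ≤ 2 * (g * r) + B * r ^ 2 := by linarith
    have t5 : δ * (f (m + z) - f (m - z)) ≤ δ * (2 * (g * r) + B * r ^ 2) :=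
      mul_le_mul_of_nonneg_left t4 hδ.le
    -- with `b = δ B / κ`, `e = δ / κ`: `e (2 g r + B r²) ≤ r² + e² (1 + 2 b) g²`
    set b := δ * (B / κ) with hb
    have hb0 : 0 ≤ b := by positivity
    set e := δ / κ with he
    have he0 : 0 ≤ e := by positivity
    have hδe : δ = κ * e := by rw [he]; field_simp
    have hBb : δ * B = κ * b := by rw [hb]; field_simp
    have t6 : 0 ≤ ((1 - b) * r - e * g) ^ 2 := sq_nonneg _
    have t7 : e * (2 * (g * r)) * (1 - b) ≤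
        ((1 - b) * r ^ 2 + e ^ 2 * (1 + 2 * b) * g ^ 2) * (1 - b) := by
      have : e ^ 2 * g ^ 2 ≤ e ^ 2 * g ^ 2 * ((1 + 2 * b) * (1 - b)) := by
        apply le_mul_of_one_le_right (by positivity)
        nlinarith
      nlinarith
    have t8 : e * (2 * (g * r)) ≤ (1 - b) * r ^ 2 + e ^ 2 * (1 + 2 * b) * g ^ 2 :=
      le_of_mul_le_mul_right t7 (by linarith)
    have t9 := mul_le_mul_of_nonneg_left t8 hκ.le
    have e1 : δ * (2 * (g * r) + B * r ^ 2) = κ * (e * (2 * (g * r))) + κ * b * r ^ 2 := by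
      rw [← hBb]
      rw [hδe]
      ring
    have e2 : κ * r ^ 2 + 2 * (δ ^ 2 * (1 / 2 + b) * (κ⁻¹ * g ^ 2)) =
        κ * r ^ 2 + κ * (e ^ 2 * (1 + 2 * b) * g ^ 2) := by
      rw [hδe]
      field_simp
    rw [e2, ← mul_sub]
    rw [e1] at t5
    linarith

theorem poincare_compact (hU : LPot κ Φ) (hκ : 0 < κ) {f : E d → ℝ} (hf : ContDiff ℝ 2 f)
    (hs : HasCompactSupport f) :
    ∫ x, (f x - ∫ y, f y ∂(gibbs Φ)) ^ 2 ∂(gibbs Φ) ≤
      κ⁻¹ * ∫ x, ‖fderiv ℝ f x‖ ^ 2 ∂(gibbs Φ) := by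
  have h1 : ContDiff ℝ 1 (fderiv ℝ f) := hf.fderiv_right (by norm_num)
  obtain ⟨A, -, hA⟩ := P347Q.Poin.bounds_of_compact hf.continuous hs
  obtain ⟨G, -, hG⟩ := P347Q.Poin.bounds_of_compact h1.continuous (hs.fderiv (𝕜 := ℝ))
  obtain ⟨B, hB0, hB⟩ := P347Q.Poin.bounds_of_compact (h1.continuous_fderiv (by norm_num))
    ((hs.fderiv (𝕜 := ℝ)).fderiv (𝕜 := ℝ))
  refine poincare_bdd hU hκ hf (A := A) (B := B) (G := G) hA hG hB0 fun x w => ?_
  have h2 := (fderiv ℝ (fderiv ℝ f) x).le_opNorm₂ w w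
  rw [Real.norm_eq_abs] at h2
  refine h2.trans ?_
  have h3 := mul_le_mul_of_nonneg_right (hB x) (sq_nonneg ‖w‖)
  nlinarith

theorem pgr_sq {F : Type*} [NormedAddCommGroup F] {f : E d → F} (hf : Pgr f) :
    Pgr (fun x => ‖f x‖ ^ 2) := by
  obtain ⟨k, C, h⟩ := hf
  refine ⟨2 * k, C ^ 2, fun x => ?_⟩
  rw [Real.norm_of_nonneg (by positivity)]
  calc ‖f x‖ ^ 2 ≤ (C * (1 + ‖x‖) ^ k) ^ 2 := pow_le_pow_left₀ (norm_nonneg _) (h x) 2
    _ = C ^ 2 * (1 + ‖x‖) ^ (2 * k) := by rw [mul_pow, ← pow_mul, mul_comm k 2]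

theorem pgr_sq' {f : E d → ℝ} (hf : Pgr f) : Pgr (fun x => f x ^ 2) := by
  have := pgr_sq hf
  simpa only [Real.norm_eq_abs, sq_abs] using this

theorem var_eq {X : Type*} [MeasurableSpace X] (μ : Measure X) [IsProbabilityMeasure μ]
    (g : X → ℝ) (h1 : Integrable g μ) (h2 : Integrable (fun x => g x ^ 2) μ) :
    ∫ x, (g x - ∫ y, g y ∂μ) ^ 2 ∂μ = ∫ x, g x ^ 2 ∂μ - (∫ x, g x ∂μ) ^ 2 := by
  set a := ∫ y, g y ∂μ with ha
  have h3 : ∀ x, (g x - a) ^ 2 = g x ^ 2 - (2 * a) * g x + a ^ 2 := fun x => by ring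
  simp only [h3]
  have h4 : Integrable (fun x => g x ^ 2 - 2 * a * g x) μ := h2.sub (h1.const_mul _)
  rw [integral_add h4 (integrable_const _), integral_sub h2 (h1.const_mul _), integral_const_mul]
  simp only [integral_const, probReal_univ, smul_eq_mul, one_mul, ← ha]
  ring

end Poin2

theorem LPot.poincare (h : LPot κ Φ) (hκ : 0 < κ) {f : E d → ℝ}
    (hf : ContDiff ℝ 2 f) (h0 : Pgr f) (h1 : Pgr (fderiv ℝ f)) :
    ∫ x, (f x - ∫ y, f y ∂(gibbs Φ)) ^ 2 ∂(gibbs Φ) ≤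
      κ⁻¹ * ∫ x, ‖fderiv ℝ f x‖ ^ 2 ∂(gibbs Φ) := by
  have hprob := h.prob hκ
  have hfc := hf.continuous
  have hfc1 : Continuous (fderiv ℝ f) := hf.continuous_fderiv (by norm_num)
  have i1 : Integrable f (gibbs Φ) := h.integrable hκ hfc h0
  have i2 : Integrable (fun x => f x ^ 2) (gibbs Φ) :=
    h.integrable hκ (by fun_prop) (Poin2.pgr_sq' h0)
  have i3 : Integrable (fun x => ‖fderiv ℝ f x‖ ^ 2) (gibbs Φ) :=
    h.integrable hκ (by fun_prop) (Poin2.pgr_sq h1)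
  obtain ⟨C, F, hC0, hFc, hFs, hF1, hF2, hev⟩ := P347Q.Poin.exists_trunc hf
  have T1 : Filter.Tendsto (fun n => ∫ x, F n x ∂(gibbs Φ)) Filter.atTop
      (𝓝 (∫ x, f x ∂(gibbs Φ))) := by
    refine tendsto_integral_of_dominated_convergence (fun x => |f x|)
      (fun n => (hFc n).continuous.aestronglyMeasurable) i1.abs
      (fun n => Filter.Eventually.of_forall (hF1 n)) (Filter.Eventually.of_forall fun x => ?_)
    exact tendsto_const_nhds.congr' ((hev x).mono fun n hn => hn.1.symm)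
  have T2 : Filter.Tendsto (fun n => ∫ x, F n x ^ 2 ∂(gibbs Φ)) Filter.atTop
      (𝓝 (∫ x, f x ^ 2 ∂(gibbs Φ))) := by
    refine tendsto_integral_of_dominated_convergence (fun x => f x ^ 2)
      (fun n => ((hFc n).continuous.pow 2).aestronglyMeasurable) i2
      (fun n => Filter.Eventually.of_forall fun x => ?_) (Filter.Eventually.of_forall fun x => ?_)
    · rw [Real.norm_eq_abs, abs_pow, ← sq_abs (f x)]
      exact pow_le_pow_left₀ (abs_nonneg _) (hF1 n x) 2
    · exact tendsto_const_nhds.congr' ((hev x).mono fun n hn => by simp only [hn.1])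
  have mF : ∀ n, AEStronglyMeasurable (fun x => ‖fderiv ℝ (F n) x‖ ^ 2) (gibbs Φ) := by
    intro n
    have h : Continuous (fderiv ℝ (F n)) := (hFc n).continuous_fderiv (by norm_num)
    have h' : Continuous (fun x => ‖fderiv ℝ (F n) x‖ ^ 2) := h.norm.pow 2
    exact h'.aestronglyMeasurable
  have i4 : Integrable (fun x => 2 * ‖fderiv ℝ f x‖ ^ 2 + 2 * C ^ 2 * f x ^ 2) (gibbs Φ) :=
    (i3.const_mul 2).add (i2.const_mul (2 * C ^ 2))
  have T3 : Filter.Tendsto (fun n => ∫ x, ‖fderiv ℝ (F n) x‖ ^ 2 ∂(gibbs Φ)) Filter.atTop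
      (𝓝 (∫ x, ‖fderiv ℝ f x‖ ^ 2 ∂(gibbs Φ))) := by
    refine tendsto_integral_of_dominated_convergence
      (fun x => 2 * ‖fderiv ℝ f x‖ ^ 2 + 2 * C ^ 2 * f x ^ 2)
      mF i4
      (fun n => Filter.Eventually.of_forall fun x => ?_) (Filter.Eventually.of_forall fun x => ?_)
    · rw [Real.norm_eq_abs, abs_of_nonneg (by positivity)]
      have h1 := pow_le_pow_left₀ (norm_nonneg _) (hF2 n x) 2
      have h2 : 0 ≤ (‖fderiv ℝ f x‖ - C * |f x|) ^ 2 := sq_nonneg _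
      have h3 : |f x| ^ 2 = f x ^ 2 := sq_abs _
      nlinarith
    · exact tendsto_const_nhds.congr' ((hev x).mono fun n hn => by simp only [hn.2])
  rw [Poin2.var_eq _ f i1 i2]
  have hle : ∀ n, ∫ x, F n x ^ 2 ∂(gibbs Φ) - (∫ x, F n x ∂(gibbs Φ)) ^ 2 ≤
      κ⁻¹ * ∫ x, ‖fderiv ℝ (F n) x‖ ^ 2 ∂(gibbs Φ) := by
    intro n
    obtain ⟨K, -, hK⟩ := P347Q.Poin.bounds_of_compact (hFc n).continuous (hFs n)
    have j1 : Integrable (F n) (gibbs Φ) :=
      Integrable.of_bound (hFc n).continuous.aestronglyMeasurable K (Filter.Eventually.of_forall hK)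
    have j2 : Integrable (fun x => F n x ^ 2) (gibbs Φ) :=
      Integrable.of_bound ((hFc n).continuous.pow 2).aestronglyMeasurable (K ^ 2)
        (Filter.Eventually.of_forall fun x => by
          rw [norm_pow]; exact pow_le_pow_left₀ (norm_nonneg _) (hK x) 2)
    rw [← Poin2.var_eq _ (F n) j1 j2]
    exact Poin2.poincare_compact h hκ (hFc n) (hFs n)
  exact le_of_tendsto_of_tendsto' (T2.sub (T1.pow 2)) (T3.const_mul κ⁻¹) hle

theorem LPot.var_lip (h : LPot κ Φ) (hκ : 0 < κ) {f : E d → ℝ} {L : ℝ}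
    (hf : ∀ x y, |f x - f y| ≤ L * ‖x - y‖) :
    ∫ x, (f x - ∫ y, f y ∂(gibbs Φ)) ^ 2 ∂(gibbs Φ) ≤ κ⁻¹ * L ^ 2 := by
  have hprob := h.prob hκ
  set M : ℝ := |L| with hM
  have hM0 : 0 ≤ M := abs_nonneg L
  have hML : M ^ 2 = L ^ 2 := sq_abs L
  have hfM : ∀ x y, |f x - f y| ≤ M * ‖x - y‖ := fun x y =>
    (hf x y).trans (mul_le_mul_of_nonneg_right (le_abs_self L) (norm_nonneg _))
  rw [← hML]
  have hlip : ∀ g : E d → ℝ, (∀ x y, |g x - g y| ≤ M * ‖x - y‖) → Continuous g := by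
    intro g hg
    have : LipschitzWith ⟨M, hM0⟩ g := by
      refine LipschitzWith.of_dist_le_mul fun x y => ?_
      rw [Real.dist_eq, dist_eq_norm]
      exact hg x y
    exact this.continuous
  have hfc := hlip f hfM
  have hpg : Pgr f := by
    refine ⟨1, |f 0| + M, fun x => ?_⟩
    have h1 := hfM x 0
    rw [sub_zero] at h1
    have h2 : |f x| ≤ |f x - f 0| + |f 0| := by
      have := abs_add_le (f x - f 0) (f 0)
      rwa [sub_add_cancel] at this
    rw [Real.norm_eq_abs, pow_one]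
    have h3 := norm_nonneg x
    have h4 := abs_nonneg (f 0)
    nlinarith
  have i1 : Integrable f (gibbs Φ) := h.integrable hκ hfc hpg
  have i2 : Integrable (fun x => f x ^ 2) (gibbs Φ) :=
    h.integrable hκ (by fun_prop) (Poin2.pgr_sq' hpg)
  -- bounded case
  have hbd : ∀ (g : E d → ℝ) (A : ℝ), (∀ x y, |g x - g y| ≤ M * ‖x - y‖) → (∀ x, |g x| ≤ A) →
      ∫ x, (g x - ∫ y, g y ∂(gibbs Φ)) ^ 2 ∂(gibbs Φ) ≤ κ⁻¹ * M ^ 2 := by
    intro g A hg hA
    have hgc := hlip g hg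
    have h1 := Poin2.var_of_exp (gibbs Φ) (f := g) (q := fun _ => κ⁻¹ * M ^ 2) (A := A) (B := 0)
      (Q := κ⁻¹ * M ^ 2) hgc.aestronglyMeasurable aestronglyMeasurable_const hA
      (fun _ => by positivity) (fun _ => le_rfl) le_rfl (by
        intro δ hδ _
        refine Poin2.pl_exp h hκ (f := fun x => δ * g x)
          (h := fun _ => δ ^ 2 * (1 / 2 + δ * 0) * (κ⁻¹ * M ^ 2)) (A := δ * A)
          (K := δ ^ 2 * (1 / 2 + δ * 0) * (κ⁻¹ * M ^ 2)) (by fun_prop) (by fun_prop)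
          (fun x => ?_) (fun x => ?_) ?_
        · rw [abs_mul, abs_of_pos hδ]; exact mul_le_mul_of_nonneg_left (hA x) hδ.le
        · rw [abs_of_nonneg (by positivity)]
        · intro m z
          have h2 := (le_abs_self _).trans (hg (m + z) (m - z))
          have h3 : m + z - (m - z) = (2 : ℝ) • z := by module
          rw [h3, norm_smul, Real.norm_eq_abs, abs_of_pos (by norm_num : (0 : ℝ) < 2)] at h2
          have h4 := mul_le_mul_of_nonneg_left h2 hδ.le
          have h5 : 0 ≤ (κ * ‖z‖ - δ * M) ^ 2 := sq_nonneg _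
          have h6 : κ * ‖z‖ ^ 2 + 2 * (δ ^ 2 * (1 / 2 + δ * 0) * (κ⁻¹ * M ^ 2)) -
              δ * (M * (2 * ‖z‖)) = κ⁻¹ * (κ * ‖z‖ - δ * M) ^ 2 := by
            field_simp
            ring
          have h7 : 0 ≤ κ⁻¹ * (κ * ‖z‖ - δ * M) ^ 2 := by positivity
          rw [← mul_sub]
          linarith)
    rw [integral_const] at h1
    simpa using h1
  -- truncation
  set F : ℕ → E d → ℝ := fun n x => max (min (f x) n) (-n) with hF
  have hF1 : ∀ n x, |F n x| ≤ |f x| := by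
    intro n x
    rw [hF]
    simp only
    have hn : (0 : ℝ) ≤ n := Nat.cast_nonneg n
    rw [abs_le]
    constructor
    · rcases le_total (f x) n with h1 | h1
      · rw [min_eq_left h1]
        exact (neg_abs_le _).trans (le_max_left _ _)
      · rw [min_eq_right h1]
        have := abs_nonneg (f x)
        have h2 : (n : ℝ) ≤ max (n : ℝ) (-n) := le_max_left _ _
        linarith
    · apply max_le
      · exact (min_le_left _ _).trans (le_abs_self _)
      · have := abs_nonneg (f x)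
        linarith
  have hF2 : ∀ n x, |F n x| ≤ n := by
    intro n x
    have hn : (0 : ℝ) ≤ n := Nat.cast_nonneg n
    rw [abs_le]
    constructor
    · exact le_max_right _ _
    · exact max_le (min_le_right _ _) (by linarith)
  have hF3 : ∀ n x y, |F n x - F n y| ≤ M * ‖x - y‖ := by
    intro n x y
    refine le_trans ?_ (hfM x y)
    refine (abs_max_sub_max_le_abs _ _ _).trans ?_
    have h1 := abs_min_sub_min_le_max (f x) n (f y) n
    rw [sub_self, abs_zero, max_eq_left (abs_nonneg _)] at h1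
    exact h1
  have hev : ∀ x, ∀ᶠ n : ℕ in Filter.atTop, F n x = f x := by
    intro x
    obtain ⟨n₀, hn₀⟩ := exists_nat_gt |f x|
    filter_upwards [Filter.eventually_ge_atTop n₀] with n hn
    have hx : |f x| < (n : ℝ) := by
      have : (n₀ : ℝ) ≤ n := by exact_mod_cast hn
      linarith
    have h1 := abs_lt.1 hx
    rw [hF]
    simp only
    rw [min_eq_left h1.2.le, max_eq_left h1.1.le]
  have hFc : ∀ n, Continuous (F n) := fun n => hlip _ (hF3 n)
  have T1 : Filter.Tendsto (fun n => ∫ x, F n x ∂(gibbs Φ)) Filter.atTop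
      (𝓝 (∫ x, f x ∂(gibbs Φ))) := by
    refine tendsto_integral_of_dominated_convergence (fun x => |f x|)
      (fun n => (hFc n).aestronglyMeasurable) i1.abs
      (fun n => Filter.Eventually.of_forall (hF1 n)) (Filter.Eventually.of_forall fun x => ?_)
    exact tendsto_const_nhds.congr' ((hev x).mono fun n hn => hn.symm)
  have T2 : Filter.Tendsto (fun n => ∫ x, F n x ^ 2 ∂(gibbs Φ)) Filter.atTop
      (𝓝 (∫ x, f x ^ 2 ∂(gibbs Φ))) := by
    refine tendsto_integral_of_dominated_convergence (fun x => f x ^ 2)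
      (fun n => ((hFc n).pow 2).aestronglyMeasurable) i2
      (fun n => Filter.Eventually.of_forall fun x => ?_) (Filter.Eventually.of_forall fun x => ?_)
    · rw [Real.norm_eq_abs, abs_pow, ← sq_abs (f x)]
      exact pow_le_pow_left₀ (abs_nonneg _) (hF1 n x) 2
    · exact tendsto_const_nhds.congr' ((hev x).mono fun n hn => by simp only [hn])
  rw [Poin2.var_eq _ f i1 i2]
  refine le_of_tendsto' (T2.sub (T1.pow 2)) fun n => ?_
  have j1 : Integrable (F n) (gibbs Φ) :=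
    Integrable.of_bound (hFc n).aestronglyMeasurable n (Filter.Eventually.of_forall (hF2 n))
  have j2 : Integrable (fun x => F n x ^ 2) (gibbs Φ) :=
    Integrable.of_bound ((hFc n).pow 2).aestronglyMeasurable ((n : ℝ) ^ 2)
      (Filter.Eventually.of_forall fun x => by
        rw [norm_pow]; exact pow_le_pow_left₀ (norm_nonneg _) (hF2 n x) 2)
  rw [← Poin2.var_eq _ (F n) j1 j2]
  exact hbd (F n) n (hF3 n) (hF2 n)

end P347S
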