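import Vale.Agent.P347S.Post2
import Vale.Agent.P347S.Poinc2

/-!
Module Appell: Hilbert-Schmidt bounds for the derivatives of posterior expectations.

Proof (see NOTE.md, section 2).  `s = ε²`, `m(y) = E_y w`, `ℓ_h(y,w) = ⟨w - m(y), h⟩`.
`P_∅ = 1`, `P_{h,t}(y,w) = s ∂_{y,h} P_t(y,w) + ℓ_h(y,w) P_t(y,w)` (polynomial in `w` with
coefficients smooth in `y`).  Then
(1) `∂_{y,h_n} … ∂_{y,h_1} E_y F = s^{-n} E_y[F P_{h_n,…,h_1}]`;   (2) `E_y P_t = 0` for `t ≠ ∅`;
(3) `∂_{w,v} P_{h_1…h_k} = ∑_i ⟨v,h_i⟩ P_{h_1…ĥ_i…h_k}`  (induction);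
(4) iterated Poincaré (`q_y` has Poincaré constant `s(1-s) ≤ s`): for a tensor `A`,
    `E_y (∑_I A_I P_{e_I})² ≤ (k!)² s^k ‖A‖²`;
(5) duality: `∑_I (s^{-k} E_y[(F - E_y F) P_{e_I}])² ≤ s^{-2k} Var_y(F) (k!)² s^k`.
-/

open MeasureTheory ProbabilityTheory Function
open scoped ENNReal BigOperators

namespace P347S

open P347Q

variable {d : ℕ} {ε : ℝ} {W : E d → ℝ}

namespace App

/-- iterated directional derivative; the last direction is applied last -/
noncomputable def dL : (n : ℕ) → (Fin n → Fin d) → (E d → ℝ) → E d → ℝ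
  | 0, _, f => f
  | n + 1, I, f => fun y => fderiv ℝ (dL n (Fin.init I) f) y (bas d (I (Fin.last n)))

theorem dL_cons (n : ℕ) (k : Fin d) (J : Fin n → Fin d) (f : E d → ℝ) :
    dL (n + 1) (Fin.cons k J : Fin (n + 1) → Fin d) f = dL n J (fun y => fderiv ℝ f y (bas d k)) := by
  induction n with
  | zero => rfl
  | succ n ih =>
    have h1 : (Fin.init (Fin.cons k J : Fin (n + 2) → Fin d)) =
        (Fin.cons k (Fin.init J) : Fin (n + 1) → Fin d) := by
      funext i
      refine Fin.cases ?_ (fun j => ?_) i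
      · rfl
      · simp only [Fin.init, Fin.cons_succ]
        rw [← Fin.succ_castSucc, Fin.cons_succ]
    have h2 : dL (n + 1 + 1) (Fin.cons k J : Fin (n + 2) → Fin d) f =
        fun y => fderiv ℝ (dL (n + 1) (Fin.init (Fin.cons k J : Fin (n + 2) → Fin d)) f) y
          (bas d ((Fin.cons k J : Fin (n + 2) → Fin d) (Fin.last (n + 1)))) := rfl
    rw [h2, h1, ih]
    rfl

theorem hs_eq (n : ℕ) (f : E d → ℝ) (y : E d) :
    hs (bas d) n f y = ∑ I : Fin n → Fin d, (dL n I f y) ^ 2 := by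
  induction n generalizing f with
  | zero => simp [hs, dL]
  | succ n ih =>
    simp only [hs, ih]
    rw [← (Fin.consEquiv (fun _ => Fin d)).sum_comp, Fintype.sum_prod_type]
    refine Finset.sum_congr rfl fun k _ => Finset.sum_congr rfl fun J _ => ?_
    rw [← dL_cons]
    rfl

/-- finite sums of products of a temperate function of `y` and a temperate function of `w` -/
inductive Cls : (E d → E d → ℝ) → Prop
  | tensor (a p : E d → ℝ) (ha : HasTemperateGrowth a) (hp : HasTemperateGrowth p) :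
      Cls (fun y w => a y * p w)
  | add (G G' : E d → E d → ℝ) (h : Cls G) (h' : Cls G') : Cls (fun y w => G y w + G' y w)

/-- the mean of the posterior in the direction `h` -/
noncomputable def mn (ε : ℝ) (W : E d → ℝ) (h y : E d) : ℝ := pe ε W (fun w => inner ℝ w h) y

/-- raising operator -/
noncomputable def op (ε : ℝ) (W : E d → ℝ) (h : E d) (G : E d → E d → ℝ) : E d → E d → ℝ :=
  fun y w => ε ^ 2 * fderiv ℝ (fun y' => G y' w) y h + (inner ℝ w h - mn ε W h y) * G y w

/-- derivative in the second variable -/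
noncomputable def dw (v : E d) (G : E d → E d → ℝ) : E d → E d → ℝ :=
  fun y w => fderiv ℝ (G y) w v

theorem Cls.diff {G : E d → E d → ℝ} (h : Cls G) (w : E d) : Differentiable ℝ (fun y => G y w) := by
  induction h with
  | tensor a p ha hp => exact (temp_diff ha).mul_const _
  | add G G' _ _ h1 h2 => exact h1.add h2

theorem Cls.temp {G : E d → E d → ℝ} (h : Cls G) (y : E d) : HasTemperateGrowth (G y) := by
  induction h with
  | tensor a p ha hp => exact tconst_mul _ hp
  | add G G' _ _ h1 h2 => exact tadd h1 h2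

theorem Cls.smul {G : E d → E d → ℝ} (h : Cls G) (c : ℝ) : Cls (fun y w => c * G y w) := by
  induction h with
  | tensor a p ha hp =>
    have := Cls.tensor (fun y => c * a y) p (tconst_mul c ha) hp
    simpa only [mul_assoc] using this
  | add G G' _ _ h1 h2 =>
    have := Cls.add _ _ h1 h2
    simpa only [mul_add] using this

theorem Cls.zero : Cls (fun _ _ : E d => (0 : ℝ)) := by
  have := Cls.tensor (fun _ : E d => (0 : ℝ)) (fun _ : E d => (0 : ℝ)) (HasTemperateGrowth.const 0)
    (HasTemperateGrowth.const 0)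
  simpa using this

theorem Cls.one : Cls (fun _ _ : E d => (1 : ℝ)) := by
  have := Cls.tensor (fun _ : E d => (1 : ℝ)) (fun _ : E d => (1 : ℝ)) (HasTemperateGrowth.const 1)
    (HasTemperateGrowth.const 1)
  simpa using this

theorem Cls.sum {ι : Type*} (s : Finset ι) {G : ι → E d → E d → ℝ} (h : ∀ i ∈ s, Cls (G i)) :
    Cls (fun y w => ∑ i ∈ s, G i y w) := by
  classical
  induction s using Finset.induction_on with
  | empty => simpa using Cls.zero
  | insert a s ha ih =>
    simp only [Finset.sum_insert ha]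
    exact Cls.add _ _ (h a (Finset.mem_insert_self _ _))
      (ih fun i hi => h i (Finset.mem_insert_of_mem hi))

theorem op_add {G G' : E d → E d → ℝ} (h : Cls G) (h' : Cls G') (v : E d) (y w : E d) :
    op ε W v (fun y w => G y w + G' y w) y w = op ε W v G y w + op ε W v G' y w := by
  unfold op
  rw [fderiv_fun_add (h.diff w y) (h'.diff w y), add_apply]
  ring

theorem op_smul {G : E d → E d → ℝ} (h : Cls G) (c : ℝ) (v : E d) (y w : E d) :
    op ε W v (fun y w => c * G y w) y w = c * op ε W v G y w := by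
  unfold op
  rw [fderiv_const_mul (h.diff w y) c, smul_apply, smul_eq_mul]
  ring

theorem op_sum {ι : Type*} (s : Finset ι) {G : ι → E d → E d → ℝ} (h : ∀ i ∈ s, Cls (G i))
    (v y w : E d) :
    op ε W v (fun y w => ∑ i ∈ s, G i y w) y w = ∑ i ∈ s, op ε W v (G i) y w := by
  unfold op
  rw [fderiv_fun_sum fun i hi => (h i hi).diff w y, Finset.mul_sum, sum_apply, Finset.mul_sum,
    ← Finset.sum_add_distrib]

theorem temp_inner (h : E d) : HasTemperateGrowth (fun w : E d => inner ℝ w h) :=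
  hasTemperateGrowth_inner_left h

theorem pgr_temp {f : E d → ℝ} (hf : HasTemperateGrowth f) : Pgr f := by
  obtain ⟨k, C, h⟩ := temp_bound hf
  exact ⟨k, C, fun x => by simpa using h x⟩

theorem pgr_fderiv {f : E d → ℝ} (hf : HasTemperateGrowth f) : Pgr (fderiv ℝ f) := by
  obtain ⟨k, C, h⟩ := hf.2 1
  exact ⟨k, C, fun x => by rw [← norm_iteratedFDeriv_one]; exact h x⟩

theorem pgr_mul {f g : E d → ℝ} (hf : Pgr f) (hg : Pgr g) : Pgr (fun x => f x * g x) := by
  obtain ⟨k, C, h⟩ := hf
  obtain ⟨k', C', h'⟩ := hg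
  refine ⟨k + k', C * C', fun x => ?_⟩
  rw [norm_mul, pow_add]
  calc ‖f x‖ * ‖g x‖ ≤ (C * (1 + ‖x‖) ^ k) * (C' * (1 + ‖x‖) ^ k') :=
        mul_le_mul (h x) (h' x) (norm_nonneg _) ((norm_nonneg _).trans (h x))
    _ = C * C' * ((1 + ‖x‖) ^ k * (1 + ‖x‖) ^ k') := by ring

section basic

variable (hW : KPot ε W) (h0 : 0 < ε) (h1 : ε ≤ 1 / 2)
include hW h0 h1

theorem kappa_pos : 0 < (ε ^ 2 * (1 - ε ^ 2))⁻¹ := by
  have : ε ^ 2 < 1 := by nlinarith
  have h2 : 0 < ε ^ 2 := by positivity
  have h3 : 0 < 1 - ε ^ 2 := by linarith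
  positivity

theorem pe_int {F : E d → ℝ} (hF : Continuous F) (hp : Pgr F) (y : E d) :
    Integrable F (post ε W y) :=
  (hW.lpot_pot h0 h1 y).integrable (kappa_pos hW h0 h1) hF hp

theorem int_cls {F : E d → ℝ} (hF : Continuous F) (hp : Pgr F) {G : E d → E d → ℝ} (hG : Cls G)
    (y y' : E d) : Integrable (fun w => F w * G y' w) (post ε W y) :=
  pe_int hW h0 h1 (hF.mul (hG.temp y').1.continuous) (pgr_mul hp (pgr_temp (hG.temp y'))) y

theorem pe_diff {F : E d → ℝ} (hF : Continuous F) (hp : Pgr F) : Differentiable ℝ (pe ε W F) :=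
  temp_diff (pe_temp hW h0 h1 hF hp)

theorem mn_temp (h : E d) : HasTemperateGrowth (mn ε W h) :=
  pe_temp hW h0 h1 (temp_inner h).1.continuous (pgr_temp (temp_inner h))

theorem Cls.op {G : E d → E d → ℝ} (h : Cls G) (v : E d) : Cls (op ε W v G) := by
  induction h with
  | tensor a p ha hp =>
    have e1 := Cls.tensor (fun y => ε ^ 2 * fderiv ℝ a y v - mn ε W v y * a y) p
      (tsub (tconst_mul _ (temp_dir ha v)) (tmul (mn_temp hW h0 h1 v) ha)) hp
    have e2 := Cls.tensor a (fun w => inner ℝ w v * p w) ha (tmul (temp_inner v) hp)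
    have e3 := Cls.add _ _ e1 e2
    convert e3 using 3 with y w
    unfold App.op
    rw [fderiv_mul_const (temp_diff ha y), smul_apply, smul_eq_mul]
    ring
  | add G G' hG hG' h1 h2 =>
    have := Cls.add _ _ h1 h2
    convert this using 3 with y w
    exact op_add hG hG' v y w

theorem Cls.pe {F : E d → ℝ} (hF : Continuous F) (hp : Pgr F) {G : E d → E d → ℝ} (hG : Cls G) :
    Differentiable ℝ (fun y => pe ε W (fun w => F w * G y w) y) ∧
    ∀ y v : E d, fderiv ℝ (fun y => P347S.pe ε W (fun w => F w * G y w) y) y v =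
      (ε ^ 2)⁻¹ * P347S.pe ε W (fun w => F w * App.op ε W v G y w) y := by
  induction hG with
  | tensor a p ha hp' =>
    have hFp : Continuous (fun w => F w * p w) := hF.mul hp'.1.continuous
    have hFp' : Pgr (fun w => F w * p w) := pgr_mul hp (pgr_temp hp')
    have e1 : (fun y => P347S.pe ε W (fun w => F w * (a y * p w)) y) =
        fun y => a y * P347S.pe ε W (fun w => F w * p w) y := by
      funext y
      unfold P347S.pe
      rw [← integral_const_mul]
      congr 1
      funext w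
      ring
    have e2 := pe_diff hW h0 h1 hFp hFp'
    rw [e1]
    refine ⟨(temp_diff ha).mul e2, fun y v => ?_⟩
    rw [fderiv_fun_mul (temp_diff ha y) (e2 y), add_apply, smul_apply, smul_apply,
      pe_fderiv hW h0 h1 hFp hFp', smul_eq_mul, smul_eq_mul]
    have i1 := pe_int hW h0 h1 hFp hFp' y
    have i2 : Integrable (fun w => F w * p w * inner ℝ w v) (post ε W y) :=
      pe_int hW h0 h1 (hFp.mul (temp_inner v).1.continuous)
        (pgr_mul hFp' (pgr_temp (temp_inner v))) y
    have e3 : P347S.pe ε W (fun w => F w * App.op ε W v (fun y w => a y * p w) y w) y =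
        (ε ^ 2 * fderiv ℝ a y v - mn ε W v y * a y) * P347S.pe ε W (fun w => F w * p w) y +
          a y * P347S.pe ε W (fun w => F w * p w * inner ℝ w v) y := by
      unfold P347S.pe
      rw [← integral_const_mul, ← integral_const_mul, ← integral_add (i1.const_mul _) (i2.const_mul _)]
      congr 1
      funext w
      unfold App.op
      beta_reduce
      rw [fderiv_mul_const (temp_diff ha y), smul_apply, smul_eq_mul]
      ring
    rw [e3]
    have h2 : ε ^ 2 ≠ 0 := by positivity
    unfold mn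
    field_simp
    ring
  | add G G' hG hG' ih ih' =>
    have e1 : (fun y => P347S.pe ε W (fun w => F w * (G y w + G' y w)) y) =
        fun y => P347S.pe ε W (fun w => F w * G y w) y + P347S.pe ε W (fun w => F w * G' y w) y := by
      funext y
      unfold P347S.pe
      rw [← integral_add (int_cls hW h0 h1 hF hp hG y y) (int_cls hW h0 h1 hF hp hG' y y)]
      congr 1
      funext w
      ring
    rw [e1]
    refine ⟨ih.1.add ih'.1, fun y v => ?_⟩
    rw [fderiv_fun_add (ih.1 y) (ih'.1 y), add_apply, ih.2, ih'.2, ← mul_add]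
    congr 1
    unfold P347S.pe
    rw [← integral_add (int_cls hW h0 h1 hF hp (Cls.op hW h0 h1 hG v) y y)
      (int_cls hW h0 h1 hF hp (Cls.op hW h0 h1 hG' v) y y)]
    congr 1
    funext w
    have e2 := op_add (ε := ε) (W := W) hG hG' v y w
    beta_reduce
    rw [e2]
    ring

end basic

theorem dw_tensor {a p : E d → ℝ} (hp : HasTemperateGrowth p) (v : E d) :
    dw v (fun y w => a y * p w) = fun y w => a y * fderiv ℝ p w v := by
  funext y w
  unfold dw
  rw [fderiv_const_mul (temp_diff hp w), smul_apply, smul_eq_mul]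

theorem op_tensor {a p : E d → ℝ} (ha : HasTemperateGrowth a) (h : E d) :
    op ε W h (fun y w => a y * p w) =
      fun y w => (ε ^ 2 * fderiv ℝ a y h - mn ε W h y * a y) * p w + a y * (inner ℝ w h * p w) := by
  funext y w
  unfold op
  rw [fderiv_mul_const (temp_diff ha y), smul_apply, smul_eq_mul]
  ring

theorem dw_add {G G' : E d → E d → ℝ} (h : Cls G) (h' : Cls G') (v : E d) :
    dw v (fun y w => G y w + G' y w) = fun y w => dw v G y w + dw v G' y w := by
  funext y w
  unfold dw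
  rw [fderiv_fun_add (temp_diff (h.temp y) w) (temp_diff (h'.temp y) w), add_apply]

theorem Cls.dw {G : E d → E d → ℝ} (h : Cls G) (v : E d) : Cls (dw v G) := by
  induction h with
  | tensor a p ha hp =>
    rw [dw_tensor hp]
    exact Cls.tensor _ _ ha (temp_dir hp v)
  | add G G' hG hG' h1 h2 =>
    rw [dw_add hG hG']
    exact Cls.add _ _ h1 h2

section basic

variable (hW : KPot ε W) (h0 : 0 < ε) (h1 : ε ≤ 1 / 2)
include hW h0 h1

theorem dw_op {G : E d → E d → ℝ} (hG : Cls G) (v h y w : E d) :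
    dw v (op ε W h G) y w = op ε W h (dw v G) y w + inner ℝ v h * G y w := by
  induction hG with
  | tensor a p ha hp =>
    have hip : HasTemperateGrowth (fun w : E d => inner ℝ w h * p w) := tmul (temp_inner h) hp
    have c1 : Cls (fun y w => (ε ^ 2 * fderiv ℝ a y h - mn ε W h y * a y) * p w) :=
      Cls.tensor _ _ (tsub (tconst_mul _ (temp_dir ha h)) (tmul (mn_temp hW h0 h1 h) ha)) hp
    have c2 : Cls (fun y w => a y * (inner ℝ w h * p w)) := Cls.tensor a _ ha hip
    rw [op_tensor ha, dw_add c1 c2, dw_tensor hp, dw_tensor hip, dw_tensor hp,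
      op_tensor ha]
    beta_reduce
    have e1 : fderiv ℝ (fun w : E d => inner ℝ w h * p w) w v =
        inner ℝ w h * fderiv ℝ p w v + inner ℝ v h * p w := by
      have e2 : fderiv ℝ (fun w : E d => (inner ℝ w h : ℝ)) w v = inner ℝ v h := by
        have : (fun w : E d => (inner ℝ w h : ℝ)) = fun w => innerSL ℝ h w := by
          funext w
          rw [innerSL_apply_apply, real_inner_comm]
        rw [this, ContinuousLinearMap.fderiv, innerSL_apply_apply, real_inner_comm]
      rw [fderiv_fun_mul (temp_diff (temp_inner h) w) (temp_diff hp w), add_apply, smul_apply,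
        smul_apply, e2, smul_eq_mul, smul_eq_mul]
      ring
    rw [e1]
    ring
  | add G G' hG hG' ih ih' =>
    have e1 : op ε W h (fun y w => G y w + G' y w) =
        fun y w => op ε W h G y w + op ε W h G' y w := by
      funext y w
      exact op_add hG hG' h y w
    rw [e1, dw_add (Cls.op hW h0 h1 hG h) (Cls.op hW h0 h1 hG' h), dw_add hG hG',
      op_add (hG.dw v) (hG'.dw v)]
    beta_reduce
    rw [ih, ih']
    ring

end basic

/-- the polynomials `P_I`; the last index is the last raising operator -/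
noncomputable def P (ε : ℝ) (W : E d → ℝ) : (n : ℕ) → (Fin n → Fin d) → E d → E d → ℝ
  | 0, _ => fun _ _ => 1
  | n + 1, I => op ε W (bas d (I (Fin.last n))) (P ε W n (Fin.init I))

theorem dL_zero (n : ℕ) (I : Fin (n + 1) → Fin d) (c : ℝ) (y : E d) :
    dL (n + 1) I (fun _ => c) y = 0 := by
  induction n generalizing y with
  | zero => simp [dL]
  | succ n ih =>
    have e1 : dL (n + 1) (Fin.init I) (fun _ : E d => c) = fun _ => 0 := funext fun y => ih _ y
    rw [dL, e1]
    simp

section basic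

variable (hW : KPot ε W) (h0 : 0 < ε) (h1 : ε ≤ 1 / 2)
include hW h0 h1

theorem Cls.P (n : ℕ) (I : Fin n → Fin d) : Cls (P ε W n I) := by
  induction n with
  | zero => exact Cls.one
  | succ n ih => exact Cls.op hW h0 h1 (ih _) _

theorem dL_pe {F : E d → ℝ} (hF : Continuous F) (hp : Pgr F) (n : ℕ) (I : Fin n → Fin d) :
    dL n I (pe ε W F) = fun y => (ε ^ (2 * n))⁻¹ * pe ε W (fun w => F w * App.P ε W n I y w) y := by
  induction n with
  | zero => simp [dL, App.P]
  | succ n ih =>
    funext y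
    obtain ⟨e1, e2⟩ := Cls.pe hW h0 h1 hF hp (Cls.P hW h0 h1 n (Fin.init I))
    rw [dL, ih]
    beta_reduce
    rw [fderiv_const_mul (e1 y), smul_apply, e2, smul_eq_mul, ← mul_assoc]
    congr 1
    rw [← mul_inv, ← pow_add]
    rfl

theorem pe_const (c : ℝ) (y : E d) : pe ε W (fun _ => c) y = c := by
  have := post_prob hW h0 h1 y
  unfold pe
  simp

theorem pe_P (n : ℕ) (I : Fin (n + 1) → Fin d) (y : E d) :
    pe ε W (App.P ε W (n + 1) I y) y = 0 := by
  have e1 := dL_pe hW h0 h1 (F := fun _ : E d => (1 : ℝ)) continuous_const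
    (pgr_temp (HasTemperateGrowth.const 1)) (n + 1) I
  have e2 : pe ε W (fun _ : E d => (1 : ℝ)) = fun _ => 1 := funext fun y => pe_const hW h0 h1 1 y
  rw [e2] at e1
  have e3 := congrFun e1 y
  rw [dL_zero] at e3
  simp only [one_mul] at e3
  have h2 : (ε ^ (2 * (n + 1)))⁻¹ ≠ 0 := by positivity
  rcases mul_eq_zero.1 e3.symm with h | h
  · exact absurd h h2
  · exact h

theorem dw_P (n : ℕ) (I : Fin (n + 1) → Fin d) (v y w : E d) :
    dw v (App.P ε W (n + 1) I) y w =
      ∑ i : Fin (n + 1), inner ℝ v (bas d (I i)) * App.P ε W n (i.removeNth I) y w := by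
  induction n generalizing y w with
  | zero =>
    have e0 : App.P ε W (0 + 1) I = op ε W (bas d (I (Fin.last 0))) (fun _ _ => 1) := rfl
    rw [e0, dw_op hW h0 h1 Cls.one]
    have e1 : dw v (fun _ _ : E d => (1 : ℝ)) = fun _ _ => 0 := by
      funext y w
      simp [dw]
    rw [e1]
    simp [op, App.P]
  | succ n ih =>
    have e0 : App.P ε W (n + 1 + 1) I =
        op ε W (bas d (I (Fin.last (n + 1)))) (App.P ε W (n + 1) (Fin.init I)) := rfl
    rw [e0, dw_op hW h0 h1 (Cls.P hW h0 h1 _ _)]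
    have e1 : dw v (App.P ε W (n + 1) (Fin.init I)) =
        fun y w => ∑ i : Fin (n + 1), inner ℝ v (bas d (Fin.init I i)) *
          App.P ε W n (i.removeNth (Fin.init I)) y w := by
      funext y w
      exact ih _ y w
    have e5 := op_sum (ε := ε) (W := W) (Finset.univ : Finset (Fin (n + 1)))
      (G := fun (i : Fin (n + 1)) (y w : E d) => inner ℝ v (bas d (Fin.init I i)) *
        App.P ε W n (i.removeNth (Fin.init I)) y w)
      (fun i _ => (Cls.P hW h0 h1 n _).smul _) (bas d (I (Fin.last (n + 1)))) y w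
    rw [e1, e5, Fin.sum_univ_castSucc (n := n + 1)]
    congr 1
    · refine Finset.sum_congr rfl fun i _ => ?_
      rw [op_smul (Cls.P hW h0 h1 _ _)]
      have e2 : App.P ε W (n + 1) (Fin.removeNth (Fin.castSucc i) I) =
          op ε W (bas d (Fin.removeNth (Fin.castSucc i) I (Fin.last n)))
            (App.P ε W n (Fin.init (Fin.removeNth (Fin.castSucc i) I))) := rfl
      have e3 : (Fin.init (Fin.removeNth (Fin.castSucc i) I) : Fin n → Fin d) =
          Fin.removeNth i (Fin.init I) := by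
        funext j
        simp only [Fin.init, Fin.removeNth, Fin.castSucc_succAbove_castSucc]
      have e4 : (Fin.removeNth (Fin.castSucc i) I (Fin.last n) : Fin d) = I (Fin.last (n + 1)) := by
        simp only [Fin.removeNth]
        rw [Fin.succAbove_of_le_castSucc _ _ (Fin.castSucc_le_castSucc_iff.2 (Fin.le_last i))]
        try rfl
      rw [e2, e3, e4]
      rfl
    · have e2 : (Fin.removeNth (Fin.last (n + 1)) I : Fin (n + 1) → Fin d) = Fin.init I := by
        funext j
        simp [Fin.init, Fin.removeNth]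
      rw [e2]

end basic

/-- contraction of a tensor with the polynomials `P_I` -/
noncomputable def Q (ε : ℝ) (W : E d → ℝ) (n : ℕ) (A : (Fin n → Fin d) → ℝ) : E d → E d → ℝ :=
  fun y w => ∑ I, A I * P ε W n I y w

theorem inner_bas_bas (j k : Fin d) : (inner ℝ (bas d j) (bas d k) : ℝ) = if j = k then 1 else 0 := by
  rw [inner_bas]
  simp [bas, eq_comm]

theorem slice_sum (n : ℕ) (A : (Fin (n + 1) → Fin d) → ℝ) (i : Fin (n + 1)) :
    ∑ j : Fin d, ∑ J : Fin n → Fin d, A (i.insertNth j J) ^ 2 = ∑ I, A I ^ 2 := by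
  rw [← (Fin.insertNthEquiv (fun _ => Fin d) i).sum_comp, Fintype.sum_prod_type]
  rfl

section basic

variable (hW : KPot ε W) (h0 : 0 < ε) (h1 : ε ≤ 1 / 2)
include hW h0 h1

theorem Cls.Q (n : ℕ) (A : (Fin n → Fin d) → ℝ) : Cls (Q ε W n A) :=
  Cls.sum _ fun I _ => (Cls.P hW h0 h1 n I).smul (A I)

theorem dw_Q (n : ℕ) (A : (Fin (n + 1) → Fin d) → ℝ) (j : Fin d) (y w : E d) :
    dw (bas d j) (App.Q ε W (n + 1) A) y w =
      ∑ i : Fin (n + 1), App.Q ε W n (fun J => A (i.insertNth j J)) y w := by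
  have e1 : dw (bas d j) (App.Q ε W (n + 1) A) y w =
      ∑ I, A I * dw (bas d j) (App.P ε W (n + 1) I) y w := by
    unfold dw App.Q
    rw [fderiv_fun_sum fun I _ => ((temp_diff ((Cls.P hW h0 h1 (n + 1) I).temp y)) w).const_mul _,
      sum_apply]
    refine Finset.sum_congr rfl fun I _ => ?_
    rw [fderiv_const_mul ((temp_diff ((Cls.P hW h0 h1 (n + 1) I).temp y)) w), smul_apply,
      smul_eq_mul]
  rw [e1]
  simp only [dw_P hW h0 h1, Finset.mul_sum]
  rw [Finset.sum_comm]
  refine Finset.sum_congr rfl fun i _ => ?_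
  rw [← (Fin.insertNthEquiv (fun _ => Fin d) i).sum_comp, Fintype.sum_prod_type]
  have e2 : ∀ (k : Fin d) (J : Fin n → Fin d),
      (Fin.insertNthEquiv (fun _ => Fin d) i) (k, J) = i.insertNth k J := fun _ _ => rfl
  have e3 : ∀ (k : Fin d) (J : Fin n → Fin d),
      (i.removeNth (i.insertNth k J : Fin (n + 1) → Fin d) : Fin n → Fin d) = J := fun k J =>
    funext fun l => by simp [Fin.removeNth]
  simp only [e2, e3, Fin.insertNth_apply_same, inner_bas_bas]
  rw [Finset.sum_eq_single j]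
  · simp [App.Q]
  · intro k _ hk
    simp [Ne.symm hk]
  · simp

theorem int_PQ {F : E d → ℝ} (hF : Continuous F) (hp : Pgr F) (n : ℕ) (A : (Fin n → Fin d) → ℝ)
    (y : E d) : ∫ w, F w * App.Q ε W n A y w ∂(post ε W y) =
      ∑ I, A I * pe ε W (fun w => F w * App.P ε W n I y w) y := by
  unfold App.Q pe
  simp only [Finset.mul_sum]
  rw [integral_finsetSum]
  · refine Finset.sum_congr rfl fun I _ => ?_
    rw [← integral_const_mul]
    congr 1
    funext w
    ring
  · intro I _
    have := (int_cls hW h0 h1 hF hp (Cls.P hW h0 h1 n I) y y).const_mul (A I)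
    refine this.congr (Filter.Eventually.of_forall fun w => ?_)
    beta_reduce
    ring

theorem int_Q (n : ℕ) (A : (Fin (n + 1) → Fin d) → ℝ) (y : E d) :
    ∫ w, App.Q ε W (n + 1) A y w ∂(post ε W y) = 0 := by
  have e1 := int_PQ hW h0 h1 (F := fun _ : E d => (1 : ℝ)) continuous_const
    (pgr_temp (HasTemperateGrowth.const 1)) (n + 1) A y
  simp only [one_mul] at e1
  rw [e1]
  refine Finset.sum_eq_zero fun I _ => ?_
  rw [pe_P hW h0 h1, mul_zero]

theorem integrable_sq {G : E d → E d → ℝ} (hG : Cls G) (y : E d) :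
    Integrable (fun w => G y w ^ 2) (post ε W y) :=
  pe_int hW h0 h1 (tpow (hG.temp y) 2).1.continuous (pgr_temp (tpow (hG.temp y) 2)) y

theorem int_Q_sq (n : ℕ) (A : (Fin n → Fin d) → ℝ) (y : E d) :
    ∫ w, App.Q ε W n A y w ^ 2 ∂(post ε W y) ≤
      ((n.factorial : ℝ)) ^ 2 * ε ^ (2 * n) * ∑ I, A I ^ 2 := by
  induction n with
  | zero =>
    have := post_prob hW h0 h1 y
    simp [App.Q, App.P]
  | succ n ih =>
    have hQ := Cls.Q hW h0 h1 (n + 1) A
    have hpo := (hW.lpot_pot h0 h1 y).poincare (kappa_pos hW h0 h1)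
      (f := App.Q ε W (n + 1) A y) ((hQ.temp y).1.of_le ENat.LEInfty.out)
      (pgr_temp (hQ.temp y)) (pgr_fderiv (hQ.temp y))
    have hi := int_Q hW h0 h1 n A y
    unfold post at hi
    rw [hi, inv_inv] at hpo
    simp only [sub_zero] at hpo
    have hε2 : 0 < ε ^ 2 := by positivity
    have hg : ∀ w, ‖fderiv ℝ (App.Q ε W (n + 1) A y) w‖ ^ 2 ≤
        ∑ j : Fin d, ((n : ℝ) + 1) * ∑ i : Fin (n + 1),
          App.Q ε W n (fun J => A (i.insertNth j J)) y w ^ 2 := by
      intro w
      rw [← norm_gradient, norm_gradient_sq]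
      refine Finset.sum_le_sum fun j _ => ?_
      have e1 : fderiv ℝ (App.Q ε W (n + 1) A y) w (bas d j) =
          ∑ i : Fin (n + 1), App.Q ε W n (fun J => A (i.insertNth j J)) y w :=
        dw_Q hW h0 h1 n A j y w
      rw [e1]
      have := sq_sum_le_card_mul_sum_sq (s := (Finset.univ : Finset (Fin (n + 1))))
        (f := fun i => App.Q ε W n (fun J => A (i.insertNth j J)) y w)
      simpa using this
    have hint : ∀ (j : Fin d) (i : Fin (n + 1)), Integrable (fun w =>
        App.Q ε W n (fun J => A (i.insertNth j J)) y w ^ 2) (post ε W y) := fun j i =>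
      integrable_sq hW h0 h1 (Cls.Q hW h0 h1 n _) y
    have hgi : Integrable (fun w => ‖fderiv ℝ (App.Q ε W (n + 1) A y) w‖ ^ 2) (post ε W y) := by
      refine pe_int hW h0 h1 ?_ ?_ y
      · exact ((temp_fderiv (hQ.temp y)).1.continuous.norm).pow 2
      · obtain ⟨k, C, h⟩ := pgr_fderiv (hQ.temp y)
        refine ⟨2 * k, C ^ 2, fun x => ?_⟩
        rw [norm_pow, norm_norm, mul_comm 2 k, pow_mul, ← mul_pow]
        exact pow_le_pow_left₀ (norm_nonneg _) (h x) 2
    have hb : ∫ w, ‖fderiv ℝ (App.Q ε W (n + 1) A y) w‖ ^ 2 ∂(post ε W y) ≤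
        ∑ j : Fin d, ((n : ℝ) + 1) * ∑ i : Fin (n + 1),
          ∫ w, App.Q ε W n (fun J => A (i.insertNth j J)) y w ^ 2 ∂(post ε W y) := by
      refine (integral_mono hgi ?_ hg).trans (le_of_eq ?_)
      · exact integrable_finsetSum _ fun j _ =>
          (integrable_finsetSum _ fun i _ => hint j i).const_mul _
      · rw [integral_finsetSum _ fun j _ =>
          (integrable_finsetSum _ fun i _ => hint j i).const_mul _]
        refine Finset.sum_congr rfl fun j _ => ?_
        rw [integral_const_mul, integral_finsetSum _ fun i _ => hint j i]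
    have hb2 : ∑ j : Fin d, ((n : ℝ) + 1) * ∑ i : Fin (n + 1),
          ∫ w, App.Q ε W n (fun J => A (i.insertNth j J)) y w ^ 2 ∂(post ε W y) ≤
        ((n : ℝ) + 1) ^ 2 * ((n.factorial : ℝ) ^ 2 * ε ^ (2 * n)) * ∑ I, A I ^ 2 := by
      calc ∑ j : Fin d, ((n : ℝ) + 1) * ∑ i : Fin (n + 1),
          ∫ w, App.Q ε W n (fun J => A (i.insertNth j J)) y w ^ 2 ∂(post ε W y)
          ≤ ∑ j : Fin d, ((n : ℝ) + 1) * ∑ i : Fin (n + 1),
            ((n.factorial : ℝ)) ^ 2 * ε ^ (2 * n) * ∑ J, A (i.insertNth j J) ^ 2 := by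
            refine Finset.sum_le_sum fun j _ => mul_le_mul_of_nonneg_left ?_ (by positivity)
            exact Finset.sum_le_sum fun i _ => ih _
        _ = ((n : ℝ) + 1) * ((n.factorial : ℝ) ^ 2 * ε ^ (2 * n)) *
            ∑ i : Fin (n + 1), ∑ j : Fin d, ∑ J, A (i.insertNth j J) ^ 2 := by
            rw [Finset.sum_comm (s := (Finset.univ : Finset (Fin (n + 1))))]
            simp only [Finset.mul_sum]
            refine Finset.sum_congr rfl fun j _ => Finset.sum_congr rfl fun i _ =>
              Finset.sum_congr rfl fun J _ => ?_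
            ring
        _ = _ := by
            simp only [slice_sum n A]
            rw [Finset.sum_const, Finset.card_univ, Fintype.card_fin, nsmul_eq_mul]
            push_cast
            ring
    have hS : 0 ≤ ∑ I, A I ^ 2 := Finset.sum_nonneg fun I _ => sq_nonneg _
    have hR : 0 ≤ ((n : ℝ) + 1) ^ 2 * ((n.factorial : ℝ) ^ 2 * ε ^ (2 * n)) * ∑ I, A I ^ 2 := by
      positivity
    have hle : ε ^ 2 * (1 - ε ^ 2) ≤ ε ^ 2 := by nlinarith
    have hnn : 0 ≤ ∫ w, ‖fderiv ℝ (App.Q ε W (n + 1) A y) w‖ ^ 2 ∂(post ε W y) :=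
      integral_nonneg fun w => by positivity
    calc ∫ w, App.Q ε W (n + 1) A y w ^ 2 ∂(post ε W y)
        ≤ (ε ^ 2 * (1 - ε ^ 2)) *
          ∫ w, ‖fderiv ℝ (App.Q ε W (n + 1) A y) w‖ ^ 2 ∂(post ε W y) := hpo
      _ ≤ ε ^ 2 * ∫ w, ‖fderiv ℝ (App.Q ε W (n + 1) A y) w‖ ^ 2 ∂(post ε W y) :=
          mul_le_mul_of_nonneg_right hle hnn
      _ ≤ ε ^ 2 * (((n : ℝ) + 1) ^ 2 * ((n.factorial : ℝ) ^ 2 * ε ^ (2 * n)) * ∑ I, A I ^ 2) :=
          mul_le_mul_of_nonneg_left (hb.trans hb2) hε2.le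
      _ = _ := by
          rw [Nat.factorial_succ]
          push_cast
          ring

end basic

end App

open App in
theorem pe_hs (hW : KPot ε W) (h0 : 0 < ε) (h1 : ε ≤ 1 / 2) {F : E d → ℝ}
    (hF : Continuous F) (hp : Pgr F) {n : ℕ} (hn : 1 ≤ n) (y : E d) :
    hs (bas d) n (pe ε W F) y ≤ ((n.factorial : ℝ)) ^ 2 * (ε ^ (2 * n))⁻¹ *
      ∫ w, (F w - pe ε W F y) ^ 2 ∂(post ε W y) := by
  obtain ⟨n, rfl⟩ : ∃ k, n = k + 1 := ⟨n - 1, by omega⟩
  set m : ℝ := pe ε W F y with hm
  set D : (Fin (n + 1) → Fin d) → ℝ := fun I => dL (n + 1) I (pe ε W F) y with hD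
  set S : ℝ := ∑ I, D I ^ 2 with hS
  have e0 : hs (bas d) (n + 1) (pe ε W F) y = S := hs_eq (n + 1) _ y
  rw [e0]
  have hgc : Continuous (fun w => F w - m) := hF.sub continuous_const
  have hgp : Pgr (fun w => F w - m) := by
    obtain ⟨k, C, h⟩ := hp
    refine ⟨k, C + ‖m‖, fun x => ?_⟩
    have h2 : (1 : ℝ) ≤ (1 + ‖x‖) ^ k := one_le_pow₀ (by linarith [norm_nonneg x])
    calc ‖F x - m‖ ≤ ‖F x‖ + ‖m‖ := norm_sub_le _ _
      _ ≤ C * (1 + ‖x‖) ^ k + ‖m‖ * (1 + ‖x‖) ^ k :=
          add_le_add (h x) (le_mul_of_one_le_right (norm_nonneg _) h2)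
      _ = (C + ‖m‖) * (1 + ‖x‖) ^ k := by ring
  have e1 : ∀ I, D I = (ε ^ (2 * (n + 1)))⁻¹ * pe ε W (fun w => F w * P ε W (n + 1) I y w) y :=
    fun I => congrFun (dL_pe hW h0 h1 hF hp (n + 1) I) y
  have e2 : ∀ I, pe ε W (fun w => (F w - m) * P ε W (n + 1) I y w) y =
      pe ε W (fun w => F w * P ε W (n + 1) I y w) y := by
    intro I
    have h2 := pe_P hW h0 h1 n I y
    have i1 := int_cls hW h0 h1 hF hp (Cls.P hW h0 h1 (n + 1) I) y y
    have i2 : Integrable (fun w => m * P ε W (n + 1) I y w) (post ε W y) :=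
      int_cls hW h0 h1 (F := fun _ => m) continuous_const (pgr_temp (HasTemperateGrowth.const m))
        (Cls.P hW h0 h1 (n + 1) I) y y
    unfold pe at h2 ⊢
    have e3 : (fun w => (F w - m) * P ε W (n + 1) I y w) =
        fun w => F w * P ε W (n + 1) I y w - m * P ε W (n + 1) I y w := by
      funext w
      ring
    rw [e3, integral_sub i1 i2, integral_const_mul, h2, mul_zero, sub_zero]
  have e3 : S = (ε ^ (2 * (n + 1)))⁻¹ *
      ∫ w, (F w - m) * Q ε W (n + 1) D y w ∂(post ε W y) := by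
    rw [int_PQ hW h0 h1 hgc hgp, Finset.mul_sum, hS]
    refine Finset.sum_congr rfl fun I _ => ?_
    rw [e2]
    rw [sq]
    conv_lhs => rw [e1 I]
    rw [e1 I]
    ring
  have hQ := Cls.Q hW h0 h1 (n + 1) D
  set V : ℝ := ∫ w, (F w - m) ^ 2 ∂(post ε W y) with hV
  have hfac : (0 : ℝ) < ((n + 1).factorial : ℝ) := by exact_mod_cast Nat.factorial_pos _
  set t : ℝ := (((n + 1).factorial : ℝ)) ^ 2 with ht
  have ht0 : 0 < t := by positivity
  have hε : 0 < ε ^ (2 * (n + 1)) := by positivity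
  have iV : Integrable (fun w => (F w - m) ^ 2) (post ε W y) := by
    have := pe_int hW h0 h1 (hgc.mul hgc) (pgr_mul hgp hgp) y
    refine this.congr (Filter.Eventually.of_forall fun w => ?_)
    simp only [Pi.mul_apply]
    ring
  have iQ := integrable_sq hW h0 h1 hQ y
  have hle : ∫ w, (F w - m) * Q ε W (n + 1) D y w ∂(post ε W y) ≤
      t / 2 * V + (2 * t)⁻¹ * ∫ w, Q ε W (n + 1) D y w ^ 2 ∂(post ε W y) := by
    rw [hV, ← integral_const_mul, ← integral_const_mul,
      ← integral_add (iV.const_mul _) (iQ.const_mul _)]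
    refine integral_mono (int_cls hW h0 h1 hgc hgp hQ y y)
      ((iV.const_mul _).add (iQ.const_mul _)) fun w => ?_
    beta_reduce
    have h2 : t / 2 * (F w - m) ^ 2 + (2 * t)⁻¹ * Q ε W (n + 1) D y w ^ 2 -
        (F w - m) * Q ε W (n + 1) D y w =
        (2 * t)⁻¹ * (t * (F w - m) - Q ε W (n + 1) D y w) ^ 2 := by
      field_simp
      ring
    have h3 : 0 ≤ (2 * t)⁻¹ * (t * (F w - m) - Q ε W (n + 1) D y w) ^ 2 := by positivity
    linarith
  have hq := int_Q_sq hW h0 h1 (n + 1) D y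
  rw [← hS, ← ht] at hq
  have h5 : S ≤ (ε ^ (2 * (n + 1)))⁻¹ * (t / 2 * V + (2 * t)⁻¹ * (t * ε ^ (2 * (n + 1)) * S)) := by
    conv_lhs => rw [e3]
    refine mul_le_mul_of_nonneg_left (hle.trans ?_) (inv_nonneg.2 hε.le)
    gcongr
  have h6 : (ε ^ (2 * (n + 1)))⁻¹ * (t / 2 * V + (2 * t)⁻¹ * (t * ε ^ (2 * (n + 1)) * S)) =
      (t * (ε ^ (2 * (n + 1)))⁻¹ * V) / 2 + S / 2 := by
    field_simp
  rw [h6] at h5
  linarith

end P347S
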