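import Vale.Agent.P347S.Poinc

/-!
Module BaseTV: moments of the gradient under `cv V t`, and the last level of the recursion.
`E_{gibbs V}|∇V|² = E ΔV ≤ 2d` (`LPot.ibp` with `f = ∂_i V`), `|∇V(x+√t z)| ≤ |∇V(x)| + 2√t|z|`.
-/

open MeasureTheory ProbabilityTheory Function
open scoped ENNReal BigOperators

namespace P347S

open P347Q

variable {d : ℕ}

theorem CPot.lpot {lam : ℝ} {V : E d → ℝ} (hV : CPot lam V) : LPot 1 V :=
  ⟨hV.smooth, fun x w => by rw [one_mul]; exact hV.lower x w⟩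

theorem CPot.upper2 {lam : ℝ} {V : E d → ℝ} (hV : CPot lam V) (hl : lam ≤ 1) (x w : E d) :
    fderiv ℝ (fderiv ℝ V) x w w ≤ 2 * ‖w‖ ^ 2 :=
  (hV.upper x w).trans (mul_le_mul_of_nonneg_right (by linarith) (sq_nonneg _))

theorem CPot.grad_lip {lam : ℝ} {V : E d → ℝ} (hV : CPot lam V) (hl : lam ≤ 1) (x y : E d) :
    ‖gradient V x - gradient V y‖ ≤ 2 * ‖x - y‖ := by
  rw [PotAux.grad_sub]
  exact PotAux.fderiv_lip hV.smooth hV.lower (hV.upper2 hl) x y

theorem CPot.grad_cont {lam : ℝ} {V : E d → ℝ} (hV : CPot lam V) : Continuous (gradient V) := by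
  unfold gradient
  exact (InnerProductSpace.toDual ℝ (E d)).symm.continuous.comp
    (hV.smooth.continuous_fderiv (by norm_num))

theorem CPot.fderiv_poly {lam : ℝ} {V : E d → ℝ} (hV : CPot lam V) (hl : lam ≤ 1) (x : E d) :
    ‖fderiv ℝ V x‖ ≤ (‖fderiv ℝ V 0‖ + 2) * (1 + ‖x‖) ^ 1 := by
  have h := PotAux.fderiv_lip hV.smooth hV.lower (hV.upper2 hl) x 0
  rw [sub_zero] at h
  have h2 : ‖fderiv ℝ V x‖ ≤ ‖fderiv ℝ V 0‖ + ‖fderiv ℝ V x - fderiv ℝ V 0‖ := by
    have := norm_add_le (fderiv ℝ V 0) (fderiv ℝ V x - fderiv ℝ V 0)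
    rwa [add_sub_cancel] at this
  nlinarith [norm_nonneg (fderiv ℝ V 0), norm_nonneg x,
    mul_nonneg (norm_nonneg (fderiv ℝ V 0)) (norm_nonneg x)]

theorem gibbs_grad_sq_C {lam : ℝ} {V : E d → ℝ} (hV : CPot lam V) (hl : lam ≤ 1) :
    Integrable (fun x => ‖gradient V x‖ ^ 2) (gibbs V) ∧
      ∫ x, ‖gradient V x‖ ^ 2 ∂(gibbs V) ≤ 2 * d := by
  have hp := hV.lpot.prob one_pos
  have hc : Continuous (fderiv ℝ V) := hV.smooth.continuous_fderiv (by norm_num)
  have hc1 : ContDiff ℝ 1 (fderiv ℝ V) := hV.smooth.fderiv_right (m := 1) (by norm_num)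
  have hΦ : Pgr (fderiv ℝ V) := ⟨1, _, fun x => hV.fderiv_poly hl x⟩
  have hf1 : ∀ i : Fin d, ContDiff ℝ 1 (fun x => fderiv ℝ V x (bas d i)) := fun i =>
    hc1.clm_apply contDiff_const
  have hf0 : ∀ i : Fin d, Pgr (fun x => fderiv ℝ V x (bas d i)) := by
    intro i
    refine ⟨1, ‖fderiv ℝ V 0‖ + 2, fun x => ?_⟩
    have h := (fderiv ℝ V x).le_opNorm (bas d i)
    rw [norm_bas, mul_one] at h
    exact h.trans (hV.fderiv_poly hl x)
  have hfd : ∀ (i : Fin d) (x w : E d), fderiv ℝ (fun x => fderiv ℝ V x (bas d i)) x w =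
      fderiv ℝ (fderiv ℝ V) x w (bas d i) := by
    intro i x w
    have h1 : HasFDerivAt (fderiv ℝ V) (fderiv ℝ (fderiv ℝ V) x) x :=
      (hc1.differentiable (by norm_num) x).hasFDerivAt
    have h2 := h1.clm_apply (hasFDerivAt_const (bas d i) x)
    rw [h2.fderiv]
    simp
  have hf2 : ∀ i : Fin d, Pgr (fderiv ℝ (fun x => fderiv ℝ V x (bas d i))) := by
    intro i
    refine ⟨0, 2, fun x => ?_⟩
    rw [pow_zero, mul_one]
    refine ContinuousLinearMap.opNorm_le_bound _ (by norm_num) fun w => ?_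
    rw [hfd]
    have h1 := PotAux.norm_hess_le hV.smooth hV.lower (hV.upper2 hl) x
    have h2 := (fderiv ℝ (fderiv ℝ V) x w).le_opNorm (bas d i)
    rw [norm_bas, mul_one] at h2
    have h3 := (fderiv ℝ (fderiv ℝ V) x).le_opNorm w
    refine h2.trans (h3.trans ?_)
    exact mul_le_mul_of_nonneg_right h1 (norm_nonneg _)
  have hi : ∀ i : Fin d, Integrable (fun x => (fderiv ℝ V x (bas d i)) ^ 2) (gibbs V) := by
    intro i
    refine hV.lpot.integrable one_pos ((hf1 i).continuous.pow 2) ⟨2, (‖fderiv ℝ V 0‖ + 2) ^ 2, fun x => ?_⟩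
    have h := (fderiv ℝ V x).le_opNorm (bas d i)
    rw [norm_bas, mul_one] at h
    have h2 := h.trans (hV.fderiv_poly hl x)
    rw [norm_pow]
    calc ‖fderiv ℝ V x (bas d i)‖ ^ 2 ≤ ((‖fderiv ℝ V 0‖ + 2) * (1 + ‖x‖) ^ 1) ^ 2 :=
          pow_le_pow_left₀ (norm_nonneg _) h2 2
      _ = _ := by ring
  have hi2 : ∀ i : Fin d, Integrable (fun x => fderiv ℝ (fun x => fderiv ℝ V x (bas d i)) x (bas d i))
      (gibbs V) := by
    intro i
    refine hV.lpot.integrable one_pos
      (((hf1 i).continuous_fderiv (by norm_num)).clm_apply continuous_const) ?_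
    refine ⟨0, 2, fun x => ?_⟩
    simp only [hfd]
    rw [pow_zero, mul_one]
    have h1 := PotAux.norm_hess_le hV.smooth hV.lower (hV.upper2 hl) x
    have h2 := (fderiv ℝ (fderiv ℝ V) x (bas d i)).le_opNorm (bas d i)
    rw [norm_bas, mul_one] at h2
    have h3 := (fderiv ℝ (fderiv ℝ V) x).le_opNorm (bas d i)
    rw [norm_bas, mul_one] at h3
    exact h2.trans (h3.trans h1)
  simp only [norm_gradient_sq]
  refine ⟨integrable_finsetSum _ fun i _ => hi i, ?_⟩
  rw [integral_finsetSum _ (fun i _ => hi i)]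
  calc ∑ i, ∫ x, (fderiv ℝ V x (bas d i)) ^ 2 ∂(gibbs V) ≤ ∑ _i : Fin d, (2 : ℝ) := by
        refine Finset.sum_le_sum fun i _ => ?_
        have h := hV.lpot.ibp one_pos hΦ (hf1 i) (hf0 i) (hf2 i) (bas d i)
        have e : ∫ x, (fderiv ℝ V x (bas d i)) ^ 2 ∂(gibbs V) =
            ∫ x, fderiv ℝ V x (bas d i) * fderiv ℝ V x (bas d i) ∂(gibbs V) := by
          congr 1
          funext x
          ring
        rw [e, ← h]
        calc ∫ x, fderiv ℝ (fun x => fderiv ℝ V x (bas d i)) x (bas d i) ∂(gibbs V)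
            ≤ ∫ _x, (2 : ℝ) ∂(gibbs V) := by
              refine integral_mono (hi2 i) (integrable_const _) fun x => ?_
              change fderiv ℝ (fun x => fderiv ℝ V x (bas d i)) x (bas d i) ≤ 2
              rw [hfd]
              have := hV.upper2 hl x (bas d i)
              rwa [norm_bas, one_pow, mul_one] at this
          _ = 2 := by simp
    _ = 2 * d := by simp; ring

/-- moments of the gradient at a point of law `cv V t` -/
theorem cv_grad_sq {lam t : ℝ} {V : E d → ℝ} (hV : CPot lam V) (hl0 : 0 ≤ lam) (hl : lam ≤ 1)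
    (h0 : 0 ≤ t) (h1 : t ≤ 1) :
    Integrable (fun y => ‖gradient V y‖ ^ 2) (cv V t) ∧
      ∫ y, ‖gradient V y‖ ^ 2 ∂(cv V t) ≤ 12 * d := by
  have hp := hV.lpot.prob one_pos
  obtain ⟨hi, hb⟩ := gibbs_grad_sq_C hV hl
  have hc := hV.grad_cont
  have hm : Measurable (fun p : E d × E d => p.1 + √t • p.2) := by fun_prop
  have hcs : Continuous (fun y => ‖gradient V y‖ ^ 2) := hc.norm.pow 2
  have hdom : Integrable (fun p : E d × E d => 2 * ‖gradient V p.1‖ ^ 2 + 8 * ‖p.2‖ ^ 2)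
      ((gibbs V).prod (stdGaussian (E d))) := by
    refine Integrable.add ?_ ?_
    · exact (Integrable.comp_fst (ν := stdGaussian (E d)) hi).const_mul 2
    · exact (Integrable.comp_snd (μ := gibbs V) (gauss_int_pow d 2)).const_mul 8
  have hle : ∀ p : E d × E d, ‖gradient V (p.1 + √t • p.2)‖ ^ 2 ≤
      2 * ‖gradient V p.1‖ ^ 2 + 8 * ‖p.2‖ ^ 2 := by
    intro p
    have h2 := hV.grad_lip hl (p.1 + √t • p.2) p.1
    rw [add_sub_cancel_left, norm_smul, Real.norm_of_nonneg (Real.sqrt_nonneg t)] at h2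
    have h3 : √t ≤ 1 := by rw [Real.sqrt_le_one]; exact h1
    have h4 : ‖gradient V (p.1 + √t • p.2) - gradient V p.1‖ ≤ 2 * ‖p.2‖ := by
      refine h2.trans ?_
      have := mul_le_mul_of_nonneg_right h3 (norm_nonneg p.2)
      linarith
    have h5 : ‖gradient V (p.1 + √t • p.2)‖ ≤ ‖gradient V p.1‖ + 2 * ‖p.2‖ := by
      have := norm_add_le (gradient V p.1) (gradient V (p.1 + √t • p.2) - gradient V p.1)
      rw [add_sub_cancel] at this
      linarith
    have h6 : ‖gradient V (p.1 + √t • p.2)‖ ^ 2 ≤ (‖gradient V p.1‖ + 2 * ‖p.2‖) ^ 2 :=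
      pow_le_pow_left₀ (norm_nonneg _) h5 2
    nlinarith [sq_nonneg (‖gradient V p.1‖ - 2 * ‖p.2‖)]
  have hi3 : Integrable (fun p : E d × E d => ‖gradient V (p.1 + √t • p.2)‖ ^ 2)
      ((gibbs V).prod (stdGaussian (E d))) := by
    refine hdom.mono' (hcs.measurable.comp hm).aestronglyMeasurable
      (Filter.Eventually.of_forall fun p => ?_)
    rw [Real.norm_of_nonneg (sq_nonneg _)]
    exact hle p
  unfold cv
  refine ⟨?_, ?_⟩
  · rw [integrable_map_measure hcs.aestronglyMeasurable hm.aemeasurable]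
    exact hi3
  · rw [integral_map hm.aemeasurable hcs.aestronglyMeasurable]
    calc ∫ p : E d × E d, ‖gradient V (p.1 + √t • p.2)‖ ^ 2 ∂((gibbs V).prod (stdGaussian (E d)))
        ≤ ∫ p : E d × E d, (2 * ‖gradient V p.1‖ ^ 2 + 8 * ‖p.2‖ ^ 2)
            ∂((gibbs V).prod (stdGaussian (E d))) := integral_mono hi3 hdom hle
      _ = 2 * ∫ x, ‖gradient V x‖ ^ 2 ∂(gibbs V) + 8 * ∫ z : E d, ‖z‖ ^ 2 ∂(stdGaussian (E d)) := by
          rw [integral_add, integral_const_mul, integral_const_mul]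
          · congr 2
            · exact integral_fun_fst (μ := gibbs V) (ν := stdGaussian (E d))
                (fun x => ‖gradient V x‖ ^ 2) |>.trans (by simp)
            · exact integral_fun_snd (μ := gibbs V) (ν := stdGaussian (E d))
                (fun x => ‖x‖ ^ 2) |>.trans (by simp)
          · exact (Integrable.comp_fst (ν := stdGaussian (E d)) hi).const_mul 2
          · exact (Integrable.comp_snd (μ := gibbs V) (gauss_int_pow d 2)).const_mul 8
      _ ≤ 12 * d := by rw [gauss_norm_sq]; linarith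

theorem gauss_shift_int {g : E d} {h : E d → ℝ} :
    ∫ u, Real.exp (-(‖u + g‖ ^ 2 / 2)) * h u =
      (∫ u : E d, Real.exp (-(‖u‖ ^ 2 / 2))) * ∫ z, h (-g + z) ∂(stdGaussian (E d)) := by
  have hc : Continuous (fun v : E d => ‖v‖ ^ 2 / 2) := (spot_sq d).cont
  have hl : ∀ x : E d, (0 : ℝ) + ‖x‖ ^ 2 / 4 ≤ ‖x‖ ^ 2 / 2 := by
    intro x
    have : 0 ≤ ‖x‖ ^ 2 := by positivity
    linarith
  rw [stdGaussian_eq_gibbs, integral_gibbs hc hl (fun z => h (-g + z)),
    ← mul_assoc, mul_inv_cancel₀ (Z_pos hc hl).ne', one_mul]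
  rw [← integral_add_left_eq_self (fun u => Real.exp (-(‖u + g‖ ^ 2 / 2)) * h u) (-g)]
  refine integral_congr_ae (Filter.Eventually.of_forall fun u => ?_)
  simp only
  rw [show -g + u + g = u by abel]

/-- the last level: a Gaussian centered at `-∇V(0)`.
Proof: `R(u) = V(u) - V(0) - ⟨∇V(0),u⟩ - |u|²/2 ∈ [0, lam|u|²/2]`, `gibbs V ∝ e^{-R} N(-∇V(0), I)`,
`TV ≤ E R ≤ (lam/2) E|u|² = (lam/2)(d + |∇V(0)|²)`. -/
theorem base_tv {lam : ℝ} {V : E d → ℝ} (hV : CPot lam V) (hl0 : 0 ≤ lam) :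
    TVle ((stdGaussian (E d)).map (fun z => -gradient V 0 + z)) (gibbs V)
      (lam / 2 * (d + ‖gradient V 0‖ ^ 2)) := by
  intro f hf hf0 hf1
  set g := gradient V 0 with hg
  have hVc : Continuous V := hV.smooth.continuous
  set R : E d → ℝ := fun u => V u - V 0 - inner ℝ g u - ‖u‖ ^ 2 / 2 with hR
  have hRc : Continuous R := by
    have : Continuous (fun u : E d => inner ℝ g u) := by fun_prop
    fun_prop
  have hR0 : ∀ u, 0 ≤ R u := by
    intro u
    have h := PotAux.taylor_lower hV.smooth hV.lower 0 u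
    rw [zero_add, PotAux.fderiv_eq_inner] at h
    simp only [hR]
    linarith
  have hR1 : ∀ u, R u ≤ lam / 2 * ‖u‖ ^ 2 := by
    intro u
    have h := second_order_upper hV.smooth 0 u ((1 + lam) * ‖u‖ ^ 2) (fun t _ => hV.upper _ _)
    rw [zero_add, PotAux.fderiv_eq_inner] at h
    simp only [hR]
    linarith
  -- lower bound for `V`
  obtain ⟨c, hc⟩ : ∃ c : ℝ, ∀ x, c + ‖x‖ ^ 2 / 4 ≤ V x := by
    refine ⟨V 0 - ‖g‖ ^ 2, fun x => ?_⟩
    have h := PotAux.taylor_lower hV.smooth hV.lower 0 x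
    rw [zero_add, PotAux.fderiv_eq_inner] at h
    have h1 := abs_le.1 (abs_real_inner_le_norm g x)
    nlinarith [sq_nonneg (‖g‖ - ‖x‖ / 2), h1.1]
  -- the density
  have hdens : ∀ u, Real.exp (-V u) = Real.exp (-V 0 + ‖g‖ ^ 2 / 2) *
      (Real.exp (-(‖u + g‖ ^ 2 / 2)) * Real.exp (-R u)) := by
    intro u
    rw [← Real.exp_add, ← Real.exp_add]
    congr 1
    have h1 : ‖u + g‖ ^ 2 = ‖u‖ ^ 2 + 2 * inner ℝ u g + ‖g‖ ^ 2 := norm_add_sq_real u g
    rw [h1, real_inner_comm]
    simp only [hR]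
    ring
  set I : (E d → ℝ) → ℝ := fun h => ∫ z, Real.exp (-R (-g + z)) * h (-g + z) ∂(stdGaussian (E d))
    with hI
  have hint : ∀ h : E d → ℝ, ∫ u, Real.exp (-V u) * h u =
      (Real.exp (-V 0 + ‖g‖ ^ 2 / 2) * ∫ u : E d, Real.exp (-(‖u‖ ^ 2 / 2))) * I h := by
    intro h
    rw [hI, mul_assoc, ← gauss_shift_int (h := fun u => Real.exp (-R u) * h u),
      ← integral_const_mul]
    refine integral_congr_ae (Filter.Eventually.of_forall fun u => ?_)
    simp only
    rw [hdens]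
    ring
  have hZ0 := Z_pos hVc hc
  have hA : 0 < Real.exp (-V 0 + ‖g‖ ^ 2 / 2) * ∫ u : E d, Real.exp (-(‖u‖ ^ 2 / 2)) := by
    refine mul_pos (Real.exp_pos _) ?_
    exact Z_pos (V := fun v : E d => ‖v‖ ^ 2 / 2) (spot_sq d).cont (c := 0) (by
      intro x
      have : 0 ≤ ‖x‖ ^ 2 := by positivity
      linarith)
  have h1eq : ∫ u, Real.exp (-V u) = (Real.exp (-V 0 + ‖g‖ ^ 2 / 2) *
      ∫ u : E d, Real.exp (-(‖u‖ ^ 2 / 2))) * I (fun _ => 1) := by
    rw [← hint (fun _ => 1)]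
    simp
  have hI1 : 0 < I (fun _ => 1) := by
    rw [h1eq] at hZ0
    exact pos_of_mul_pos_right hZ0 hA.le
  have hgib : ∫ x, f x ∂(gibbs V) = I f / I (fun _ => 1) := by
    rw [integral_gibbs hVc hc, hint, h1eq, mul_inv, mul_mul_mul_comm, inv_mul_cancel₀ hA.ne',
      one_mul, mul_comm, div_eq_mul_inv]
  -- integrability
  have hme : Measurable (fun z : E d => -g + z) := by fun_prop
  have ie : ∀ h : E d → ℝ, Measurable h → (∀ x, 0 ≤ h x) → (∀ x, h x ≤ 1) →
      Integrable (fun z => Real.exp (-R (-g + z)) * h (-g + z)) (stdGaussian (E d)) := by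
    intro h hh hh0 hh1
    refine (integrable_const (1 : ℝ)).mono' ?_ (Filter.Eventually.of_forall fun z => ?_)
    · refine (Measurable.mul ?_ (hh.comp hme)).aestronglyMeasurable
      exact (Real.continuous_exp.comp (hRc.neg.comp (by fun_prop))).measurable
    · rw [norm_mul, Real.norm_of_nonneg (Real.exp_nonneg _), Real.norm_of_nonneg (hh0 _)]
      have h1 : Real.exp (-R (-g + z)) ≤ 1 := Real.exp_le_one_iff.2 (by linarith [hR0 (-g + z)])
      exact mul_le_one₀ h1 (hh0 _) (hh1 _)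
  have if' : Integrable (fun z => f (-g + z)) (stdGaussian (E d)) := by
    refine (integrable_const (1 : ℝ)).mono' (hf.comp hme).aestronglyMeasurable
      (Filter.Eventually.of_forall fun z => ?_)
    rw [Real.norm_of_nonneg (hf0 _)]
    exact hf1 _
  have iq : Integrable (fun z : E d => ‖-g + z‖ ^ 2) (stdGaussian (E d)) := by
    refine gauss_int_poly _ (by fun_prop) 2 ((1 + ‖g‖) ^ 2) fun z => ?_
    rw [norm_pow, norm_norm, ← mul_pow]
    refine pow_le_pow_left₀ (norm_nonneg _) ?_ 2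
    have := norm_add_le (-g) z
    rw [norm_neg] at this
    nlinarith [norm_nonneg g, norm_nonneg z, mul_nonneg (norm_nonneg g) (norm_nonneg z)]
  -- second moment
  have hmom : ∫ z : E d, ‖-g + z‖ ^ 2 ∂(stdGaussian (E d)) = d + ‖g‖ ^ 2 := by
    have e : ∀ z : E d, ‖-g + z‖ ^ 2 = ‖g‖ ^ 2 + (-2) * inner ℝ g z + ‖z‖ ^ 2 := by
      intro z
      rw [norm_add_sq_real, norm_neg, inner_neg_left]
      ring
    have i1 : Integrable (fun z : E d => inner ℝ g z) (stdGaussian (E d)) := by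
      refine gauss_int_poly _ (by fun_prop) 1 ‖g‖ fun z => ?_
      have := abs_real_inner_le_norm g z
      rw [Real.norm_eq_abs]
      nlinarith [norm_nonneg g]
    have i2 : ∫ z : E d, inner ℝ g z ∂(stdGaussian (E d)) = 0 := by
      have := integral_strongDual_stdGaussian (E := E d) (innerSL ℝ g)
      simpa using this
    have k1 : Integrable (fun z : E d => ‖g‖ ^ 2 + (-2) * inner ℝ g z) (stdGaussian (E d)) :=
      (integrable_const _).add (i1.const_mul _)
    have k2 : Integrable (fun z : E d => (-2) * inner ℝ g z) (stdGaussian (E d)) :=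
      i1.const_mul _
    simp only [e]
    rw [integral_add k1 (gauss_int_pow d 2), integral_add (integrable_const _) k2,
      integral_const_mul, i2, gauss_norm_sq]
    simp
    ring
  -- `1 - I 1 ≤ ∫ R`
  have hR2 : ∫ z : E d, (1 - Real.exp (-R (-g + z))) ∂(stdGaussian (E d)) ≤
      lam / 2 * (d + ‖g‖ ^ 2) := by
    rw [← hmom, ← integral_const_mul]
    refine integral_mono ?_ (iq.const_mul _) fun z => ?_
    · have := ie (fun _ => 1) measurable_const (by simp) (by simp)
      simp only [mul_one] at this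
      exact (integrable_const _).sub this
    · have h1 := Real.add_one_le_exp (-R (-g + z))
      have h2 := hR1 (-g + z)
      simp only
      linarith
  have ie1 := ie (fun _ => 1) measurable_const (by simp) (by simp)
  have ief := ie f hf hf0 hf1
  have hI1' : I (fun _ => 1) = ∫ z : E d, Real.exp (-R (-g + z)) ∂(stdGaussian (E d)) := by
    simp only [hI, mul_one]
  have hdef : ∫ z : E d, (1 - Real.exp (-R (-g + z))) ∂(stdGaussian (E d)) =
      1 - I (fun _ => 1) := by
    rw [hI1']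
    simp only [mul_one] at ie1
    rw [integral_sub (integrable_const _) ie1]
    simp
  have hIf0 : 0 ≤ I f := integral_nonneg fun z => mul_nonneg (Real.exp_nonneg _) (hf0 _)
  have hIf1 : I f ≤ I (fun _ => 1) := by
    refine integral_mono ief ie1 fun z => ?_
    exact mul_le_mul_of_nonneg_left (hf1 _) (Real.exp_nonneg _)
  have hmap : ∫ x, f x ∂((stdGaussian (E d)).map (fun z => -g + z)) =
      ∫ z, f (-g + z) ∂(stdGaussian (E d)) :=
    integral_map hme.aemeasurable hf.aestronglyMeasurable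
  have hub : I f ≤ ∫ z, f (-g + z) ∂(stdGaussian (E d)) := by
    refine integral_mono ief if' fun z => ?_
    have h1 : Real.exp (-R (-g + z)) ≤ 1 := Real.exp_le_one_iff.2 (by linarith [hR0 (-g + z)])
    simp only
    nlinarith [hf0 (-g + z)]
  have hlb : ∫ z, f (-g + z) ∂(stdGaussian (E d)) - I f ≤ 1 - I (fun _ => 1) := by
    rw [← hdef, hI]
    simp only
    rw [← integral_sub if' ief]
    refine integral_mono (if'.sub ief) ?_ fun z => ?_
    · simp only [mul_one] at ie1
      exact (integrable_const _).sub ie1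
    · have h1 : Real.exp (-R (-g + z)) ≤ 1 := Real.exp_le_one_iff.2 (by linarith [hR0 (-g + z)])
      simp only
      nlinarith [hf0 (-g + z), hf1 (-g + z)]
  have hIle1 : I (fun _ => 1) ≤ 1 := by
    rw [hdef] at hR2
    have : 0 ≤ ∫ z : E d, (1 - Real.exp (-R (-g + z))) ∂(stdGaussian (E d)) := by
      refine integral_nonneg fun z => ?_
      have h1 : Real.exp (-R (-g + z)) ≤ 1 := Real.exp_le_one_iff.2 (by linarith [hR0 (-g + z)])
      simp only [Pi.zero_apply]
      linarith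
    rw [hdef] at this
    linarith
  rw [hdef] at hR2
  rw [hmap, hgib]
  have hq : I f / I (fun _ => 1) - I f ≤ 1 - I (fun _ => 1) := by
    rw [div_sub' hI1.ne', div_le_iff₀ hI1]
    nlinarith
  have hq2 : I f ≤ I f / I (fun _ => 1) := by
    rw [le_div_iff₀ hI1]
    nlinarith
  rw [abs_le]
  constructor <;> linarith

end P347S
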