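import Vale.Agent.P347S.LogConv

/-!
Module Bias: the bias of the force estimator `∇W(y - s∇W(y) + εX)`.

Proof: put `g0 = ∇W(y)`, `c = y - s g0`, `R(w) = W(w) - W(y) - ⟨g0, w - y⟩ ≥ 0`.  The law of
`c + εX` is `q^0 = N(c, s)`, the posterior `q_y` is `q^1`, where
`q^r ∝ exp(-r R(w) - |w-c|²/(2s))`, `r ∈ [0,1]`.  `d/dr E_{q^r} f = -Cov_{q^r}(f, R)`.
`q^r` is `LPot (1/s)`; for `f = ⟨∇W, e⟩`, `|e| ≤ 1` (`3`-Lipschitz) `Var f ≤ 9 s` (`var_lip`),
`Var R ≤ s E|∇R|² ≤ 9 s E|w-y|²` (`poincare`), and `moment` (gradient of the potential of `q^r` at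
`y` is `g0`) gives `E|w-y|² ≤ (ε√d + s|g0|)²`.  So `|E f| difference ≤ 9 (ε³√d + ε⁴|g0|)`.
-/

open MeasureTheory ProbabilityTheory Function
open scoped ENNReal BigOperators Topology

namespace P347S

open P347Q

variable {d : ℕ} {ε : ℝ} {W : E d → ℝ}

/-! ### the interpolation family -/

/-- remainder of the first order expansion -/
noncomputable def rem (W : E d → ℝ) (y w : E d) : ℝ := W w - W y - fderiv ℝ W y (w - y)

/-- the quadratic part -/
noncomputable def qd (ε : ℝ) (c w : E d) : ℝ := ‖w - c‖ ^ 2 / (2 * ε ^ 2)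

/-- potential of the interpolation -/
noncomputable def ipl (ε : ℝ) (W : E d → ℝ) (y : E d) (r : ℝ) (w : E d) : ℝ :=
  r * rem W y w + qd ε (y - ε ^ 2 • gradient W y) w

theorem one_sub_pos (h0 : 0 < ε) (h1 : ε ≤ 1 / 2) : 0 < 1 - ε ^ 2 := by nlinarith

theorem KPot.hess_nonneg (hW : KPot ε W) (h0 : 0 < ε) (h1 : ε ≤ 1 / 2) (x w : E d) :
    0 ≤ fderiv ℝ (fderiv ℝ W) x w w := by
  have h := hW.lower x w
  have h2 := one_sub_pos h0 h1
  have h3 : 0 ≤ (1 - ε ^ 2) * fderiv ℝ (fderiv ℝ W) x w w := le_trans (by positivity) h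
  exact nonneg_of_mul_nonneg_right h3 h2

theorem rem_nonneg (hW : KPot ε W) (h0 : 0 < ε) (h1 : ε ≤ 1 / 2) (y w : E d) :
    0 ≤ rem W y w := by
  have h := second_order_lower hW.smooth y (w - y) 0 (fun t _ => hW.hess_nonneg h0 h1 _ _)
  rw [add_sub_cancel] at h
  unfold rem
  linarith

theorem rem_contDiff (hW : KPot ε W) (y : E d) : ContDiff ℝ 2 (rem W y) := by
  unfold rem
  have := hW.smooth
  exact (this.sub contDiff_const).sub ((fderiv ℝ W y).contDiff.comp (contDiff_id.sub contDiff_const))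

theorem qd_contDiff (c : E d) : ContDiff ℝ 2 (qd ε c) := by
  unfold qd
  exact ((contDiff_norm_sq ℝ).comp (contDiff_id.sub contDiff_const)).div_const _

theorem fderiv_rem (hW : KPot ε W) (y w : E d) : fderiv ℝ (rem W y) w = fderiv ℝ W w - fderiv ℝ W y := by
  have hd : DifferentiableAt ℝ W w := hW.smooth.differentiable (by norm_num) w
  have h1 : HasFDerivAt (fun w => fderiv ℝ W y (w - y)) (fderiv ℝ W y) w := by
    have := (fderiv ℝ W y).hasFDerivAt.comp w ((hasFDerivAt_id w).sub_const y)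
    rw [ContinuousLinearMap.comp_id] at this
    exact this
  have h2 : HasFDerivAt (rem W y) (fderiv ℝ W w - fderiv ℝ W y) w :=
    (hd.hasFDerivAt.sub_const (W y)).sub h1
  exact h2.fderiv

theorem norm_fderiv_rem (hW : KPot ε W) (h0 : 0 < ε) (h1 : ε ≤ 1 / 2) (y w : E d) :
    ‖fderiv ℝ (rem W y) w‖ ≤ 3 * ‖w - y‖ := by
  rw [fderiv_rem hW, ← PotAux.grad_sub]
  exact hW.grad_lip h0 h1 w y

theorem fderiv_qd (c : E d) : fderiv ℝ (qd ε c) = fun x => (ε ^ 2)⁻¹ • innerSL ℝ (x - c) := by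
  funext x
  have h := ((hasStrictFDerivAt_norm_sq (x - c)).hasFDerivAt).comp x ((hasFDerivAt_id x).sub_const c)
  rw [ContinuousLinearMap.comp_id] at h
  have h2 := h.mul_const ((2 * ε ^ 2)⁻¹)
  have e1 : (fun w : E d => ((fun z : E d => ‖z‖ ^ 2) ∘ fun x => id x - c) w * (2 * ε ^ 2)⁻¹) =
      qd ε c := by
    funext w
    simp only [qd, Function.comp, id, div_eq_mul_inv]
  rw [e1] at h2
  rw [h2.fderiv]
  ext w
  simp only [smul_apply, innerSL_apply_apply, smul_eq_mul, nsmul_eq_mul,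
    Nat.cast_ofNat]
  rw [mul_inv]
  ring_nf

theorem hasFDerivAt_qd2 (c x : E d) : HasFDerivAt (fun x : E d => (ε ^ 2)⁻¹ • innerSL ℝ (x - c))
    ((ε ^ 2)⁻¹ • innerSL ℝ) x := by
  have h := ((innerSL ℝ : E d →L[ℝ] E d →L[ℝ] ℝ).hasFDerivAt (x := x - c)).comp x
    ((hasFDerivAt_id x).sub_const c)
  rw [ContinuousLinearMap.comp_id] at h
  exact h.const_smul ((ε ^ 2)⁻¹)

theorem fderiv_ipl (hW : KPot ε W) (y : E d) (r : ℝ) : fderiv ℝ (ipl ε W y r) = fun w =>
    r • (fderiv ℝ W w - fderiv ℝ W y) +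
      (ε ^ 2)⁻¹ • innerSL ℝ (w - (y - ε ^ 2 • gradient W y)) := by
  funext w
  have d1 : DifferentiableAt ℝ (rem W y) w := (rem_contDiff hW y).differentiable (by norm_num) w
  have d2 : DifferentiableAt ℝ (qd ε (y - ε ^ 2 • gradient W y)) w :=
    (qd_contDiff _).differentiable (by norm_num) w
  have e : ipl ε W y r = fun w => r * rem W y w + qd ε (y - ε ^ 2 • gradient W y) w := rfl
  rw [e, fderiv_fun_add (d1.const_mul r) d2, fderiv_const_mul d1, fderiv_rem hW, fderiv_qd]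

theorem fderiv2_ipl (hW : KPot ε W) (y : E d) (r : ℝ) (x w : E d) :
    fderiv ℝ (fderiv ℝ (ipl ε W y r)) x w w =
      r * fderiv ℝ (fderiv ℝ W) x w w + (ε ^ 2)⁻¹ * ‖w‖ ^ 2 := by
  have hd : DifferentiableAt ℝ (fderiv ℝ W) x :=
    (hW.smooth.fderiv_right (m := 1) (by norm_num)).differentiable (by norm_num) x
  rw [fderiv_ipl hW]
  have h := ((hd.hasFDerivAt.sub_const (fderiv ℝ W y)).const_smul r).add
    (hasFDerivAt_qd2 (ε := ε) (y - ε ^ 2 • gradient W y) x)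
  have h2 := h.fderiv
  have e : (fun w => r • (fderiv ℝ W w - fderiv ℝ W y) +
      (ε ^ 2)⁻¹ • innerSL ℝ (w - (y - ε ^ 2 • gradient W y))) =
      ((fun x => r • (fderiv ℝ W x - fderiv ℝ W y)) +
      fun x => (ε ^ 2)⁻¹ • innerSL ℝ (x - (y - ε ^ 2 • gradient W y))) := rfl
  rw [e]
  have h3 := congrArg (fun L : E d →L[ℝ] E d →L[ℝ] ℝ => L w w) h2
  refine h3.trans ?_
  simp only [add_apply, smul_apply, smul_eq_mul]
  exact congrArg (fun t => r * fderiv ℝ (fderiv ℝ W) x w w + (ε ^ 2)⁻¹ * t)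
    (real_inner_self_eq_norm_sq w)

theorem ipl_contDiff (hW : KPot ε W) (y : E d) (r : ℝ) : ContDiff ℝ 2 (ipl ε W y r) :=
  (contDiff_const.mul (rem_contDiff hW y)).add (qd_contDiff _)

theorem ipl_lpot (hW : KPot ε W) (h0 : 0 < ε) (h1 : ε ≤ 1 / 2) (y : E d) {r : ℝ} (hr : 0 ≤ r) :
    LPot (ε ^ 2)⁻¹ (ipl ε W y r) := by
  refine ⟨ipl_contDiff hW y r, fun x w => ?_⟩
  rw [fderiv2_ipl hW]
  have := mul_nonneg hr (hW.hess_nonneg h0 h1 x w)
  linarith

theorem ipl_pgr (hW : KPot ε W) (h0 : 0 < ε) (h1 : ε ≤ 1 / 2) (y : E d) {r : ℝ} (hr : 0 ≤ r) :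
    Pgr (fderiv ℝ (ipl ε W y r)) := by
  set c := y - ε ^ 2 • gradient W y with hc
  refine ⟨1, r * 3 * (1 + ‖y‖) + (ε ^ 2)⁻¹ * (1 + ‖c‖), fun x => ?_⟩
  rw [fderiv_ipl hW]
  have e1 : ‖fderiv ℝ W x - fderiv ℝ W y‖ ≤ 3 * ‖x - y‖ := by
    rw [← PotAux.grad_sub]
    exact hW.grad_lip h0 h1 x y
  have hx : 0 ≤ ‖x‖ := norm_nonneg x
  have hy : 0 ≤ ‖y‖ := norm_nonneg y
  have hcn : 0 ≤ ‖c‖ := norm_nonneg c
  have e2 : ‖x - y‖ ≤ (1 + ‖y‖) * (1 + ‖x‖) := by
    have := norm_sub_le x y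
    nlinarith
  have e3 : ‖x - c‖ ≤ (1 + ‖c‖) * (1 + ‖x‖) := by
    have := norm_sub_le x c
    nlinarith
  calc ‖r • (fderiv ℝ W x - fderiv ℝ W y) + (ε ^ 2)⁻¹ • innerSL ℝ (x - c)‖
      ≤ ‖r • (fderiv ℝ W x - fderiv ℝ W y)‖ + ‖(ε ^ 2)⁻¹ • innerSL ℝ (x - c)‖ := norm_add_le _ _
    _ = r * ‖fderiv ℝ W x - fderiv ℝ W y‖ + (ε ^ 2)⁻¹ * ‖x - c‖ := by
        rw [norm_smul, norm_smul, innerSL_apply_norm, Real.norm_of_nonneg hr,
          Real.norm_of_nonneg (by positivity)]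
    _ ≤ r * (3 * ((1 + ‖y‖) * (1 + ‖x‖))) + (ε ^ 2)⁻¹ * ((1 + ‖c‖) * (1 + ‖x‖)) := by
        gcongr
        linarith
    _ = _ := by ring

theorem rem_le (hW : KPot ε W) (h0 : 0 < ε) (h1 : ε ≤ 1 / 2) (y w : E d) :
    rem W y w ≤ 2 * ‖w - y‖ ^ 2 := by
  have h := second_order_upper hW.smooth y (w - y) (8 / 3 * ‖w - y‖ ^ 2) (fun t _ => by
    have h := hW.upper (y + t • (w - y)) (w - y)
    have h2 : 3 / 4 ≤ 1 - ε ^ 2 := by nlinarith
    have h3 := hW.hess_nonneg h0 h1 (y + t • (w - y)) (w - y)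
    nlinarith)
  rw [add_sub_cancel] at h
  unfold rem
  have : 0 ≤ ‖w - y‖ ^ 2 := by positivity
  linarith

/-- the constant in the lower bound -/
noncomputable def lc (c : E d) : ℝ := -(2 * ‖c‖ ^ 2)

theorem qd_low (h0 : 0 < ε) (h1 : ε ≤ 1 / 2) (c x : E d) : lc c + ‖x‖ ^ 2 / 4 ≤ qd ε c x := by
  unfold lc qd
  have h2 : 2 * ε ^ 2 ≤ 1 / 2 := by nlinarith
  have h3 : 2 * ‖x - c‖ ^ 2 ≤ ‖x - c‖ ^ 2 / (2 * ε ^ 2) := by
    rw [le_div_iff₀ (by positivity)]
    nlinarith [sq_nonneg ‖x - c‖]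
  have h4 : ‖x‖ ^ 2 ≤ 2 * ‖x - c‖ ^ 2 + 2 * ‖c‖ ^ 2 := by
    have h5 : ‖x‖ ≤ ‖x - c‖ + ‖c‖ := by
      calc ‖x‖ = ‖(x - c) + c‖ := by congr 1; abel
        _ ≤ _ := norm_add_le _ _
    have h6 : 0 ≤ ‖x‖ := norm_nonneg x
    nlinarith [sq_nonneg (‖x - c‖ - ‖c‖)]
  nlinarith [sq_nonneg ‖x‖, sq_nonneg ‖c‖]

theorem ipl_low (hW : KPot ε W) (h0 : 0 < ε) (h1 : ε ≤ 1 / 2) (y : E d) {r : ℝ} (hr : 0 ≤ r)
    (x : E d) : lc (y - ε ^ 2 • gradient W y) + ‖x‖ ^ 2 / 4 ≤ ipl ε W y r x := by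
  have h := qd_low h0 h1 (y - ε ^ 2 • gradient W y) x
  have h2 := mul_nonneg hr (rem_nonneg hW h0 h1 y x)
  unfold ipl
  linarith

theorem ipl_base (hW : KPot ε W) (h0 : 0 < ε) (h1 : ε ≤ 1 / 2) (y : E d) {r : ℝ} (hr : 0 ≤ r)
    (x : E d) : Real.exp (-ipl ε W y r x) ≤
      Real.exp (-lc (y - ε ^ 2 • gradient W y)) * Real.exp (-(1 / 4) * ‖x‖ ^ 2) := by
  rw [← Real.exp_add]
  apply Real.exp_le_exp.2
  have := ipl_low hW h0 h1 y hr x
  linarith

theorem ipl_cont (hW : KPot ε W) (y : E d) (r : ℝ) : Continuous (ipl ε W y r) :=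
  (ipl_contDiff hW y r).continuous

/-- the numerator -/
noncomputable def num (ε : ℝ) (W : E d → ℝ) (y : E d) (g : E d → ℝ) (r : ℝ) : ℝ :=
  ∫ x, Real.exp (-ipl ε W y r x) * g x

theorem rem_pgr (hW : KPot ε W) (h0 : 0 < ε) (h1 : ε ≤ 1 / 2) (y x : E d) :
    |rem W y x| ≤ 2 * (1 + ‖y‖) ^ 2 * (1 + ‖x‖) ^ 2 := by
  rw [abs_of_nonneg (rem_nonneg hW h0 h1 y x)]
  refine (rem_le hW h0 h1 y x).trans ?_
  have hx : 0 ≤ ‖x‖ := norm_nonneg x
  have hy : 0 ≤ ‖y‖ := norm_nonneg y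
  have e2 : ‖x - y‖ ≤ (1 + ‖y‖) * (1 + ‖x‖) := by
    have := norm_sub_le x y
    nlinarith
  calc 2 * ‖x - y‖ ^ 2 ≤ 2 * ((1 + ‖y‖) * (1 + ‖x‖)) ^ 2 := by gcongr
    _ = _ := by ring

theorem num_deriv (hW : KPot ε W) (h0 : 0 < ε) (h1 : ε ≤ 1 / 2) (y : E d) {g : E d → ℝ}
    (hg : Continuous g) {k : ℕ} {C : ℝ} (hb : ∀ x, |g x| ≤ C * (1 + ‖x‖) ^ k) {u : ℝ}
    (hu : 0 < u) :
    HasDerivAt (num ε W y g) (∫ x, Real.exp (-ipl ε W y u x) * (-(rem W y x) * g x)) u := by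
  set K := Real.exp (-lc (y - ε ^ 2 • gradient W y)) with hK
  have hC : ∀ x : E d, 0 ≤ C * (1 + ‖x‖) ^ k := fun x => (abs_nonneg _).trans (hb x)
  have hbi : Integrable (fun x : E d => K * (2 * (1 + ‖y‖) ^ 2 * C) *
      ((1 + ‖x‖) ^ (2 + k) * Real.exp (-(1 / 4) * ‖x‖ ^ 2))) :=
    (integrable_poly_exp (by norm_num) (2 + k)).const_mul _
  have hcr := (rem_contDiff hW y).continuous
  have key : ∀ r : ℝ, 0 ≤ r → ∀ x : E d, ‖Real.exp (-ipl ε W y r x) * (-(rem W y x) * g x)‖ ≤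
      K * (2 * (1 + ‖y‖) ^ 2 * C) * ((1 + ‖x‖) ^ (2 + k) * Real.exp (-(1 / 4) * ‖x‖ ^ 2)) := by
    intro r hr x
    rw [norm_mul, Real.norm_of_nonneg (Real.exp_nonneg _), norm_mul, norm_neg, Real.norm_eq_abs,
      Real.norm_eq_abs]
    calc Real.exp (-ipl ε W y r x) * (|rem W y x| * |g x|)
        ≤ (K * Real.exp (-(1 / 4) * ‖x‖ ^ 2)) *
          ((2 * (1 + ‖y‖) ^ 2 * (1 + ‖x‖) ^ 2) * (C * (1 + ‖x‖) ^ k)) := by
          apply mul_le_mul (ipl_base hW h0 h1 y hr x) _ (by positivity) (by positivity)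
          exact mul_le_mul (rem_pgr hW h0 h1 y x) (hb x) (abs_nonneg _) (by positivity)
      _ = _ := by ring
  have := hasDerivAt_integral_of_dominated_loc_of_deriv_le (μ := (volume : Measure (E d)))
    (F := fun r x => Real.exp (-ipl ε W y r x) * g x)
    (F' := fun r x => Real.exp (-ipl ε W y r x) * (-(rem W y x) * g x))
    (x₀ := u) (s := Set.Ioi 0) (Ioi_mem_nhds hu) ?_ ?_ ?_ ?_ hbi ?_
  · exact this.2
  · filter_upwards with r
    have hc := ipl_cont hW y r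
    exact ((Real.continuous_exp.comp hc.neg).mul hg).aestronglyMeasurable
  · exact exp_neg_integrable (ipl_cont hW y u) (fun x => ipl_low hW h0 h1 y hu.le x) hg hb
  · have hc := ipl_cont hW y u
    exact ((Real.continuous_exp.comp hc.neg).mul (hcr.neg.mul hg)).aestronglyMeasurable
  · filter_upwards with x r hr
    exact key r (le_of_lt hr) x
  · filter_upwards with x r hr
    have h2 : HasDerivAt (fun r => ipl ε W y r x) (rem W y x) r := by
      have := ((hasDerivAt_id r).mul_const (rem W y x)).add_const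
        (qd ε (y - ε ^ 2 • gradient W y) x)
      rw [one_mul] at this
      exact this
    have h3 := (h2.neg.exp).mul_const (g x)
    refine h3.congr_deriv ?_
    simp only [Pi.neg_apply]
    ring

theorem num_cont (hW : KPot ε W) (h0 : 0 < ε) (h1 : ε ≤ 1 / 2) (y : E d) {g : E d → ℝ}
    (hg : Continuous g) {k : ℕ} {C : ℝ} (hb : ∀ x, |g x| ≤ C * (1 + ‖x‖) ^ k) :
    ContinuousOn (num ε W y g) (Set.Ici 0) := by
  set K := Real.exp (-lc (y - ε ^ 2 • gradient W y)) with hK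
  intro u hu
  refine tendsto_integral_filter_of_dominated_convergence
      (fun x : E d => K * C * ((1 + ‖x‖) ^ k * Real.exp (-(1 / 4) * ‖x‖ ^ 2))) ?_ ?_
      ((integrable_poly_exp (by norm_num) k).const_mul _) ?_
  · filter_upwards with r
    have hc := ipl_cont hW y r
    exact ((Real.continuous_exp.comp hc.neg).mul hg).aestronglyMeasurable
  · filter_upwards [self_mem_nhdsWithin] with r hr
    filter_upwards with x
    rw [norm_mul, Real.norm_of_nonneg (Real.exp_nonneg _), Real.norm_eq_abs]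
    calc Real.exp (-ipl ε W y r x) * |g x| ≤ (K * Real.exp (-(1 / 4) * ‖x‖ ^ 2)) *
          (C * (1 + ‖x‖) ^ k) :=
          mul_le_mul (ipl_base hW h0 h1 y hr x) (hb x) (abs_nonneg _) (by positivity)
      _ = _ := by ring
  · filter_upwards with x
    have h2 : Continuous (fun r => Real.exp (-ipl ε W y r x) * g x) := by
      unfold ipl
      fun_prop
    exact (h2.tendsto u).mono_left nhdsWithin_le_nhds

theorem ipl_grad (hW : KPot ε W) (h0 : 0 < ε) (y : E d) (r : ℝ) :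
    ‖gradient (ipl ε W y r) y‖ = ‖gradient W y‖ := by
  rw [norm_gradient, fderiv_ipl hW]
  simp only [sub_self, smul_zero, zero_add, sub_sub_cancel]
  rw [norm_smul, innerSL_apply_norm, norm_smul, Real.norm_of_nonneg (by positivity),
    Real.norm_of_nonneg (by positivity)]
  field_simp

/-! ### integrals -/

theorem ipl_int (hW : KPot ε W) (h0 : 0 < ε) (h1 : ε ≤ 1 / 2) (y : E d) {r : ℝ} (hr : 0 ≤ r)
    (g : E d → ℝ) : ∫ x, g x ∂(gibbs (ipl ε W y r)) =
      (num ε W y (fun _ => 1) r)⁻¹ * num ε W y g r := by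
  rw [integral_gibbs (ipl_cont hW y r) (fun x => ipl_low hW h0 h1 y hr x)]
  simp only [num, mul_one]

theorem num_one_pos (hW : KPot ε W) (h0 : 0 < ε) (h1 : ε ≤ 1 / 2) (y : E d) {r : ℝ} (hr : 0 ≤ r) :
    0 < num ε W y (fun _ => 1) r := by
  simp only [num, mul_one]
  exact Z_pos (ipl_cont hW y r) (fun x => ipl_low hW h0 h1 y hr x)

theorem ipl_integrable (hW : KPot ε W) (h0 : 0 < ε) (h1 : ε ≤ 1 / 2) (y : E d) {r : ℝ}
    (hr : 0 ≤ r) {g : E d → ℝ} (hg : Continuous g) {k : ℕ} {C : ℝ}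
    (hb : ∀ x, |g x| ≤ C * (1 + ‖x‖) ^ k) : Integrable g (gibbs (ipl ε W y r)) :=
  integrable_gibbs_poly (ipl_cont hW y r) (fun x => ipl_low hW h0 h1 y hr x) hg hb

/-- Cauchy-Schwarz -/
theorem cs_int {X : Type*} [MeasurableSpace X] {μ : Measure X} {a b : X → ℝ}
    (ha : Integrable (fun x => a x ^ 2) μ) (hb : Integrable (fun x => b x ^ 2) μ)
    (hab : Integrable (fun x => a x * b x) μ) :
    (∫ x, a x * b x ∂μ) ^ 2 ≤ (∫ x, a x ^ 2 ∂μ) * ∫ x, b x ^ 2 ∂μ := by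
  have h : ∀ t : ℝ, 0 ≤ (∫ x, a x ^ 2 ∂μ) * (t * t) + (2 * ∫ x, a x * b x ∂μ) * t +
      ∫ x, b x ^ 2 ∂μ := by
    intro t
    have h1 : 0 ≤ ∫ x, (t * a x + b x) ^ 2 ∂μ := integral_nonneg fun x => sq_nonneg _
    have h2 : ∫ x, (t * a x + b x) ^ 2 ∂μ = (∫ x, a x ^ 2 ∂μ) * (t * t) +
        (2 * ∫ x, a x * b x ∂μ) * t + ∫ x, b x ^ 2 ∂μ := by
      have e : ∀ x, (t * a x + b x) ^ 2 = (t * t) * a x ^ 2 + (2 * t) * (a x * b x) + b x ^ 2 :=
        fun x => by ring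
      have i1 : Integrable (fun x => (t * t) * a x ^ 2) μ := ha.const_mul _
      have i2 : Integrable (fun x => (2 * t) * (a x * b x)) μ := hab.const_mul _
      have i3 : Integrable (fun x => (t * t) * a x ^ 2 + (2 * t) * (a x * b x)) μ := i1.add i2
      simp only [e]
      rw [integral_add i3 hb, integral_add i1 i2, integral_const_mul, integral_const_mul]
      ring
    rw [← h2]
    exact h1
  have h3 := discrim_le_zero h
  unfold discrim at h3
  nlinarith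

/-- the derivative of the interpolated expectation is at most the product of the deviations -/
theorem cov_ipl (hW : KPot ε W) (h0 : 0 < ε) (h1 : ε ≤ 1 / 2) (y : E d) {r : ℝ} (hr : 0 ≤ r)
    {f : E d → ℝ} (hf : Continuous f) {L : ℝ} (hL0 : 0 ≤ L)
    (hL : ∀ x x', |f x - f x'| ≤ L * ‖x - x'‖) :
    |∫ x, rem W y x * f x ∂(gibbs (ipl ε W y r)) - (∫ x, rem W y x ∂(gibbs (ipl ε W y r))) *
      ∫ x, f x ∂(gibbs (ipl ε W y r))| ≤
      (ε * L) * (3 * ε * (ε * √d + ε ^ 2 * ‖gradient W y‖)) := by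
  set μ := gibbs (ipl ε W y r) with hμ
  have hlp := ipl_lpot hW h0 h1 y hr
  have hκ : 0 < (ε ^ 2)⁻¹ := by positivity
  have hprob : IsProbabilityMeasure μ :=
    gibbs_prob_of_lower (ipl_cont hW y r) (fun x => ipl_low hW h0 h1 y hr x)
  have hcr := (rem_contDiff hW y).continuous
  have hfb : ∀ x, |f x| ≤ (|f 0| + L) * (1 + ‖x‖) ^ 1 := by
    intro x
    have h2 := hL x 0
    rw [sub_zero] at h2
    have h3 : |f x| ≤ |f x - f 0| + |f 0| := by
      calc |f x| = |(f x - f 0) + f 0| := by congr 1; ring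
        _ ≤ _ := abs_add_le _ _
    have h4 : 0 ≤ ‖x‖ := norm_nonneg x
    have h5 : 0 ≤ |f 0| := abs_nonneg _
    rw [pow_one]
    nlinarith [mul_nonneg h5 h4]
  have hx1 : ∀ x : E d, 1 ≤ (1 + ‖x‖) := fun x => by
    have := norm_nonneg x
    linarith
  have irem : Integrable (rem W y) μ := ipl_integrable hW h0 h1 y hr hcr (rem_pgr hW h0 h1 y)
  have if' : Integrable f μ := ipl_integrable hW h0 h1 y hr hf hfb
  have irf : Integrable (fun x => rem W y x * f x) μ := by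
    refine ipl_integrable hW h0 h1 y hr (hcr.mul hf) (k := 3)
      (C := 2 * (1 + ‖y‖) ^ 2 * (|f 0| + L)) (fun x => ?_)
    rw [abs_mul]
    calc |rem W y x| * |f x| ≤ (2 * (1 + ‖y‖) ^ 2 * (1 + ‖x‖) ^ 2) * ((|f 0| + L) * (1 + ‖x‖) ^ 1) :=
          mul_le_mul (rem_pgr hW h0 h1 y x) (hfb x) (abs_nonneg _) (by positivity)
      _ = _ := by ring
  set mR := ∫ x, rem W y x ∂μ with hmR
  set mf := ∫ x, f x ∂μ with hmf
  have iR2 : Integrable (fun x => (rem W y x - mR) ^ 2) μ := by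
    refine ipl_integrable hW h0 h1 y hr ((hcr.sub continuous_const).pow 2) (k := 4)
      (C := (2 * (1 + ‖y‖) ^ 2 + |mR|) ^ 2) (fun x => ?_)
    rw [abs_pow]
    have h2 : |rem W y x - mR| ≤ (2 * (1 + ‖y‖) ^ 2 + |mR|) * (1 + ‖x‖) ^ 2 := by
      have h3 := rem_pgr hW h0 h1 y x
      have h4 : 1 ≤ (1 + ‖x‖) ^ 2 := one_le_pow₀ (hx1 x)
      calc |rem W y x - mR| ≤ |rem W y x| + |mR| := abs_sub _ _
        _ ≤ 2 * (1 + ‖y‖) ^ 2 * (1 + ‖x‖) ^ 2 + |mR| * (1 + ‖x‖) ^ 2 := by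
            have := abs_nonneg mR
            nlinarith
        _ = _ := by ring
    calc |rem W y x - mR| ^ 2 ≤ ((2 * (1 + ‖y‖) ^ 2 + |mR|) * (1 + ‖x‖) ^ 2) ^ 2 := by
          gcongr
      _ = _ := by ring
  have if2 : Integrable (fun x => (f x - mf) ^ 2) μ := by
    refine ipl_integrable hW h0 h1 y hr ((hf.sub continuous_const).pow 2) (k := 2)
      (C := (|f 0| + L + |mf|) ^ 2) (fun x => ?_)
    rw [abs_pow]
    have h2 : |f x - mf| ≤ (|f 0| + L + |mf|) * (1 + ‖x‖) := by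
      have h3 := hfb x
      rw [pow_one] at h3
      calc |f x - mf| ≤ |f x| + |mf| := abs_sub _ _
        _ ≤ (|f 0| + L) * (1 + ‖x‖) + |mf| * (1 + ‖x‖) := by
            have := abs_nonneg mf
            have := hx1 x
            nlinarith
        _ = _ := by ring
    calc |f x - mf| ^ 2 ≤ ((|f 0| + L + |mf|) * (1 + ‖x‖)) ^ 2 := by gcongr
      _ = _ := by ring
  have e : ∀ x, (rem W y x - mR) * (f x - mf) =
      rem W y x * f x - rem W y x * mf - (mR * f x - mR * mf) := fun x => by ring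
  have ip : Integrable (fun x => (rem W y x - mR) * (f x - mf)) μ := by
    simp only [e]
    exact (irf.sub (irem.mul_const _)).sub ((if'.const_mul _).sub (integrable_const _))
  have e1 : ∫ x, rem W y x * f x ∂μ - mR * mf = ∫ x, (rem W y x - mR) * (f x - mf) ∂μ := by
    have j1 : Integrable (fun x => rem W y x * mf) μ := irem.mul_const _
    have j2 : Integrable (fun x => mR * f x) μ := if'.const_mul _
    have j3 : Integrable (fun _ : E d => mR * mf) μ := integrable_const _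
    have j4 : Integrable (fun x => rem W y x * f x - rem W y x * mf) μ := irf.sub j1
    have j5 : Integrable (fun x => mR * f x - mR * mf) μ := j2.sub j3
    simp only [e]
    rw [integral_sub j4 j5, integral_sub irf j1, integral_sub j2 j3,
      integral_mul_const, integral_const_mul, integral_const]
    simp only [probReal_univ, one_smul]
    rw [← hmR, ← hmf]
    ring
  rw [e1]
  have c1 := cs_int iR2 if2 ip
  have v2 : ∫ x, (f x - mf) ^ 2 ∂μ ≤ (ε * L) ^ 2 := by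
    have := hlp.var_lip hκ hL
    rw [inv_inv] at this
    calc _ ≤ ε ^ 2 * L ^ 2 := this
      _ = _ := by ring
  have v1 : ∫ x, (rem W y x - mR) ^ 2 ∂μ ≤ (3 * ε * (ε * √d + ε ^ 2 * ‖gradient W y‖)) ^ 2 := by
    have p1 : Pgr (rem W y) := ⟨2, 2 * (1 + ‖y‖) ^ 2, fun x => rem_pgr hW h0 h1 y x⟩
    have p2 : Pgr (fderiv ℝ (rem W y)) := by
      refine ⟨1, 3 * (1 + ‖y‖), fun x => ?_⟩
      refine (norm_fderiv_rem hW h0 h1 y x).trans ?_
      have h3 : 0 ≤ ‖x‖ := norm_nonneg x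
      have h4 : 0 ≤ ‖y‖ := norm_nonneg y
      have := norm_sub_le x y
      nlinarith [mul_nonneg h3 h4]
    have q1 := hlp.poincare hκ (rem_contDiff hW y) p1 p2
    rw [inv_inv] at q1
    have q2 := hlp.moment hκ (ipl_pgr hW h0 h1 y hr) y
    rw [ipl_grad hW h0] at q2
    have q3 : ∫ x, ‖fderiv ℝ (rem W y) x‖ ^ 2 ∂μ ≤ 9 * ∫ x, ‖x - y‖ ^ 2 ∂μ := by
      rw [← integral_const_mul]
      refine integral_mono_of_nonneg ?_ ?_ ?_
      · filter_upwards with x
        positivity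
      · refine (ipl_integrable hW h0 h1 y hr (by fun_prop) (k := 2) (C := 9 * (1 + ‖y‖) ^ 2)
          (fun x => ?_))
        rw [abs_of_nonneg (by positivity)]
        have h3 : 0 ≤ ‖x‖ := norm_nonneg x
        have h4 : 0 ≤ ‖y‖ := norm_nonneg y
        have h5 : ‖x - y‖ ≤ (1 + ‖y‖) * (1 + ‖x‖) := by
          have := norm_sub_le x y
          nlinarith
        calc 9 * ‖x - y‖ ^ 2 ≤ 9 * ((1 + ‖y‖) * (1 + ‖x‖)) ^ 2 := by gcongr
          _ = _ := by ring
      · filter_upwards with x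
        have := norm_fderiv_rem hW h0 h1 y x
        calc ‖fderiv ℝ (rem W y) x‖ ^ 2 ≤ (3 * ‖x - y‖) ^ 2 := by gcongr
          _ = _ := by ring
    have q4 : √(↑d / (ε ^ 2)⁻¹) = ε * √d := by
      rw [div_inv_eq_mul, mul_comm, Real.sqrt_mul (by positivity), Real.sqrt_sq h0.le]
    rw [q4] at q2
    have q5 : ε * √d + ‖gradient W y‖ / (ε ^ 2)⁻¹ = ε * √d + ε ^ 2 * ‖gradient W y‖ := by
      rw [div_inv_eq_mul, mul_comm (‖gradient W y‖)]
    rw [q5] at q2
    calc _ ≤ ε ^ 2 * ∫ x, ‖fderiv ℝ (rem W y) x‖ ^ 2 ∂μ := q1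
      _ ≤ ε ^ 2 * (9 * (ε * √d + ε ^ 2 * ‖gradient W y‖) ^ 2) := by
          have := q3.trans (mul_le_mul_of_nonneg_left q2 (by norm_num : (0:ℝ) ≤ 9))
          gcongr
      _ = _ := by ring
  have hA : 0 ≤ 3 * ε * (ε * √d + ε ^ 2 * ‖gradient W y‖) := by positivity
  have hB : 0 ≤ ε * L := by positivity
  refine abs_le_of_sq_le_sq ?_ (by positivity)
  calc _ ≤ (∫ x, (rem W y x - mR) ^ 2 ∂μ) * ∫ x, (f x - mf) ^ 2 ∂μ := c1
    _ ≤ (3 * ε * (ε * √d + ε ^ 2 * ‖gradient W y‖)) ^ 2 * (ε * L) ^ 2 := by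
        apply mul_le_mul v1 v2 (integral_nonneg fun x => sq_nonneg _) (by positivity)
    _ = _ := by ring

/-- the two ends of the interpolation -/
theorem ipl_diff (hW : KPot ε W) (h0 : 0 < ε) (h1 : ε ≤ 1 / 2) (y : E d)
    {f : E d → ℝ} (hf : Continuous f) {L : ℝ} (hL0 : 0 ≤ L)
    (hL : ∀ x x', |f x - f x'| ≤ L * ‖x - x'‖) :
    |∫ x, f x ∂(gibbs (ipl ε W y 1)) - ∫ x, f x ∂(gibbs (ipl ε W y 0))| ≤
      (ε * L) * (3 * ε * (ε * √d + ε ^ 2 * ‖gradient W y‖)) := by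
  have hfb : ∀ x, |f x| ≤ (|f 0| + L) * (1 + ‖x‖) ^ 1 := by
    intro x
    have h2 := hL x 0
    rw [sub_zero] at h2
    have h3 : |f x| ≤ |f x - f 0| + |f 0| := by
      calc |f x| = |(f x - f 0) + f 0| := by congr 1; ring
        _ ≤ _ := abs_add_le _ _
    have h4 : 0 ≤ ‖x‖ := norm_nonneg x
    have h5 : 0 ≤ |f 0| := abs_nonneg _
    rw [pow_one]
    nlinarith [mul_nonneg h5 h4]
  have h1b : ∀ x : E d, |(fun _ : E d => (1 : ℝ)) x| ≤ 1 * (1 + ‖x‖) ^ 0 := fun x => by simp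
  have h1c : Continuous (fun _ : E d => (1 : ℝ)) := continuous_const
  set Z : ℝ → ℝ := num ε W y (fun _ => 1) with hZ
  set F : ℝ → ℝ := fun r => (Z r)⁻¹ * num ε W y f r with hF
  have hFc : ContinuousOn F (Set.Icc 0 1) := by
    have c1 := (num_cont hW h0 h1 y hf hfb).mono (Set.Icc_subset_Ici_self : Set.Icc (0 : ℝ) 1 ⊆ _)
    have c2 := (num_cont hW h0 h1 y h1c h1b).mono (Set.Icc_subset_Ici_self : Set.Icc (0 : ℝ) 1 ⊆ _)
    exact (c2.inv₀ fun r hr => (num_one_pos hW h0 h1 y hr.1).ne').mul c1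
  have hder : ∀ r, 0 < r → HasDerivAt F
      (-(∫ x, rem W y x * f x ∂(gibbs (ipl ε W y r)) - (∫ x, rem W y x ∂(gibbs (ipl ε W y r))) *
      ∫ x, f x ∂(gibbs (ipl ε W y r)))) r := by
    intro r hr
    have hzp := num_one_pos hW h0 h1 y hr.le
    have d1 := num_deriv hW h0 h1 y hf hfb hr
    have d2 := num_deriv hW h0 h1 y h1c h1b hr
    have d3 := (d2.fun_inv hzp.ne').mul d1
    have g1 : ∀ g : E d → ℝ, ∫ x, Real.exp (-ipl ε W y r x) * g x =
        Z r * ∫ x, g x ∂(gibbs (ipl ε W y r)) := by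
      intro g
      rw [ipl_int hW h0 h1 y hr.le, ← mul_assoc, mul_inv_cancel₀ hzp.ne', one_mul, num]
    have e2 : num ε W y f r = Z r * ∫ x, f x ∂(gibbs (ipl ε W y r)) := g1 f
    have e3 : ∫ x, Real.exp (-ipl ε W y r x) * (-(rem W y x) * f x) =
        Z r * (-∫ x, rem W y x * f x ∂(gibbs (ipl ε W y r))) := by
      rw [g1 (fun x => -(rem W y x) * f x)]
      congr 1
      rw [← integral_neg]
      refine integral_congr_ae ?_
      filter_upwards with x
      ring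
    have e4 : ∫ x, Real.exp (-ipl ε W y r x) * (-(rem W y x) * (fun _ : E d => (1 : ℝ)) x) =
        Z r * (-∫ x, rem W y x ∂(gibbs (ipl ε W y r))) := by
      rw [g1 (fun x => -(rem W y x) * (fun _ : E d => (1 : ℝ)) x)]
      congr 1
      rw [← integral_neg]
      refine integral_congr_ae ?_
      filter_upwards with x
      ring
    refine d3.congr_deriv ?_
    rw [e3, e4]
    change -(Z r * (-∫ x, rem W y x ∂(gibbs (ipl ε W y r)))) / (Z r) ^ 2 * num ε W y f r +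
      (Z r)⁻¹ * (Z r * (-∫ x, rem W y x * f x ∂(gibbs (ipl ε W y r)))) = _
    rw [e2]
    have hz : Z r ≠ 0 := hzp.ne'
    field_simp
    ring
  obtain ⟨c, hc, hc2⟩ := exists_hasDerivAt_eq_slope F _ (zero_lt_one' ℝ) hFc
    (fun r hr => hder r hr.1)
  rw [ipl_int hW h0 h1 y zero_le_one, ipl_int hW h0 h1 y le_rfl]
  have k3 : (num ε W y (fun _ => 1) 1)⁻¹ * num ε W y f 1 -
      (num ε W y (fun _ => 1) 0)⁻¹ * num ε W y f 0 = F 1 - F 0 := rfl
  rw [k3]
  have k4 : F 1 - F 0 = (F 1 - F 0) / (1 - 0) := by rw [sub_zero, div_one]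
  rw [k4, ← hc2, abs_neg]
  exact cov_ipl hW h0 h1 y hc.1.le hf hL0 hL

/-- adding a constant to the potential -/
theorem gibbs_shift {V V' : E d → ℝ} {k : ℝ} (h : ∀ x, V' x = V x + k) : gibbs V' = gibbs V := by
  have h1 : ∀ x, ENNReal.ofReal (Real.exp (-V' x)) =
      ENNReal.ofReal (Real.exp (-k)) * ENNReal.ofReal (Real.exp (-V x)) := by
    intro x
    rw [← ENNReal.ofReal_mul (Real.exp_nonneg _), ← Real.exp_add, h x]
    congr 2
    ring
  have hk : ENNReal.ofReal (Real.exp (-k)) ≠ 0 := by simp [Real.exp_pos]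
  have hk2 : ENNReal.ofReal (Real.exp (-k)) ≠ ⊤ := ENNReal.ofReal_ne_top
  unfold gibbs
  simp only [h1]
  rw [lintegral_const_mul' _ _ hk2]
  have h2 : (volume : Measure (E d)).withDensity
      (fun x => ENNReal.ofReal (Real.exp (-k)) * ENNReal.ofReal (Real.exp (-V x))) =
      ENNReal.ofReal (Real.exp (-k)) • (volume : Measure (E d)).withDensity
        (fun x => ENNReal.ofReal (Real.exp (-V x))) := by
    have := withDensity_smul' (μ := (volume : Measure (E d))) (ENNReal.ofReal (Real.exp (-k)))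
      (fun x => ENNReal.ofReal (Real.exp (-V x))) hk2
    rw [← this]
    rfl
  rw [h2, smul_smul, ENNReal.mul_inv (Or.inl hk) (Or.inl hk2), mul_right_comm,
    ENNReal.inv_mul_cancel hk hk2, one_mul]

theorem post_eq (h0 : 0 < ε) (y : E d) : post ε W y = gibbs (ipl ε W y 1) := by
  unfold post
  refine gibbs_shift (k := W y - ε ^ 2 * ‖gradient W y‖ ^ 2 / 2) (fun x => ?_)
  have e1 : x - (y - ε ^ 2 • gradient W y) = (x - y) + ε ^ 2 • gradient W y := by abel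
  have e2 : ‖(x - y) + ε ^ 2 • gradient W y‖ ^ 2 = ‖x - y‖ ^ 2 +
      2 * (ε ^ 2 * inner ℝ (gradient W y) (x - y)) + (ε ^ 2) ^ 2 * ‖gradient W y‖ ^ 2 := by
    rw [norm_add_sq_real, inner_smul_right, norm_smul, Real.norm_of_nonneg (by positivity),
      real_inner_comm]
    ring
  unfold pot ipl rem qd
  rw [e1, e2, inner_gradient]
  field_simp
  ring

theorem gauss_eq (h0 : 0 < ε) (h1 : ε ≤ 1 / 2) (hW : KPot ε W) (y : E d) (f : E d → ℝ) :
    ∫ x, f x ∂(gibbs (ipl ε W y 0)) =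
      ∫ z, f (y - ε ^ 2 • gradient W y + ε • z) ∂(stdGaussian (E d)) := by
  set c := y - ε ^ 2 • gradient W y with hc
  have hl : ∀ x : E d, (0 : ℝ) + ‖x‖ ^ 2 / 4 ≤ ‖x‖ ^ 2 / 2 := by
    intro x
    have : 0 ≤ ‖x‖ ^ 2 := by positivity
    linarith
  rw [integral_gibbs (ipl_cont hW y 0) (fun x => ipl_low hW h0 h1 y le_rfl x),
    stdGaussian_eq_gibbs, integral_gibbs (spot_sq d).cont hl]
  have e0 : ∀ x, ipl ε W y 0 x = qd ε c x := fun x => by
    unfold ipl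
    rw [zero_mul, zero_add]
  simp only [e0]
  have key : ∀ g : E d → ℝ, ∫ z : E d, Real.exp (-(‖z‖ ^ 2 / 2)) * g (c + ε • z) =
      |(ε ^ Module.finrank ℝ (E d))⁻¹| * ∫ x, Real.exp (-qd ε c x) * g x := by
    intro g
    have h2 := Measure.integral_comp_smul (μ := (volume : Measure (E d)))
      (fun x => Real.exp (-qd ε c (c + x)) * g (c + x)) ε
    have h3 := integral_add_left_eq_self (μ := (volume : Measure (E d)))
      (fun x => Real.exp (-qd ε c x) * g x) c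
    rw [h3, smul_eq_mul] at h2
    rw [← h2]
    apply integral_congr_ae
    filter_upwards with z
    congr 2
    unfold qd
    rw [add_sub_cancel_left, norm_smul, Real.norm_of_nonneg h0.le]
    field_simp
  have k1 := key (fun _ => 1)
  simp only [mul_one] at k1
  rw [key f, k1]
  have hne : |(ε ^ Module.finrank ℝ (E d))⁻¹| ≠ 0 := by
    have : 0 < (ε ^ Module.finrank ℝ (E d))⁻¹ := by positivity
    exact (abs_pos.2 this.ne').ne'
  rw [mul_inv, mul_mul_mul_comm, inv_mul_cancel₀ hne, one_mul]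

theorem bias_le (hW : KPot ε W) (h0 : 0 < ε) (h1 : ε ≤ 1 / 2) (y : E d) :
    ‖bias W ε y‖ ≤ 9 * (ε ^ 3 * √d + ε ^ 4 * ‖gradient W y‖) := by
  set c := y - ε ^ 2 • gradient W y with hc
  have hgc : Continuous (gradient W) := by
    have : LipschitzWith 3 (gradient W) := LipschitzWith.of_dist_le_mul fun a b => by
      rw [dist_eq_norm, dist_eq_norm]
      exact hW.grad_lip h0 h1 a b
    exact this.continuous
  have hlip : ∀ X X' : E d, ‖est (gradient W) ε y X - est (gradient W) ε y X'‖ ≤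
      3 * ε * ‖X - X'‖ := by
    intro X X'
    unfold est
    refine (hW.grad_lip h0 h1 _ _).trans (le_of_eq ?_)
    rw [add_sub_add_left_eq_sub, ← smul_sub, norm_smul, Real.norm_of_nonneg h0.le, mul_assoc]
  have hec : Continuous (est (gradient W) ε y) := by
    unfold est
    fun_prop
  have hei : Integrable (est (gradient W) ε y) (stdGaussian (E d)) := integrable_of_lip hec hlip
  have hb : bias W ε y = ∫ X, est (gradient W) ε y X ∂(stdGaussian (E d)) -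
      gradient (lsm ε W) y := by
    unfold bias err
    rw [integral_sub hei (integrable_const _), integral_const]
    simp
  set e := bias W ε y with he
  -- test direction
  set f : E d → ℝ := fun w => fderiv ℝ W w e with hf
  have hfi : ∀ w, f w = inner ℝ (gradient W w) e := fun w => (inner_gradient W w e).symm
  have hfc : Continuous f := by
    have : f = fun w => inner ℝ (gradient W w) e := funext hfi
    rw [this]
    fun_prop
  have hL : ∀ x x', |f x - f x'| ≤ (3 * ‖e‖) * ‖x - x'‖ := by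
    intro x x'
    rw [hfi, hfi, ← inner_sub_left]
    calc |inner ℝ (gradient W x - gradient W x') e| ≤ ‖gradient W x - gradient W x'‖ * ‖e‖ :=
          abs_real_inner_le_norm _ _
      _ ≤ (3 * ‖x - x'‖) * ‖e‖ := by
          gcongr
          exact hW.grad_lip h0 h1 x x'
      _ = _ := by ring
  have hd := ipl_diff hW h0 h1 y hfc (by positivity) hL
  rw [← post_eq h0, gauss_eq h0 h1 hW] at hd
  have h2 : inner ℝ e e = (∫ z, f (c + ε • z) ∂(stdGaussian (E d))) - ∫ x, f x ∂(post ε W y) := by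
    have h3 : (∫ x, f x ∂(post ε W y)) = inner ℝ (gradient (lsm ε W) y) e := by
      rw [inner_gradient, fderiv_lsm hW h0 h1]
      rfl
    have h4 : (∫ z, f (c + ε • z) ∂(stdGaussian (E d))) =
        inner ℝ (∫ X, est (gradient W) ε y X ∂(stdGaussian (E d))) e := by
      have h5 := integral_inner (𝕜 := ℝ) hei e
      rw [real_inner_comm] at h5
      rw [← h5]
      apply integral_congr_ae
      filter_upwards with z
      rw [hfi, real_inner_comm]
      rfl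
    rw [h3, h4, ← inner_sub_left, ← hb]
  have h6 : ‖e‖ ^ 2 ≤ (ε * (3 * ‖e‖)) * (3 * ε * (ε * √d + ε ^ 2 * ‖gradient W y‖)) := by
    rw [← real_inner_self_eq_norm_sq, h2]
    refine (le_abs_self _).trans ?_
    rw [abs_sub_comm]
    exact hd
  rcases eq_or_ne ‖e‖ 0 with h7 | h7
  · rw [h7]
    positivity
  · have h8 : 0 < ‖e‖ := lt_of_le_of_ne (norm_nonneg _) (Ne.symm h7)
    have h9 : ‖e‖ * ‖e‖ ≤ (9 * (ε ^ 3 * √d + ε ^ 4 * ‖gradient W y‖)) * ‖e‖ := by
      calc ‖e‖ * ‖e‖ = ‖e‖ ^ 2 := by ring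
        _ ≤ _ := h6
        _ = _ := by ring
    exact le_of_mul_le_mul_right h9 h8

end P347S
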