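import Vale.Agent.P347S.Defs

/-!
Module Contr: synchronous coupling contracts `Qf z = |y|² + |y+p|²`.

Proof (adapt `P347Q/Contraction.lean`): `g` satisfies `Mono g`: `|2(x-y) - (g x - g y)| ≤ |x-y|`
(true for `g = ∇W`, `KPot ε W`, `ε ≤ 1/2`, curvature in `[1,3]`).  Difference of the arguments of the
`i`-th force: `δ_i = Δy + O(η|Δp| + (η²+3ε²)|Δy|)`, so with `ΔG_i` the difference of the forces
`|2Δy - ΔG_i| ≤ |Δy| (1 + 9η²+9ε²) + 3η|Δp|`.  With `u = Δy`, `v = Δy + Δp`: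
`u' = (1-η)u + ηv + O(η²)`, `v' = (1-η)v - ηu + ηρ + O(η²)`, `|ρ| ≤ (1+κ)|u| + O(η)`, so
`|u'|²+|v'|² ≤ (1 - 2η + η(1+κ))(|u|²+|v|²) + O(η²)`.
-/

open MeasureTheory ProbabilityTheory Function
open scoped ENNReal BigOperators

namespace P347S

open P347Q

/-- a symmetric form bounded by `|w|²` on the diagonal is bounded by `1` -/
theorem sym_le {X : Type*} [NormedAddCommGroup X] [InnerProductSpace ℝ X]
    (A : X →L[ℝ] X →L[ℝ] ℝ) (hs : ∀ u w, A u w = A w u) (hb : ∀ w, |A w w| ≤ ‖w‖ ^ 2) (u w : X) :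
    |A u w| ≤ ‖u‖ * ‖w‖ := by
  have h1 : ∀ t : ℝ, 0 ≤ (2 * ‖u‖ ^ 2) * (t * t) + (-4 * A u w) * t + 2 * ‖w‖ ^ 2 := by
    intro t
    have h2 := (abs_le.1 (hb (t • u + w))).2
    have h3 := (abs_le.1 (hb (t • u - w))).1
    have e1 : A (t • u + w) (t • u + w) = t * t * A u u + 2 * t * A u w + A w w := by
      simp only [map_add, map_smul, add_apply, smul_apply, smul_eq_mul]
      rw [hs w u]
      ring
    have e2 : A (t • u - w) (t • u - w) = t * t * A u u - 2 * t * A u w + A w w := by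
      simp only [map_sub, map_smul, sub_apply, smul_apply, smul_eq_mul]
      rw [hs w u]
      ring
    have e3 : ‖t • u + w‖ ^ 2 + ‖t • u - w‖ ^ 2 = 2 * (t * t * ‖u‖ ^ 2 + ‖w‖ ^ 2) := by
      have e4 : ‖t • u‖ ^ 2 = t * t * ‖u‖ ^ 2 := by
        rw [norm_smul, Real.norm_eq_abs, mul_pow, sq_abs]
        ring
      rw [← e4]
      exact parallelogram_law_with_norm ℝ (t • u) w
    rw [e1] at h2
    rw [e2] at h3
    nlinarith
  have h4 := discrim_le_zero h1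
  unfold discrim at h4
  have h5 : (A u w) ^ 2 ≤ (‖u‖ * ‖w‖) ^ 2 := by nlinarith
  exact abs_le_of_sq_le_sq h5 (by positivity)

theorem mono_of_hess {d : ℕ} {V : E d → ℝ} (hV : ContDiff ℝ 2 V)
    (hl : ∀ x w : E d, ‖w‖ ^ 2 ≤ fderiv ℝ (fderiv ℝ V) x w w)
    (hu : ∀ x w : E d, fderiv ℝ (fderiv ℝ V) x w w ≤ 3 * ‖w‖ ^ 2) :
    Mono (gradient V) := by
  intro x y
  have hs : ∀ x u w : E d, fderiv ℝ (fderiv ℝ V) x u w = fderiv ℝ (fderiv ℝ V) x w u := by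
    intro x u w
    have := (hV.contDiffAt (x := x)).isSymmSndFDerivAt
      (by rw [minSmoothness_of_isRCLikeNormedField])
    exact this u w
  obtain ⟨I, hI⟩ : ∃ I : E d →L[ℝ] E d →L[ℝ] ℝ, ∀ x w, I x w = inner ℝ x w :=
    ⟨innerSL ℝ, fun x w => rfl⟩
  set F : E d → (E d →L[ℝ] ℝ) := fun x => (2 : ℝ) • I x - fderiv ℝ V x with hF
  have hFd : ∀ x, HasFDerivAt F ((2 : ℝ) • I - fderiv ℝ (fderiv ℝ V) x) x := by
    intro x
    have h1 : HasFDerivAt (fun x : E d => (2 : ℝ) • I x) ((2 : ℝ) • I) x :=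
      (I.hasFDerivAt).const_smul (2 : ℝ)
    exact h1.sub (PotAux.fderiv_diff hV x).hasFDerivAt
  have h4 : ∀ w : E d, (I w) w = ‖w‖ ^ 2 := by
    intro w
    rw [hI]
    exact real_inner_self_eq_norm_sq w
  have hb : ∀ x, ‖(2 : ℝ) • I - fderiv ℝ (fderiv ℝ V) x‖ ≤ 1 := by
    intro x
    refine ContinuousLinearMap.opNorm_le_bound _ (by norm_num) fun u => ?_
    refine ContinuousLinearMap.opNorm_le_bound _ (by positivity) fun w => ?_
    rw [Real.norm_eq_abs, one_mul]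
    refine sym_le _ (fun u w => ?_) (fun w => ?_) u w
    · simp only [smul_apply, sub_apply, smul_eq_mul]
      rw [hs x u w]
      have : (I u) w = (I w) u := by
        rw [hI, hI]
        exact real_inner_comm _ _
      rw [this]
    · simp only [smul_apply, sub_apply, smul_eq_mul]
      rw [h4, abs_le]
      constructor <;> linarith [hl x w, hu x w]
  have h5 : ‖F x - F y‖ ≤ 1 * ‖x - y‖ :=
    convex_univ.norm_image_sub_le_of_norm_hasFDerivWithin_le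
      (fun z _ => (hFd z).hasFDerivWithinAt) (fun z _ => hb z) (Set.mem_univ _) (Set.mem_univ _)
  have h6 : ‖(2 : ℝ) • (x - y) - (gradient V x - gradient V y)‖ = ‖F x - F y‖ := by
    rw [← LinearIsometryEquiv.norm_map (InnerProductSpace.toDual ℝ (E d))]
    congr 1
    ext w
    have e1 : (InnerProductSpace.toDual ℝ (E d)
        ((2 : ℝ) • (x - y) - (gradient V x - gradient V y))) w =
        inner ℝ ((2 : ℝ) • (x - y) - (gradient V x - gradient V y)) w := by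
      rw [InnerProductSpace.toDual_apply_apply]
    rw [e1]
    simp only [hF, sub_apply, smul_apply, smul_eq_mul,
      hI, PotAux.fderiv_eq_inner, inner_sub_left,
      real_inner_smul_left]
    ring
  rw [h6]
  simpa using h5

theorem kpot_mono {d : ℕ} {ε : ℝ} {W : E d → ℝ} (hW : KPot ε W) (h0 : 0 < ε) (h1 : ε ≤ 1 / 2) :
    Mono (gradient W) := by
  have hs : ε ^ 2 ≤ 1 / 4 := by nlinarith
  have hs0 : 0 ≤ ε ^ 2 := sq_nonneg ε
  refine mono_of_hess hW.smooth (fun x w => ?_) (fun x w => ?_)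
  · have h2 := hW.lower x w
    have h3 : 0 ≤ fderiv ℝ (fderiv ℝ W) x w w := by
      by_contra h
      push Not at h
      have h4 : 0 ≤ ‖w‖ ^ 2 := sq_nonneg _
      nlinarith
    nlinarith
  · have h2 := hW.upper x w
    have h3 : 0 ≤ ‖w‖ ^ 2 := sq_nonneg _
    by_contra h
    push Not at h
    nlinarith

/-- differences of the arguments of the forces and of the forces -/
theorem frc_diff {d m N : ℕ} (R : Rule m N) {g : E d → E d} (hg : Mono g) {ε η : ℝ}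
    (h0 : 0 < η) (z z' : E d × E d) (X : Fin N → E d) (i : Fin N) :
    ‖(2 : ℝ) • (z.1 - z'.1) - (frc R g ε η z X i - frc R g ε η z' X i)‖ ≤
      ‖z.1 - z'.1‖ + (3 * η + 9 * (η ^ 2 + ε ^ 2)) * (‖z.1 - z'.1‖ + ‖z.2 - z'.2‖) := by
  have ht := R.t_mem i
  set a := z.1 + (η * R.t i) • z.2 - ((η * R.t i) ^ 2 / 2 + ε ^ 2) • g z.1 + ε • X i with ha
  set a' := z'.1 + (η * R.t i) • z'.2 - ((η * R.t i) ^ 2 / 2 + ε ^ 2) • g z'.1 + ε • X i with ha'
  have hηt : 0 ≤ η * R.t i := mul_nonneg h0.le ht.1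
  have hηt1 : η * R.t i ≤ η := by
    have := mul_le_mul_of_nonneg_left ht.2 h0.le
    linarith
  have hc0 : 0 ≤ (η * R.t i) ^ 2 / 2 + ε ^ 2 := by positivity
  have hc1 : (η * R.t i) ^ 2 / 2 + ε ^ 2 ≤ η ^ 2 + ε ^ 2 := by
    have := pow_le_pow_left₀ hηt hηt1 2
    nlinarith [sq_nonneg η]
  have hd : ‖(a - a') - (z.1 - z'.1)‖ ≤
      η * ‖z.2 - z'.2‖ + 3 * (η ^ 2 + ε ^ 2) * ‖z.1 - z'.1‖ := by
    have e : (a - a') - (z.1 - z'.1) = (η * R.t i) • (z.2 - z'.2) -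
        ((η * R.t i) ^ 2 / 2 + ε ^ 2) • (g z.1 - g z'.1) := by
      rw [ha, ha']
      module
    rw [e]
    refine (norm_sub_le _ _).trans ?_
    rw [norm_smul, norm_smul, Real.norm_of_nonneg hηt, Real.norm_of_nonneg hc0]
    have h2 := mul_le_mul_of_nonneg_right hηt1 (norm_nonneg (z.2 - z'.2))
    have h3 : ((η * R.t i) ^ 2 / 2 + ε ^ 2) * ‖g z.1 - g z'.1‖ ≤
        (η ^ 2 + ε ^ 2) * (3 * ‖z.1 - z'.1‖) :=
      mul_le_mul hc1 (hg.lip _ _) (norm_nonneg _) (by positivity)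
    linarith
  have h2 := hg a a'
  have e2 : (2 : ℝ) • (z.1 - z'.1) - (g a - g a') =
      ((2 : ℝ) • (a - a') - (g a - g a')) - (2 : ℝ) • ((a - a') - (z.1 - z'.1)) := by
    module
  show ‖(2 : ℝ) • (z.1 - z'.1) - (g a - g a')‖ ≤ _
  rw [e2]
  refine (norm_sub_le _ _).trans ?_
  rw [norm_smul (2 : ℝ), Real.norm_of_nonneg (by norm_num : (0 : ℝ) ≤ 2)]
  have h3 : ‖a - a'‖ ≤ ‖z.1 - z'.1‖ + ‖(a - a') - (z.1 - z'.1)‖ := by
    have : a - a' = (z.1 - z'.1) + ((a - a') - (z.1 - z'.1)) := by abel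
    calc ‖a - a'‖ = ‖(z.1 - z'.1) + ((a - a') - (z.1 - z'.1))‖ := by rw [← this]
      _ ≤ _ := norm_add_le _ _
  have h4 : 0 ≤ ‖z.1 - z'.1‖ := norm_nonneg _
  have h5 : 0 ≤ ‖z.2 - z'.2‖ := norm_nonneg _
  have h6 : 0 ≤ (3 * η) * ‖z.1 - z'.1‖ := by positivity
  have h7 : 0 ≤ 9 * (η ^ 2 + ε ^ 2) * ‖z.2 - z'.2‖ := by positivity
  nlinarith

/-- the main part of the contraction, with relative error `κ` of the force -/
theorem real_contract1' {a b s η κ ρ A B c : ℝ} (ha : 0 ≤ a) (hb : 0 ≤ b) (hs : 0 ≤ s)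
    (hab : a ^ 2 + b ^ 2 = s ^ 2) (hη : 0 < η) (hη1 : η ≤ 1 / 2000) (hκ0 : 0 ≤ κ)
    (hκ1 : κ ≤ 1 / 100) (hρ0 : 0 ≤ ρ) (hρ : ρ ≤ a + (36 * η + κ) * s)
    (hA : A ^ 2 = (1 - η) ^ 2 * a ^ 2 + 2 * η * (1 - η) * c + η ^ 2 * b ^ 2)
    (hB : B ^ 2 ≤ (1 - η) ^ 2 * b ^ 2 + η ^ 2 * (ρ + a) ^ 2 + 2 * η * (1 - η) * (b * ρ - c)) :
    A ^ 2 + B ^ 2 ≤ (1 - η) * s ^ 2 + 82 * η ^ 2 * s ^ 2 + 2 * κ * η * s ^ 2 := by
  have has : a ≤ s := abs_le_of_sq_le_sq' (by nlinarith) hs |>.2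
  have hbs : b ≤ s := abs_le_of_sq_le_sq' (by nlinarith) hs |>.2
  have hab2 : 2 * (a * b) ≤ s ^ 2 := by nlinarith [sq_nonneg (a - b)]
  have hηs : (36 * η + κ) * s ≤ s := by
    have : 36 * η + κ ≤ 1 := by linarith
    nlinarith
  have hρs : ρ ≤ 2 * s := by linarith
  have hρa : (ρ + a) ^ 2 ≤ 9 * s ^ 2 := by
    have h1 : ρ + a ≤ 3 * s := by linarith
    have h2 := pow_le_pow_left₀ (by linarith) h1 2
    linarith
  have hη2 : 0 ≤ η ^ 2 := sq_nonneg η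
  have hηκ : 0 ≤ 36 * η + κ := by linarith
  have hbρ : b * ρ ≤ a * b + (36 * η + κ) * s ^ 2 := by
    have h1 : b * ρ ≤ b * (a + (36 * η + κ) * s) := mul_le_mul_of_nonneg_left hρ hb
    have h2 : b * ((36 * η + κ) * s) ≤ s * ((36 * η + κ) * s) :=
      mul_le_mul_of_nonneg_right hbs (by positivity)
    linarith
  have h1η0 : 0 ≤ 1 - η := by linarith
  have h1η : 0 ≤ 2 * η * (1 - η) := by positivity
  have h1η' : 2 * η * (1 - η) ≤ 2 * η := by nlinarith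
  have h3 : 2 * η * (1 - η) * (b * ρ) ≤ 2 * η * (1 - η) * (a * b + (36 * η + κ) * s ^ 2) :=
    mul_le_mul_of_nonneg_left hbρ h1η
  have h4 : η * (1 - η) * (2 * (a * b)) ≤ η * (1 - η) * s ^ 2 :=
    mul_le_mul_of_nonneg_left hab2 (by positivity)
  have h5 : 2 * η * (1 - η) * ((36 * η + κ) * s ^ 2) ≤ 2 * η * ((36 * η + κ) * s ^ 2) :=
    mul_le_mul_of_nonneg_right h1η' (by positivity)
  have h6 : η ^ 2 * (ρ + a) ^ 2 ≤ η ^ 2 * (9 * s ^ 2) := mul_le_mul_of_nonneg_left hρa hη2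
  have h7 : η ^ 2 * b ^ 2 ≤ η ^ 2 * s ^ 2 :=
    mul_le_mul_of_nonneg_left (pow_le_pow_left₀ hb hbs 2) hη2
  have h8 : (1 - η) ^ 2 * a ^ 2 + (1 - η) ^ 2 * b ^ 2 = (1 - η) ^ 2 * s ^ 2 := by
    rw [← mul_add, hab]
  linarith

/-- the real inequality behind the contraction -/
theorem real_contract' {s η κ A B e₁ e₂ : ℝ} (hs : 0 ≤ s) (hη : 0 < η) (hη1 : η ≤ 1 / 2000)
    (_hκ0 : 0 ≤ κ) (hκ1 : κ ≤ 1 / 100) (_hA0 : 0 ≤ A) (_hB0 : 0 ≤ B)
    (hsum : A ^ 2 + B ^ 2 ≤ (1 - η) * s ^ 2 + 82 * η ^ 2 * s ^ 2 + 2 * κ * η * s ^ 2)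
    (he1 : 0 ≤ e₁) (he1' : e₁ ≤ 45 * η ^ 2 * s) (he2 : 0 ≤ e₂) (he2' : e₂ ≤ 135 * η ^ 2 * s) :
    (A + e₁) ^ 2 + (B + e₂) ^ 2 ≤ (1 - η / 2) * s ^ 2 := by
  have hs2 : 0 ≤ s ^ 2 := sq_nonneg s
  have hη3 : η ^ 2 ≤ η * (1 / 2000) := by nlinarith
  have k7 : η ^ 2 * s ^ 2 ≤ η * (1 / 2000) * s ^ 2 := mul_le_mul_of_nonneg_right hη3 hs2
  have k8 : 0 ≤ η * s ^ 2 := by positivity
  have kκ : κ * (η * s ^ 2) ≤ 1 / 100 * (η * s ^ 2) := mul_le_mul_of_nonneg_right hκ1 k8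
  have hA2 : A ≤ s := by
    refine abs_le_of_sq_le_sq' ?_ hs |>.2
    nlinarith [sq_nonneg B]
  have hB2 : B ≤ s := by
    refine abs_le_of_sq_le_sq' ?_ hs |>.2
    nlinarith [sq_nonneg A]
  have k1 : A * e₁ ≤ s * (45 * η ^ 2 * s) := mul_le_mul hA2 he1' he1 hs
  have k2 : B * e₂ ≤ s * (135 * η ^ 2 * s) := mul_le_mul hB2 he2' he2 hs
  have k3 : e₁ ≤ s := by
    have : 45 * η ^ 2 ≤ 1 := by linarith
    have := mul_le_mul_of_nonneg_right this hs
    linarith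
  have k4 : e₂ ≤ s := by
    have : 135 * η ^ 2 ≤ 1 := by linarith
    have := mul_le_mul_of_nonneg_right this hs
    linarith
  have k5 : e₁ * e₁ ≤ (45 * η ^ 2 * s) * s := mul_le_mul he1' k3 he1 (by positivity)
  have k6 : e₂ * e₂ ≤ (135 * η ^ 2 * s) * s := mul_le_mul he2' k4 he2 (by positivity)
  have e : (A + e₁) ^ 2 + (B + e₂) ^ 2 =
    A ^ 2 + B ^ 2 + 2 * (A * e₁) + 2 * (B * e₂) + e₁ * e₁ + e₂ * e₂ := by ring
  rw [e]
  have k9 : (1 - η) * s ^ 2 + 82 * η ^ 2 * s ^ 2 + 2 * κ * η * s ^ 2 +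
      2 * (s * (45 * η ^ 2 * s)) +
      2 * (s * (135 * η ^ 2 * s)) + (45 * η ^ 2 * s) * s + (135 * η ^ 2 * s) * s =
      s ^ 2 - η * s ^ 2 + 622 * (η ^ 2 * s ^ 2) + 2 * (κ * (η * s ^ 2)) := by ring
  have k10 : (1 - η / 2) * s ^ 2 = s ^ 2 - η * s ^ 2 / 2 := by ring
  rw [k10]
  linarith

theorem alg_contract {m N : ℕ} (R : Rule m N) (hm : 1 ≤ m) :
    ∃ c0 : ℝ, 0 < c0 ∧ ∀ (d : ℕ) (g : E d → E d), Mono g → ∀ ε η : ℝ, 0 < ε → ε ≤ c0 →
      0 < η → η ≤ c0 → ∀ (z z' : E d × E d) (ω : Nz N d),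
        Qf (alg R g ε η z ω - alg R g ε η z' ω) ≤ (1 - η / 2) * Qf (z - z') := by
  refine ⟨1 / 2000, by norm_num, fun d g hg ε η e0 e1 h0 hη z z' ω => ?_⟩
  have h1 : η ≤ 1 := by linarith
  have p4 := sum_norm_le (z - z')
  have hQ0 : 0 ≤ Qf (z - z') := by unfold Qf; positivity
  simp only [Prod.fst_sub, Prod.snd_sub] at p4
  have pf := frc_diff R hg (ε := ε) h0 z z' ω.1
  set y := z.1 - z'.1 with hy
  set u := z.2 - z'.2 with hu
  set F : Fin N → E d := fun i => frc R g ε η z ω.1 i - frc R g ε η z' ω.1 i with hF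
  set S := ‖y‖ + ‖u‖ with hS
  have hS0 : 0 ≤ S := by positivity
  have hyS : ‖y‖ ≤ S := by rw [hS]; linarith [norm_nonneg u]
  have hsm : 3 * η + 9 * (η ^ 2 + ε ^ 2) ≤ 12 * η + 9 * ε ^ 2 := by nlinarith
  have hsm1 : 12 * η + 9 * ε ^ 2 ≤ 1 := by nlinarith
  have pf' : ∀ i, ‖(2 : ℝ) • y - F i‖ ≤ ‖y‖ + (12 * η + 9 * ε ^ 2) * S := by
    intro i
    refine (pf i).trans ?_
    have := mul_le_mul_of_nonneg_right hsm hS0
    linarith
  have pF : ∀ i, ‖F i‖ ≤ 15 * S := by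
    intro i
    have e : F i = (2 : ℝ) • y - ((2 : ℝ) • y - F i) := by abel
    rw [e]
    refine (norm_sub_le _ _).trans ?_
    rw [norm_smul, Real.norm_of_nonneg (by norm_num : (0 : ℝ) ≤ 2)]
    have h2 := pf' i
    have h3 := mul_le_mul_of_nonneg_right hsm1 hS0
    linarith
  set g1 := ∑ i, R.w i • F i with hg1
  set q := -(η ^ 2 • ∑ i, (R.w i * (1 - R.t i)) • F i) with hq
  have p1 : ‖q‖ ≤ 15 * η ^ 2 * S := by
    rw [hq, norm_neg, norm_smul, Real.norm_of_nonneg (by positivity)]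
    have h2 : ‖∑ i, (R.w i * (1 - R.t i)) • F i‖ ≤ 15 * S :=
      wsum_le _ (R.w1_nonneg) (R.sum_w1 hm) _ (by positivity) pF
    have h3 := mul_le_mul_of_nonneg_left h2 (sq_nonneg η)
    linarith
  have p2 : ‖g1‖ ≤ 15 * S := wsum_le _ R.w_nonneg (R.sum_w hm).le _ (by positivity) pF
  have p3 : ‖(2 : ℝ) • y - g1‖ ≤ ‖y‖ + (12 * η + 9 * ε ^ 2) * S := by
    have hdec : (2 : ℝ) • y - g1 = ∑ i, R.w i • ((2 : ℝ) • y - F i) := by
      simp only [smul_sub (R.w _), Finset.sum_sub_distrib]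
      rw [← Finset.sum_smul, R.sum_w hm, one_smul]
    rw [hdec]
    exact wsum_le _ R.w_nonneg (R.sum_w hm).le _ (by positivity) pf'
  set s := √(Qf (z - z')) with hs
  have hs0 : 0 ≤ s := Real.sqrt_nonneg _
  have hs2 : s ^ 2 = Qf (z - z') := Real.sq_sqrt hQ0
  have hQ : Qf (z - z') = ‖y‖ ^ 2 + ‖y + u‖ ^ 2 := by
    unfold Qf
    simp only [Prod.fst_sub, Prod.snd_sub]
    rw [← hy, ← hu]
  -- the new difference
  have hx' : (alg R g ε η z ω - alg R g ε η z' ω).1 = (y + η • u) + q := by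
    have : (alg R g ε η z ω - alg R g ε η z' ω).1 =
        (z.1 + η • z.2 - η ^ 2 • ∑ i, (R.w i * (1 - R.t i)) • frc R g ε η z ω.1 i) -
        (z'.1 + η • z'.2 - η ^ 2 • ∑ i, (R.w i * (1 - R.t i)) • frc R g ε η z' ω.1 i) := rfl
    rw [this, hq, hy, hu, hF]
    simp only [smul_sub, Finset.sum_sub_distrib]
    abel
  have hv' : (alg R g ε η z ω - alg R g ε η z' ω).2 = (1 - 2 * η) • (u - η • g1) := by
    have : (alg R g ε η z ω - alg R g ε η z' ω).2 =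
        ((1 - 2 * η) • (z.2 - η • ∑ i, R.w i • frc R g ε η z ω.1 i) +
          √(1 - (1 - 2 * η) ^ 2) • ω.2) -
        ((1 - 2 * η) • (z'.2 - η • ∑ i, R.w i • frc R g ε η z' ω.1 i) +
          √(1 - (1 - 2 * η) ^ 2) • ω.2) := rfl
    rw [this, hg1, hu, hF]
    simp only [smul_sub, Finset.sum_sub_distrib]
    abel
  set w := y + u with hw
  set r := (2 : ℝ) • y - g1 with hr
  have hA : (y + η • u) = (1 - η) • y + η • w := by
    rw [hw, sub_smul, smul_add, one_smul]; abel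
  have hB : (y + η • u) + q + (1 - 2 * η) • (u - η • g1) =
      ((1 - η) • w + η • (r - y)) + (q + (2 * η ^ 2) • g1) := by
    rw [hw, hr]
    module
  unfold Qf at *
  rw [hx', hv', hB, hA]
  rw [hQ] at hs2 ⊢
  rw [← hs2]
  have hρ : ‖r‖ ≤ ‖y‖ + (36 * η + 27 * ε ^ 2) * s := by
    refine p3.trans ?_
    have := mul_le_mul_of_nonneg_left p4 (by positivity : 0 ≤ 12 * η + 9 * ε ^ 2)
    linarith
  have hκ1 : 27 * ε ^ 2 ≤ 1 / 100 := by nlinarith
  have hκ0 : 0 ≤ 27 * ε ^ 2 := by positivity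
  have key1 := real_contract1' (a := ‖y‖) (b := ‖w‖) (s := s) (η := η) (ρ := ‖r‖)
    (κ := 27 * ε ^ 2)
    (A := ‖(1 - η) • y + η • w‖) (B := ‖(1 - η) • w + η • (r - y)‖)
    (c := inner ℝ y w) (norm_nonneg _) (norm_nonneg _)
    hs0 hs2.symm h0 hη hκ0 hκ1 (norm_nonneg _) hρ
    (by
      rw [norm_add_sq_real, norm_smul, norm_smul, real_inner_smul_left, real_inner_smul_right,
        mul_pow, mul_pow, Real.norm_eq_abs, Real.norm_eq_abs, sq_abs, sq_abs]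
      ring)
    (by
      rw [norm_add_sq_real, norm_smul, norm_smul, real_inner_smul_left, real_inner_smul_right,
        mul_pow, mul_pow, Real.norm_eq_abs, Real.norm_eq_abs, sq_abs, sq_abs, inner_sub_right]
      have h2 : ‖r - y‖ ^ 2 ≤ (‖r‖ + ‖y‖) ^ 2 :=
        pow_le_pow_left₀ (norm_nonneg _) (norm_sub_le _ _) 2
      have h3 : inner ℝ w r ≤ ‖w‖ * ‖r‖ := real_inner_le_norm _ _
      have h4 : inner ℝ w y = inner ℝ y w := real_inner_comm _ _
      rw [h4]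
      have h5 : 0 ≤ 2 * η * (1 - η) := by nlinarith
      have h6 := mul_le_mul_of_nonneg_left h3 h5
      have h7 := mul_le_mul_of_nonneg_left h2 (sq_nonneg η)
      linarith)
  have key := real_contract' (s := s) (η := η) (κ := 27 * ε ^ 2)
    (A := ‖(1 - η) • y + η • w‖) (B := ‖(1 - η) • w + η • (r - y)‖) (e₁ := ‖q‖)
    (e₂ := ‖q + (2 * η ^ 2) • g1‖) hs0 h0 hη hκ0 hκ1 (norm_nonneg _) (norm_nonneg _)
    key1 (norm_nonneg _)
    (by
      refine p1.trans ?_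
      have := mul_le_mul_of_nonneg_left p4 (by positivity : 0 ≤ 15 * η ^ 2)
      linarith)
    (norm_nonneg _)
    (by
      refine (norm_add_le _ _).trans ?_
      rw [norm_smul, Real.norm_of_nonneg (by positivity)]
      have k1 := mul_le_mul_of_nonneg_left p4 (by positivity : 0 ≤ 15 * η ^ 2)
      have k2 := mul_le_mul_of_nonneg_left p2 (by positivity : 0 ≤ 2 * η ^ 2)
      have k3 := mul_le_mul_of_nonneg_left p4 (by positivity : 0 ≤ 30 * η ^ 2)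
      linarith)
  refine le_trans ?_ key
  have m1 := pow_le_pow_left₀ (norm_nonneg _) (norm_add_le ((1 - η) • y + η • w) q) 2
  have m2 := pow_le_pow_left₀ (norm_nonneg _)
    (norm_add_le ((1 - η) • w + η • (r - y)) (q + (2 * η ^ 2) • g1)) 2
  linarith

theorem frc_cont {m N d : ℕ} (R : Rule m N) {g : E d → E d} (hg : Continuous g) (ε η : ℝ)
    (i : Fin N) :
    Continuous (fun p : (E d × E d) × Nz N d => frc R g ε η p.1 p.2.1 i) := by
  unfold frc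
  fun_prop

theorem alg_cont {m N d : ℕ} (R : Rule m N) {g : E d → E d} (hg : Continuous g) (ε η : ℝ) :
    Continuous (fun p : (E d × E d) × Nz N d => alg R g ε η p.1 p.2) := by
  have h := frc_cont R hg ε η
  unfold alg ou stp
  refine Continuous.prodMk ?_ ?_
  · refine Continuous.sub (by fun_prop) (Continuous.fun_const_smul ?_ _)
    exact continuous_finsetSum _ (fun i _ => Continuous.fun_const_smul (h i) _)
  · refine Continuous.add (Continuous.fun_const_smul ?_ _) (by fun_prop)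
    refine Continuous.sub (by fun_prop) (Continuous.fun_const_smul ?_ _)
    exact continuous_finsetSum _ (fun i _ => Continuous.fun_const_smul (h i) _)

/-- the refreshment is contracting enough -/
theorem ou_qf {d : ℕ} {η : ℝ} (h0 : 0 ≤ η) (h1 : η ≤ 1 / 2) (z z' : E d × E d) (ζ : E d) :
    √(Qf (ou η z ζ - ou η z' ζ)) ≤ 2 * ‖z.1 - z'.1‖ + ‖z.2 - z'.2‖ := by
  have e1 : (ou η z ζ - ou η z' ζ).1 = z.1 - z'.1 := rfl
  have e2 : (ou η z ζ - ou η z' ζ).2 = (1 - 2 * η) • (z.2 - z'.2) := by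
    have : (ou η z ζ - ou η z' ζ).2 = ((1 - 2 * η) • z.2 + √(1 - (1 - 2 * η) ^ 2) • ζ) -
      ((1 - 2 * η) • z'.2 + √(1 - (1 - 2 * η) ^ 2) • ζ) := rfl
    rw [this]
    module
  unfold Qf
  rw [e1, e2]
  set y := z.1 - z'.1
  set u := z.2 - z'.2
  have h2 : ‖y + (1 - 2 * η) • u‖ ≤ ‖y‖ + ‖u‖ := by
    refine (norm_add_le _ _).trans ?_
    rw [norm_smul, Real.norm_of_nonneg (by linarith)]
    have := mul_le_mul_of_nonneg_right (by linarith : 1 - 2 * η ≤ 1) (norm_nonneg u)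
    linarith
  have h3 := pow_le_pow_left₀ (norm_nonneg _) h2 2
  have h4 : 0 ≤ ‖y‖ := norm_nonneg _
  have h5 : 0 ≤ ‖u‖ := norm_nonneg _
  refine Real.sqrt_le_iff.2 ⟨by positivity, ?_⟩
  nlinarith

/-- the refreshment preserves `phase U` -/
theorem ou_phase {d : ℕ} {U : E d → ℝ} (hU : SPot U) {η : ℝ} (h0 : 0 < η) (h1 : η ≤ 1 / 2) :
    ((phase U).prod (stdGaussian (E d))).map (fun p => ou η p.1 p.2) = phase U := by
  have hP : IsProbabilityMeasure (phase U) := phase_prob hU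
  have hG : IsProbabilityMeasure (gibbs U) := by
    have : (phase U).map Prod.fst = gibbs U := by
      unfold phase
      exact Measure.map_fst_prod.trans (by simp)
    rw [← this]
    exact Measure.isProbabilityMeasure_map (by fun_prop)
  set γ := stdGaussian (E d) with hγ
  set b := √(1 - (1 - 2 * η) ^ 2) with hb
  have hb0 : 0 ≤ 1 - (1 - 2 * η) ^ 2 := by nlinarith
  have hab : (1 - 2 * η) ^ 2 + b ^ 2 = 1 := by rw [hb, Real.sq_sqrt hb0]; ring
  have h2 : (fun p : (E d × E d) × E d => ou η p.1 p.2) =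
      Prod.map (id : E d → E d) (fun q : E d × E d => (1 - 2 * η) • q.1 + b • q.2) ∘
        (MeasurableEquiv.prodAssoc : (E d × E d) × E d ≃ᵐ E d × (E d × E d)) := by
    funext p
    rfl
  rw [h2, ← Measure.map_map (by fun_prop) (MeasurableEquiv.measurable _)]
  unfold phase
  rw [(measurePreserving_prodAssoc (gibbs U) γ γ).map_eq,
    ← Measure.map_prod_map _ _ (by fun_prop) (by fun_prop), gauss_rot hab, Measure.map_id]

end P347S
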