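import Vale.Agent.P347S.LocalExp
import Vale.Agent.P347S.Contr

/-!
Module Chain: total variation bound for the output of the chain (one level).

Proof.  `μ = phase U`, `U = lsm ε W`, `P` = kernel of `alg R (∇W)`, `P'` = kernel of the ideal step
`ou ∘ innF`.  For measurable `f : E d → [0,1]` let `ψ(z) = ∫ f(z.1 + σζ) γ(dζ) ∈ [0,1]`, Lipschitz:
`|ψ(z) - ψ(z')| ≤ |z.1 - z'.1|/σ ≤ √(Qf (z-z'))/σ` (`gauss_shift`).  `ψ_k(z) = ∫ ψ(runS k z ω) dω`
has Lipschitz constant `(1-η/4)^k/σ` w.r.t. `√Qf` (`alg_contract`, `√(1-η/2) ≤ 1-η/4`), values in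
`[0,1]`.  `μPψ_k - μψ_k = (μPψ_k - μP'ψ_k) + (μP'ψ_k - μψ_k)`: first difference at most
`(1-η/4)^k/σ · C locE` (`local_exp`, `ou_qf`, same noises), second at most
`72√d(η²ε²+ηε³)` (`inner_tv`, `ou_phase`).  Telescoping: `|μP^nψ - μψ| ≤ (4/(ση)) C locE + n·72√d(…)`.
Cold start: `|ψ_n(0,0) - μψ_n| ≤ (1-η/4)^n/σ · ∫√Qf dμ`, `∫ √Qf dμ ≤ C(√d + |∇W(0)|)` by
`gibbs_norm_sq`, `grad_cmp`.  Finally `∫ψ dμ` is the integral of `f` under
`(gibbs U * N(0,σ²)) = cv W (ε²+σ²)` (`cv_lsm`).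
-/

open MeasureTheory ProbabilityTheory Function
open scoped ENNReal BigOperators

namespace P347S

open P347Q

/-- convolving `gibbs (lsm ε W)` with `N(0,σ²)` -/
theorem cv_lsm {d : ℕ} {ε σ : ℝ} {W : E d → ℝ} (hW : KPot ε W) (h0 : 0 < ε) (h1 : ε ≤ 1 / 2)
    (hσ : 0 ≤ σ) :
    ((gibbs (lsm ε W)).prod (stdGaussian (E d))).map (fun p => p.1 + σ • p.2) =
      cv W (ε ^ 2 + σ ^ 2) := by
  have hsf : SFinite (gibbs W) := by unfold gibbs; infer_instance
  set τ : ℝ := √(ε ^ 2 + σ ^ 2) with hτ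
  have hτ0 : 0 < τ := Real.sqrt_pos.2 (by positivity)
  have hττ : τ ^ 2 = ε ^ 2 + σ ^ 2 := Real.sq_sqrt (by positivity)
  have hrot : (ε / τ) ^ 2 + (σ / τ) ^ 2 = 1 := by
    rw [div_pow, div_pow, ← add_div, hττ, div_self (by positivity)]
  rw [gibbs_lsm hW h0 h1]
  unfold cv
  rw [Real.sqrt_sq h0.le, ← hτ]
  have e1 : (((gibbs W).prod (stdGaussian (E d))).map (fun p => p.1 + ε • p.2)).prod
      (stdGaussian (E d)) = (((gibbs W).prod (stdGaussian (E d))).prod (stdGaussian (E d))).map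
        (Prod.map (fun p => p.1 + ε • p.2) id) := by
    rw [← Measure.map_prod_map _ _ (by fun_prop) measurable_id, Measure.map_id]
  rw [e1, Measure.map_map (by fun_prop) (by fun_prop)]
  have e2 : (stdGaussian (E d)) = ((stdGaussian (E d)).prod (stdGaussian (E d))).map
      (fun p => (ε / τ) • p.1 + (σ / τ) • p.2) := (gauss_rot hrot).symm
  have e3 : (gibbs W).prod (stdGaussian (E d)) =
      ((gibbs W).prod ((stdGaussian (E d)).prod (stdGaussian (E d)))).map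
        (Prod.map id (fun p => (ε / τ) • p.1 + (σ / τ) • p.2)) := by
    rw [← Measure.map_prod_map _ _ measurable_id (by fun_prop), Measure.map_id, ← e2]
  conv_rhs => rw [e3]
  rw [Measure.map_map (by fun_prop) (by fun_prop)]
  have e4 := (measurePreserving_prodAssoc (gibbs W) (stdGaussian (E d))
    (stdGaussian (E d))).map_eq
  rw [← e4, Measure.map_map (by fun_prop) (MeasurableEquiv.measurable _)]
  congr 1
  funext q
  simp only [Function.comp, Prod.map, id, MeasurableEquiv.prodAssoc, MeasurableEquiv.coe_mk,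
    Equiv.prodAssoc_apply]
  rw [smul_add, smul_smul, smul_smul, mul_div_cancel₀ _ hτ0.ne', mul_div_cancel₀ _ hτ0.ne',
    add_assoc]

/-- error of one level, without the contribution of `∇V(0)` -/
noncomputable def lvE (m d : ℕ) (ε η σ : ℝ) (n : ℕ) : ℝ :=
  √d * n * (η ^ 2 * ε ^ 2 + η * ε ^ 3) + locE m d ε η / (σ * η) + (1 - η / 4) ^ n / σ * √d

/-- iteration of a random map -/
private def itr {X Y : Type*} (A : X → Y → X) : (n : ℕ) → X → (Fin n → Y) → X
  | 0, z, _ => z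
  | n + 1, z, ω => A (itr A n z (fun i => ω i.castSucc)) (ω (Fin.last n))

private theorem itr_meas {X Y : Type*} [MeasurableSpace X] [MeasurableSpace Y] {A : X → Y → X}
    (hA : Measurable (fun p : X × Y => A p.1 p.2)) (n : ℕ) :
    Measurable (fun p : X × (Fin n → Y) => itr A n p.1 p.2) := by
  induction n with
  | zero => exact measurable_fst
  | succ n ih =>
    have h1 : Measurable (fun p : X × (Fin (n + 1) → Y) =>
        (p.1, fun i : Fin n => p.2 i.castSucc)) := by fun_prop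
    have h2 := ih.comp h1
    have h3 : Measurable (fun p : X × (Fin (n + 1) → Y) =>
        p.2 (Fin.last n)) := (measurable_pi_apply _).comp measurable_snd
    exact hA.comp (h2.prodMk h3)

private theorem itr_stat {X Y : Type*} [MeasurableSpace X] [MeasurableSpace Y] {A : X → Y → X}
    (hA : Measurable (fun p : X × Y => A p.1 p.2)) (μ : Measure X) [IsProbabilityMeasure μ]
    (ν : Measure Y) [IsProbabilityMeasure ν] (D : X → X → ℝ) {ρ δ κ : ℝ} (hρ : 0 ≤ ρ)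
    (hc : ∀ z z' ω, D (A z ω) (A z' ω) ≤ ρ * D z z')
    (h1 : ∀ L : ℝ, 0 ≤ L → ∀ ψ : X → ℝ, Measurable ψ → (∀ z, 0 ≤ ψ z) → (∀ z, ψ z ≤ 1) →
      (∀ z z', |ψ z - ψ z'| ≤ L * D z z') →
      |∫ p, ψ (A p.1 p.2) ∂(μ.prod ν) - ∫ z, ψ z ∂μ| ≤ δ + L * κ) (n : ℕ) :
    ∀ L : ℝ, 0 ≤ L → ∀ ψ : X → ℝ, Measurable ψ → (∀ z, 0 ≤ ψ z) → (∀ z, ψ z ≤ 1) →
      (∀ z z', |ψ z - ψ z'| ≤ L * D z z') →
      |∫ p, ψ (itr A n p.1 p.2) ∂(μ.prod (Measure.pi fun _ : Fin n => ν)) - ∫ z, ψ z ∂μ| ≤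
        n * δ + L * κ * ∑ j ∈ Finset.range n, ρ ^ j := by
  induction n with
  | zero =>
    intro L hL ψ hψ h0 h2 hlip
    have : ∫ p, ψ (itr A 0 p.1 p.2) ∂(μ.prod (Measure.pi fun _ : Fin 0 => ν)) = ∫ z, ψ z ∂μ := by
      change ∫ p : X × (Fin 0 → Y), ψ p.1 ∂(μ.prod (Measure.pi fun _ : Fin 0 => ν)) = _
      rw [integral_fun_fst (fun x : X => ψ x)]
      simp
    rw [this]
    simp
  | succ n ih =>
    intro L hL ψ hψ h0 h2 hlip
    set T : X → ℝ := fun z => ∫ ω, ψ (A z ω) ∂ν with hT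
    have hψA : Measurable (fun p : X × Y => ψ (A p.1 p.2)) := hψ.comp hA
    have hTm : Measurable T :=
      (hψA.stronglyMeasurable.integral_prod_right' (ν := ν)).measurable
    have hTx : ∀ z, 0 ≤ T z ∧ T z ≤ 1 := fun z =>
      int01_mem ν (f := fun ω => ψ (A z ω)) (hψA.comp measurable_prodMk_left) (fun _ => h0 _)
        (fun _ => h2 _)
    have hTl : ∀ z z', |T z - T z'| ≤ (L * ρ) * D z z' := by
      intro z z'
      have i1 : Integrable (fun ω => ψ (A z ω)) ν :=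
        int01 ν (hψA.comp measurable_prodMk_left) (fun _ => h0 _) (fun _ => h2 _)
      have i2 : Integrable (fun ω => ψ (A z' ω)) ν :=
        int01 ν (hψA.comp measurable_prodMk_left) (fun _ => h0 _) (fun _ => h2 _)
      rw [hT]
      simp only
      rw [← integral_sub i1 i2]
      refine (abs_integral_le_integral_abs).trans ?_
      calc ∫ ω, |ψ (A z ω) - ψ (A z' ω)| ∂ν ≤ ∫ _ω, (L * ρ) * D z z' ∂ν := by
            refine integral_mono (i1.sub i2).abs (integrable_const _) (fun ω => ?_)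
            calc |ψ (A z ω) - ψ (A z' ω)| ≤ L * D (A z ω) (A z' ω) := hlip _ _
              _ ≤ L * (ρ * D z z') := mul_le_mul_of_nonneg_left (hc z z' ω) hL
              _ = _ := by ring
        _ = _ := by simp
    have hih := ih (L * ρ) (by positivity) T hTm (fun z => (hTx z).1) (fun z => (hTx z).2) hTl
    have hone := h1 L hL ψ hψ h0 h2 hlip
    have e1 : ∫ p, ψ (A p.1 p.2) ∂(μ.prod ν) = ∫ z, T z ∂μ :=
      integral_prod _ (int01 _ hψA (fun _ => h0 _) (fun _ => h2 _))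
    rw [e1] at hone
    have hs := mp_snoc μ ν n
    have hmn := itr_meas hA n
    have hmeas : Measurable (fun q : (X × (Fin n → Y)) × Y => ψ (A (itr A n q.1.1 q.1.2) q.2)) :=
      hψA.comp ((hmn.comp measurable_fst).prodMk measurable_snd)
    have e2 : ∫ p, ψ (itr A (n + 1) p.1 p.2) ∂(μ.prod (Measure.pi fun _ : Fin (n + 1) => ν)) =
        ∫ p, T (itr A n p.1 p.2) ∂(μ.prod (Measure.pi fun _ : Fin n => ν)) := by
      have e3 := hs.map_eq
      have e4 : ∫ q, ψ (A (itr A n q.1.1 q.1.2) q.2)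
          ∂((μ.prod (Measure.pi fun _ : Fin n => ν)).prod ν) =
          ∫ p, ψ (itr A (n + 1) p.1 p.2) ∂(μ.prod (Measure.pi fun _ : Fin (n + 1) => ν)) := by
        rw [← e3, integral_map hs.measurable.aemeasurable hmeas.aestronglyMeasurable]
        rfl
      rw [← e4, integral_prod _ (int01 _ hmeas (fun _ => h0 _) (fun _ => h2 _))]
    rw [e2]
    refine (abs_sub_le _ (∫ z, T z ∂μ) _).trans ?_
    refine (add_le_add hih hone).trans (le_of_eq ?_)
    rw [Finset.sum_range_succ', Finset.sum_congr rfl (fun j _ => pow_succ ρ j), ← Finset.sum_mul]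
    push_cast
    ring

private theorem runS_itr {d m N : ℕ} (R : Rule m N) (g : E d → E d) (ε η : ℝ) (n : ℕ)
    (z : E d × E d) (ω : Fin n → Nz N d) : runS R g ε η n z ω = itr (alg R g ε η) n z ω := by
  induction n with
  | zero => rfl
  | succ n ih =>
    rw [runS, itr, ih]

private theorem itr_contr {X Y : Type*} {A : X → Y → X} {D : X → X → ℝ} {ρ : ℝ} (hρ : 0 ≤ ρ)
    (hc : ∀ z z' ω, D (A z ω) (A z' ω) ≤ ρ * D z z') (n : ℕ) (z z' : X) (ω : Fin n → Y) :
    D (itr A n z ω) (itr A n z' ω) ≤ ρ ^ n * D z z' := by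
  induction n with
  | zero => simp [itr]
  | succ n ih =>
    calc D (itr A (n + 1) z ω) (itr A (n + 1) z' ω)
        ≤ ρ * D (itr A n z (fun i => ω i.castSucc)) (itr A n z' (fun i => ω i.castSucc)) :=
          hc _ _ _
      _ ≤ ρ * (ρ ^ n * D z z') := mul_le_mul_of_nonneg_left (ih _) hρ
      _ = _ := by ring

/-- cold start -/
private theorem itr_cold {X Y : Type*} [MeasurableSpace X] [MeasurableSpace Y] {A : X → Y → X}
    (hA : Measurable (fun p : X × Y => A p.1 p.2)) (μ : Measure X) [IsProbabilityMeasure μ]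
    (ν : Measure Y) [IsProbabilityMeasure ν] {D : X → X → ℝ} {ρ : ℝ} (hρ : 0 ≤ ρ)
    (hc : ∀ z z' ω, D (A z ω) (A z' ω) ≤ ρ * D z z') (n : ℕ) (z0 : X) {L : ℝ} (hL : 0 ≤ L)
    {ψ : X → ℝ} (hψ : Measurable ψ) (h0 : ∀ z, 0 ≤ ψ z) (h2 : ∀ z, ψ z ≤ 1)
    (hlip : ∀ z z', |ψ z - ψ z'| ≤ L * D z z') (hD : Integrable (fun z => D z0 z) μ) :
    |∫ ω, ψ (itr A n z0 ω) ∂(Measure.pi fun _ : Fin n => ν) -
      ∫ p, ψ (itr A n p.1 p.2) ∂(μ.prod (Measure.pi fun _ : Fin n => ν))| ≤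
      L * ρ ^ n * ∫ z, D z0 z ∂μ := by
  have hmn := itr_meas hA n
  have hm : Measurable (fun p : X × (Fin n → Y) => ψ (itr A n p.1 p.2)) := hψ.comp hmn
  have hm0 : Measurable (fun p : X × (Fin n → Y) => ψ (itr A n z0 p.2)) :=
    hm.comp (measurable_const.prodMk measurable_snd)
  have e1 : ∫ ω, ψ (itr A n z0 ω) ∂(Measure.pi fun _ : Fin n => ν) =
      ∫ p : X × (Fin n → Y), ψ (itr A n z0 p.2) ∂(μ.prod (Measure.pi fun _ : Fin n => ν)) := by
    rw [integral_fun_snd (fun ω => ψ (itr A n z0 ω))]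
    simp
  have i1 := int01 (μ.prod (Measure.pi fun _ : Fin n => ν)) hm0 (fun _ => h0 _) (fun _ => h2 _)
  have i2 := int01 (μ.prod (Measure.pi fun _ : Fin n => ν)) hm (fun _ => h0 _) (fun _ => h2 _)
  rw [e1, ← integral_sub i1 i2]
  refine (abs_integral_le_integral_abs).trans ?_
  have hDi : Integrable (fun p : X × (Fin n → Y) => D z0 p.1)
      (μ.prod (Measure.pi fun _ : Fin n => ν)) := hD.comp_fst _
  have hDv : ∫ p : X × (Fin n → Y), D z0 p.1 ∂(μ.prod (Measure.pi fun _ : Fin n => ν)) =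
      ∫ z, D z0 z ∂μ := by
    rw [integral_fun_fst (fun z => D z0 z)]
    simp
  calc ∫ p : X × (Fin n → Y), |ψ (itr A n z0 p.2) - ψ (itr A n p.1 p.2)|
        ∂(μ.prod (Measure.pi fun _ : Fin n => ν))
      ≤ ∫ p : X × (Fin n → Y), (L * ρ ^ n) * D z0 p.1
        ∂(μ.prod (Measure.pi fun _ : Fin n => ν)) := by
        refine integral_mono (i1.sub i2).abs (hDi.const_mul _) (fun p => ?_)
        calc |ψ (itr A n z0 p.2) - ψ (itr A n p.1 p.2)|
            ≤ L * D (itr A n z0 p.2) (itr A n p.1 p.2) := hlip _ _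
          _ ≤ L * (ρ ^ n * D z0 p.1) :=
            mul_le_mul_of_nonneg_left (itr_contr hρ hc n z0 p.1 p.2) hL
          _ = _ := by ring
    _ = _ := by rw [integral_const_mul, hDv]

private theorem kpot_cont {d : ℕ} {ε : ℝ} {W : E d → ℝ} (hW : KPot ε W) (h0 : 0 < ε)
    (h1 : ε ≤ 1 / 2) : Continuous (gradient W) := by
  refine (LipschitzWith.of_dist_le_mul (K := 3) (fun x y => ?_)).continuous
  rw [dist_eq_norm, dist_eq_norm]
  exact_mod_cast hW.grad_lip h0 h1 x y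

private theorem alg_rw {d m N : ℕ} (R : Rule m N) (g : E d → E d) (ε η : ℝ) (z : E d × E d)
    (ω : Nz N d) : alg R g ε η z ω = ou η (stp R g ε η z ω.1) ω.2 := rfl

private theorem ou_cont {d : ℕ} (η : ℝ) :
    Continuous (fun p : (E d × E d) × E d => ou η p.1 p.2) := by
  unfold ou
  fun_prop

private theorem stp_cont {d m N : ℕ} (R : Rule m N) {g : E d → E d} (hg : Continuous g)
    (ε η : ℝ) : Continuous (fun p : (E d × E d) × (Fin N → E d) => stp R g ε η p.1 p.2) := by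
  unfold stp frc
  fun_prop

/-- one step of the algorithm from the stationary law of the ideal step -/
private theorem one_step {m N : ℕ} (R : Rule m N) (hm : 2 ≤ m) (hR : Monotone R.t) {d : ℕ}
    {W : E d → ℝ} {ε η C1 : ℝ} (hW : KPot ε W) (h0 : 0 < ε) (h1 : ε ≤ 1 / 4) (hη : 0 < η)
    (hη1 : η ≤ 1 / 4) {Φ : ℝ → E d × E d → E d × E d} (hΦ : IsFlow (lsm ε W) Φ)
    (hloc : Integrable (fun p : (E d × E d) × (Fin N → E d) =>
        2 * ‖(stp R (gradient W) ε η p.1 p.2).1 - (innF R W ε η Φ p.1 p.2).1‖ +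
          ‖(stp R (gradient W) ε η p.1 p.2).2 - (innF R W ε η Φ p.1 p.2).2‖)
        ((phase (lsm ε W)).prod (gN N d)) ∧
      ∫ p, (2 * ‖(stp R (gradient W) ε η p.1 p.2).1 - (innF R W ε η Φ p.1 p.2).1‖ +
          ‖(stp R (gradient W) ε η p.1 p.2).2 - (innF R W ε η Φ p.1 p.2).2‖)
        ∂((phase (lsm ε W)).prod (gN N d)) ≤ C1)
    {L : ℝ} (hL : 0 ≤ L) {ψ : E d × E d → ℝ} (hψ : Measurable ψ) (p0 : ∀ z, 0 ≤ ψ z)
    (p1 : ∀ z, ψ z ≤ 1) (hlip : ∀ z z', |ψ z - ψ z'| ≤ L * √(Qf (z - z'))) :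
    |∫ p, ψ (alg R (gradient W) ε η p.1 p.2) ∂((phase (lsm ε W)).prod (nzM N d)) -
      ∫ z, ψ z ∂(phase (lsm ε W))| ≤
      72 * √d * (η ^ 2 * ε ^ 2 + η * ε ^ 3) + L * C1 := by
  have hU : SPot (lsm ε W) := lsm_spot hW h0 (by linarith)
  have hP : IsProbabilityMeasure (phase (lsm ε W)) := phase_prob hU
  have hgN : IsProbabilityMeasure (gN N d) := by unfold gN; infer_instance
  have hgc := kpot_cont hW h0 (by linarith)
  set μ := phase (lsm ε W) with hμ
  set γ := stdGaussian (E d) with hγ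
  set S : E d × E d → ℝ := fun z => ∫ ζ, ψ (ou η z ζ) ∂γ with hS
  have hoc := ou_cont (d := d) η
  have hψo : Measurable (fun p : (E d × E d) × E d => ψ (ou η p.1 p.2)) := hψ.comp hoc.measurable
  have hSm : Measurable S := (hψo.stronglyMeasurable.integral_prod_right' (ν := γ)).measurable
  have hSx : ∀ z, 0 ≤ S z ∧ S z ≤ 1 := fun z =>
    int01_mem γ (f := fun ζ => ψ (ou η z ζ)) (hψo.comp measurable_prodMk_left) (fun _ => p0 _)
      (fun _ => p1 _)
  have hSl : ∀ z z', |S z - S z'| ≤ L * (2 * ‖z.1 - z'.1‖ + ‖z.2 - z'.2‖) := by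
    intro z z'
    have i1 : Integrable (fun ζ => ψ (ou η z ζ)) γ :=
      int01 γ (hψo.comp measurable_prodMk_left) (fun _ => p0 _) (fun _ => p1 _)
    have i2 : Integrable (fun ζ => ψ (ou η z' ζ)) γ :=
      int01 γ (hψo.comp measurable_prodMk_left) (fun _ => p0 _) (fun _ => p1 _)
    rw [hS]
    simp only
    rw [← integral_sub i1 i2]
    refine (abs_integral_le_integral_abs).trans ?_
    calc ∫ ζ, |ψ (ou η z ζ) - ψ (ou η z' ζ)| ∂γ
        ≤ ∫ _ζ, L * (2 * ‖z.1 - z'.1‖ + ‖z.2 - z'.2‖) ∂γ := by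
          refine integral_mono (i1.sub i2).abs (integrable_const _) (fun ζ => ?_)
          exact (hlip _ _).trans
            (mul_le_mul_of_nonneg_left (ou_qf hη.le (by linarith) z z' ζ) hL)
      _ = _ := by simp
  -- the law of one step
  have hsc := stp_cont (d := d) R hgc ε η
  have hic := innF_cont R hR hW h0 h1 hη hη1 hΦ
  have hmA : Measurable (fun q : ((E d × E d) × (Fin N → E d)) × E d =>
      ψ (ou η (stp R (gradient W) ε η q.1.1 q.1.2) q.2)) :=
    hψo.comp ((hsc.measurable.comp measurable_fst).prodMk measurable_snd)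
  have hmA' : Measurable (fun p : (E d × E d) × Nz N d =>
      ψ (alg R (gradient W) ε η p.1 p.2)) := by
    have h9 : Measurable (fun p : (E d × E d) × Nz N d => ((p.1, p.2.1), p.2.2)) :=
      (measurable_fst.prodMk (measurable_fst.comp measurable_snd)).prodMk
        (measurable_snd.comp measurable_snd)
    have h10 := hmA.comp h9
    have h11 : (fun p : (E d × E d) × Nz N d => ψ (alg R (gradient W) ε η p.1 p.2)) =
        (fun q : ((E d × E d) × (Fin N → E d)) × E d =>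
          ψ (ou η (stp R (gradient W) ε η q.1.1 q.1.2) q.2)) ∘
        (fun p : (E d × E d) × Nz N d => ((p.1, p.2.1), p.2.2)) := by
      funext p
      rw [alg_rw]
      rfl
    rw [h11]
    exact h10
  have e1 : ∫ p, ψ (alg R (gradient W) ε η p.1 p.2) ∂(μ.prod (nzM N d)) =
      ∫ p, S (stp R (gradient W) ε η p.1 p.2) ∂(μ.prod (gN N d)) := by
    unfold nzM
    rw [← (measurePreserving_prodAssoc μ (gN N d) γ).map_eq,
      integral_map (MeasurableEquiv.measurable _).aemeasurable hmA'.aestronglyMeasurable]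
    exact integral_prod _ (int01 _ hmA (fun _ => p0 _) (fun _ => p1 _))
  have e2 : ∫ z, S z ∂μ = ∫ z, ψ z ∂μ := by
    have h3 := ou_phase hU hη (by linarith : η ≤ 1 / 2)
    have h4 : ∫ z, ψ z ∂((μ.prod γ).map (fun p => ou η p.1 p.2)) = ∫ z, S z ∂μ := by
      rw [integral_map hoc.measurable.aemeasurable hψ.aestronglyMeasurable]
      exact integral_prod _ (int01 _ hψo (fun _ => p0 _) (fun _ => p1 _))
    rw [← h4, h3]
  have iA : Integrable (fun p : (E d × E d) × (Fin N → E d) =>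
      S (stp R (gradient W) ε η p.1 p.2)) (μ.prod (gN N d)) :=
    int01 _ (hSm.comp hsc.measurable) (fun _ => (hSx _).1) (fun _ => (hSx _).2)
  have iB : Integrable (fun p : (E d × E d) × (Fin N → E d) =>
      S (innF R W ε η Φ p.1 p.2)) (μ.prod (gN N d)) :=
    int01 _ (hSm.comp hic.measurable) (fun _ => (hSx _).1) (fun _ => (hSx _).2)
  have hfirst : |∫ p, S (stp R (gradient W) ε η p.1 p.2) ∂(μ.prod (gN N d)) -
      ∫ p, S (innF R W ε η Φ p.1 p.2) ∂(μ.prod (gN N d))| ≤ L * C1 := by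
    rw [← integral_sub iA iB]
    refine (abs_integral_le_integral_abs).trans ?_
    refine (integral_mono (iA.sub iB).abs (hloc.1.const_mul L) (fun p => hSl _ _)).trans ?_
    rw [integral_const_mul]
    exact mul_le_mul_of_nonneg_left hloc.2 hL
  have hsecond := inner_tv R (by omega : 1 ≤ m) hR hW h0 h1 hη hη1 hΦ S hSm
    (fun z => (hSx z).1) (fun z => (hSx z).2)
  rw [integral_map hic.measurable.aemeasurable hSm.aestronglyMeasurable, e2] at hsecond
  rw [e1]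
  refine (abs_sub_le _ (∫ p, S (innF R W ε η Φ p.1 p.2) ∂(μ.prod (gN N d))) _).trans ?_
  rw [add_comm (72 * √(d : ℝ) * (η ^ 2 * ε ^ 2 + η * ε ^ 3))]
  exact add_le_add hfirst hsecond

/-- the mean of `√Qf` -/
private theorem phase_sq {d : ℕ} {U : E d → ℝ} (hU : SPot U) :
    Integrable (fun z => √(Qf z)) (phase U) ∧
      ∫ z, √(Qf z) ∂(phase U) ≤ 4 * √d + 2 * ‖gradient U 0‖ := by
  have hP : IsProbabilityMeasure (phase U) := phase_prob hU
  have hG : IsProbabilityMeasure (gibbs U) := hU.prob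
  have hsq := spot_sq d
  have hGG : IsProbabilityMeasure (gibbs (fun v : E d => ‖v‖ ^ 2 / 2)) := hsq.prob
  have i1 : Integrable (fun x : E d => ‖x‖ ^ 2) (gibbs U) := by
    have := (gibbs_integrable hU hsq.temp).const_mul 2
    refine this.congr (Filter.Eventually.of_forall fun x => ?_)
    simp only; ring
  have i2 : Integrable (fun x : E d => ‖x‖ ^ 2) (stdGaussian (E d)) := gauss_int_pow d 2
  have b1 := gibbs_norm_sq hU
  have b2 := gauss_norm_sq d
  have j1 : Integrable (fun z : E d × E d => ‖z.1‖ ^ 2) (phase U) := i1.comp_fst _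
  have j2 : Integrable (fun z : E d × E d => ‖z.2‖ ^ 2) (phase U) := i2.comp_snd _
  have c1 : ∫ z, ‖z.1‖ ^ 2 ∂(phase U) = ∫ x, ‖x‖ ^ 2 ∂(gibbs U) := by
    unfold phase
    rw [integral_fun_fst (fun x : E d => ‖x‖ ^ 2)]
    simp
  have c2 : ∫ z, ‖z.2‖ ^ 2 ∂(phase U) = ∫ x, ‖x‖ ^ 2 ∂(stdGaussian (E d)) := by
    unfold phase
    rw [integral_fun_snd (fun x : E d => ‖x‖ ^ 2)]
    simp
  have hQ : ∀ z : E d × E d, Qf z ≤ 3 * ‖z.1‖ ^ 2 + 2 * ‖z.2‖ ^ 2 := by
    intro z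
    unfold Qf
    have h1 := norm_add_le z.1 z.2
    have h2 : ‖z.1 + z.2‖ ^ 2 ≤ (‖z.1‖ + ‖z.2‖) ^ 2 := pow_le_pow_left₀ (norm_nonneg _) h1 2
    nlinarith [sq_nonneg (‖z.1‖ - ‖z.2‖)]
  have jj : Integrable (fun z : E d × E d => 3 * ‖z.1‖ ^ 2 + 2 * ‖z.2‖ ^ 2)
      (phase U) := (j1.const_mul 3).add (j2.const_mul 2)
  have bb : ∫ z, (3 * ‖z.1‖ ^ 2 + 2 * ‖z.2‖ ^ 2) ∂(phase U) ≤
      8 * d + 3 * ‖gradient U 0‖ ^ 2 := by
    rw [integral_add (j1.const_mul 3) (j2.const_mul 2), integral_const_mul, integral_const_mul,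
      c1, c2, b2]
    linarith
  have hsm : Continuous (fun z : E d × E d => √(Qf z)) := (Qf_cont d).sqrt
  have hQi : Integrable (fun z => Qf z) (phase U) := by
    refine Integrable.mono' jj (Qf_cont d).aestronglyMeasurable
      (Filter.Eventually.of_forall fun z => ?_)
    rw [Real.norm_eq_abs, abs_of_nonneg (Qf_nonneg z)]
    exact hQ z
  have hI : Integrable (fun z => √(Qf z)) (phase U) := by
    refine Integrable.mono' (hQi.add (integrable_const (1 : ℝ))) hsm.aestronglyMeasurable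
      (Filter.Eventually.of_forall fun z => ?_)
    have h2 := Real.sq_sqrt (Qf_nonneg z)
    have h3 := Real.sqrt_nonneg (Qf z)
    simp only [Real.norm_eq_abs, abs_of_nonneg h3, Pi.add_apply]
    nlinarith [sq_nonneg (√(Qf z) - 1)]
  refine ⟨hI, ?_⟩
  set M := ∫ z, √(Qf z) ∂(phase U) with hM
  have hM2 : M ^ 2 ≤ ∫ z, Qf z ∂(phase U) := by
    have h5 : 0 ≤ ∫ z, (√(Qf z) - M) ^ 2 ∂(phase U) := integral_nonneg fun z => sq_nonneg _
    have h6 : ∀ z : E d × E d, (√(Qf z) - M) ^ 2 = Qf z - (2 * M) * √(Qf z) + M ^ 2 := by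
      intro z
      have h2 := Real.sq_sqrt (Qf_nonneg z)
      linear_combination h2
    simp only [h6] at h5
    have hA : Integrable (fun z : E d × E d => Qf z - (2 * M) * √(Qf z)) (phase U) :=
      hQi.sub (hI.const_mul _)
    rw [integral_add hA (integrable_const _), integral_sub hQi (hI.const_mul _),
      integral_const_mul, ← hM] at h5
    simp only [integral_const, probReal_univ, smul_eq_mul, one_mul] at h5
    nlinarith
  have hM3 : M ^ 2 ≤ 8 * d + 3 * ‖gradient U 0‖ ^ 2 :=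
    hM2.trans ((integral_mono hQi jj hQ).trans bb)
  have hd : √(d : ℝ) ^ 2 = d := Real.sq_sqrt (by positivity)
  refine le_of_sq_le_sq ?_ (by positivity)
  nlinarith [mul_nonneg (Real.sqrt_nonneg (d : ℝ)) (norm_nonneg (gradient U 0)),
    sq_nonneg (√(d : ℝ)), sq_nonneg ‖gradient U 0‖]

private theorem geo_le {η : ℝ} (h0 : 0 < η) (h1 : η ≤ 1) (n : ℕ) :
    ∑ j ∈ Finset.range n, (1 - η / 4) ^ j ≤ 4 / η := by
  have hne : (1 - η / 4) ≠ 1 := by linarith
  rw [geom_sum_eq hne]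
  have h2 : 0 ≤ (1 - η / 4) ^ n := pow_nonneg (by linarith) n
  have h3 : ((1 - η / 4) ^ n - 1) / (1 - η / 4 - 1) = (1 - (1 - η / 4) ^ n) * (4 / η) := by
    have h0' : η ≠ 0 := h0.ne'
    have h4 : (1 - η / 4 - 1) = -(η / 4) := by ring
    rw [h4]
    field_simp
    ring
  rw [h3]
  have h5 : 0 < 4 / η := by positivity
  nlinarith [mul_nonneg h2 h5.le]

private theorem sqrt_contr {η : ℝ} (_h0 : 0 < η) (h1 : η ≤ 1) : √(1 - η / 2) ≤ 1 - η / 4 := by
  apply Real.sqrt_le_iff.2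
  constructor
  · linarith
  · nlinarith [sq_nonneg η]

private theorem psi_lip {d : ℕ} {σ : ℝ} (hσ : 0 < σ) {f : E d → ℝ} (hf : Measurable f)
    (h0 : ∀ x, 0 ≤ f x) (h1 : ∀ x, f x ≤ 1) (z z' : E d × E d) :
    |∫ ζ, f (z.1 + σ • ζ) ∂(stdGaussian (E d)) - ∫ ζ, f (z'.1 + σ • ζ) ∂(stdGaussian (E d))| ≤
      1 / σ * √(Qf (z - z')) := by
  have h2 := gauss_shift z.1 z'.1 hσ f hf h0 h1
  rw [integral_map (by fun_prop) hf.aestronglyMeasurable,
    integral_map (by fun_prop) hf.aestronglyMeasurable] at h2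
  refine h2.trans ?_
  have h3 : ‖z.1 - z'.1‖ ≤ √(Qf (z - z')) := by
    apply Real.le_sqrt_of_sq_le
    unfold Qf
    have h5 : 0 ≤ ‖(z - z').1 + (z - z').2‖ ^ 2 := by positivity
    change ‖(z - z').1‖ ^ 2 ≤ _
    linarith
  rw [div_eq_inv_mul, one_div]
  exact mul_le_mul_of_nonneg_left h3 (by positivity)

private theorem lipD {d : ℕ} {g : E d → E d} {m N : ℕ} (R : Rule m N) {ε η : ℝ} (hη : 0 < η)
    (hη1 : η ≤ 1)
    (hc : ∀ (z z' : E d × E d) (ω : Nz N d),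
        Qf (alg R g ε η z ω - alg R g ε η z' ω) ≤ (1 - η / 2) * Qf (z - z'))
    (z z' : E d × E d) (ω : Nz N d) :
    √(Qf (alg R g ε η z ω - alg R g ε η z' ω)) ≤ (1 - η / 4) * √(Qf (z - z')) := by
  calc √(Qf (alg R g ε η z ω - alg R g ε η z' ω)) ≤ √((1 - η / 2) * Qf (z - z')) :=
        Real.sqrt_le_sqrt (hc z z' ω)
    _ = √(1 - η / 2) * √(Qf (z - z')) := Real.sqrt_mul (by linarith) _
    _ ≤ (1 - η / 4) * √(Qf (z - z')) :=
        mul_le_mul_of_nonneg_right (sqrt_contr hη hη1) (Real.sqrt_nonneg _)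

private theorem out_int {d m N : ℕ} (R : Rule m N) {g : E d → E d} {ε η σ : ℝ}
    (hac : Measurable (fun p : (E d × E d) × Nz N d => alg R g ε η p.1 p.2)) (n : ℕ)
    {f : E d → ℝ} (hf : Measurable f) (f0 : ∀ x, 0 ≤ f x) (f1 : ∀ x, f x ≤ 1) :
    ∫ x, f x ∂((lzM n N d).map (outS R g ε η σ n)) =
      ∫ ω, (∫ ζ, f ((itr (alg R g ε η) n ((0 : E d), (0 : E d)) ω).1 + σ • ζ)
        ∂(stdGaussian (E d))) ∂(Measure.pi fun _ : Fin n => nzM N d) := by
  have hgN : IsProbabilityMeasure (gN N d) := by unfold gN; infer_instance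
  have hnz : IsProbabilityMeasure (nzM N d) := by unfold nzM; infer_instance
  have hm1 : Measurable (fun ω : Fin n → Nz N d =>
      itr (alg R g ε η) n ((0 : E d), (0 : E d)) ω) :=
    (itr_meas hac n).comp (measurable_const.prodMk measurable_id)
  have h3 : outS R g ε η σ n = fun ω : Lz n N d =>
      (itr (alg R g ε η) n ((0 : E d), (0 : E d)) ω.1).1 + σ • ω.2 := by
    funext ω
    unfold outS
    rw [runS_itr]
  have hm2 : Measurable (fun ω : Lz n N d =>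
      (itr (alg R g ε η) n ((0 : E d), (0 : E d)) ω.1).1 + σ • ω.2) :=
    (measurable_fst.comp (hm1.comp measurable_fst)).add (measurable_snd.const_smul σ)
  rw [h3, integral_map hm2.aemeasurable hf.aestronglyMeasurable]
  unfold lzM
  exact integral_prod _ (int01 _ (hf.comp hm2) (fun _ => f0 _) (fun _ => f1 _))

private theorem cv_int {d : ℕ} {ε σ : ℝ} {W : E d → ℝ} (hW : KPot ε W) (h0 : 0 < ε)
    (h1 : ε ≤ 1 / 2) (hσ : 0 ≤ σ) {f : E d → ℝ} (hf : Measurable f) (f0 : ∀ x, 0 ≤ f x)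
    (f1 : ∀ x, f x ≤ 1) :
    ∫ x, f x ∂(cv W (ε ^ 2 + σ ^ 2)) =
      ∫ z : E d × E d, (∫ ζ, f (z.1 + σ • ζ) ∂(stdGaussian (E d))) ∂(phase (lsm ε W)) := by
  have hU : SPot (lsm ε W) := lsm_spot hW h0 h1
  have hG : IsProbabilityMeasure (gibbs (lsm ε W)) := hU.prob
  rw [← cv_lsm hW h0 h1 hσ, integral_map (by fun_prop) hf.aestronglyMeasurable]
  unfold phase
  rw [integral_fun_fst (fun y : E d => ∫ ζ, f (y + σ • ζ) ∂(stdGaussian (E d)))]
  simp only [probReal_univ, one_smul]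
  exact integral_prod (fun p : E d × E d => f (p.1 + σ • p.2))
    (int01 _ (hf.comp (by fun_prop)) (fun _ => f0 _) (fun _ => f1 _))

private theorem chain_arith {m d n : ℕ} {ε η σ C1 I G : ℝ} (hC1 : 0 < C1) (h0 : 0 < ε)
    (hη : 0 < η) (hη4 : η ≤ 1 / 4) (hσ : 0 < σ) (hG : 0 ≤ G) (hI : I ≤ 6 * √d + 4 * G) :
    1 / σ * (1 - η / 4) ^ n * I + (n * (72 * √d * (η ^ 2 * ε ^ 2 + η * ε ^ 3)) +
      1 / σ * (C1 * locE m d ε η) * ∑ j ∈ Finset.range n, (1 - η / 4) ^ j) ≤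
      (4 * C1 + 80) * (lvE m d ε η σ n + (1 - η / 4) ^ n / σ * G) := by
  have hρ : 0 ≤ 1 - η / 4 := by linarith
  have hρn : 0 ≤ (1 - η / 4) ^ n := pow_nonneg hρ n
  have hloc0 : 0 ≤ locE m d ε η := by unfold locE; positivity
  have t1 : 1 / σ * (1 - η / 4) ^ n * I ≤
      80 * ((1 - η / 4) ^ n / σ * √d + (1 - η / 4) ^ n / σ * G) := by
    have h10 : 0 ≤ (1 - η / 4) ^ n / σ := by positivity
    calc 1 / σ * (1 - η / 4) ^ n * I
        = ((1 - η / 4) ^ n / σ) * I := by ring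
      _ ≤ ((1 - η / 4) ^ n / σ) * (6 * √d + 4 * G) :=
          mul_le_mul_of_nonneg_left hI h10
      _ ≤ ((1 - η / 4) ^ n / σ) * (80 * √d + 80 * G) := by
          refine mul_le_mul_of_nonneg_left ?_ h10
          have := Real.sqrt_nonneg (d : ℝ)
          linarith
      _ = _ := by ring
  have t2 : (n : ℝ) * (72 * √d * (η ^ 2 * ε ^ 2 + η * ε ^ 3)) ≤
      80 * (√d * n * (η ^ 2 * ε ^ 2 + η * ε ^ 3)) := by
    have h11 : 0 ≤ √(d : ℝ) * n * (η ^ 2 * ε ^ 2 + η * ε ^ 3) := by positivity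
    linarith
  have t3 : 1 / σ * (C1 * locE m d ε η) * ∑ j ∈ Finset.range n, (1 - η / 4) ^ j ≤
      (4 * C1) * (locE m d ε η / (σ * η)) := by
    calc 1 / σ * (C1 * locE m d ε η) * ∑ j ∈ Finset.range n, (1 - η / 4) ^ j
        ≤ 1 / σ * (C1 * locE m d ε η) * (4 / η) :=
          mul_le_mul_of_nonneg_left (geo_le hη (by linarith) n) (by positivity)
      _ = _ := by field_simp
  have p1 : 0 ≤ √(d : ℝ) * n * (η ^ 2 * ε ^ 2 + η * ε ^ 3) := by positivity
  have p2 : 0 ≤ locE m d ε η / (σ * η) := by positivity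
  have p3 : 0 ≤ (1 - η / 4) ^ n / σ * √(d : ℝ) := by positivity
  have p4 : 0 ≤ (1 - η / 4) ^ n / σ * G := by positivity
  have q1 := mul_nonneg hC1.le p1
  have q3 := mul_nonneg hC1.le p3
  have q4 := mul_nonneg hC1.le p4
  unfold lvE
  calc _ ≤ 80 * ((1 - η / 4) ^ n / σ * √d + (1 - η / 4) ^ n / σ * G) +
        (80 * (√d * n * (η ^ 2 * ε ^ 2 + η * ε ^ 3)) +
          (4 * C1) * (locE m d ε η / (σ * η))) := add_le_add t1 (add_le_add t2 t3)
    _ ≤ _ := by linarith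

private theorem grad_zero_le {d : ℕ} {ε : ℝ} {W : E d → ℝ} (hW : KPot ε W) (h0 : 0 < ε)
    (hε4 : ε ≤ 1 / 4) : ‖gradient (lsm ε W) 0‖ ≤ 2 * ‖gradient W 0‖ + √d := by
  have h6 := (grad_cmp hW h0 hε4 0).1
  have h7 : ‖gradient (lsm ε W) 0‖ ≤ ‖gradient W 0‖ +
      ‖gradient W 0 - gradient (lsm ε W) 0‖ := by
    have := norm_sub_le (gradient W 0) (gradient W 0 - gradient (lsm ε W) 0)
    rwa [sub_sub_cancel] at this
  have h8 : 3 * ε * √(d : ℝ) ≤ 1 * √d :=
    mul_le_mul_of_nonneg_right (by linarith) (Real.sqrt_nonneg _)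
  have h9 : 3 * ε ^ 2 * ‖gradient W 0‖ ≤ 1 * ‖gradient W 0‖ :=
    mul_le_mul_of_nonneg_right (by nlinarith) (norm_nonneg _)
  linarith

private theorem Qf_neg {d : ℕ} (z : E d × E d) : Qf (((0 : E d), (0 : E d)) - z) = Qf z := by
  simp only [Qf, Prod.fst_sub, Prod.snd_sub, zero_sub, norm_neg]
  rw [← neg_add, norm_neg]

theorem chain_tv {m N : ℕ} (R : Rule m N) (hm : 2 ≤ m) (hR : Monotone R.t) :
    ∃ C c0 : ℝ, 0 < C ∧ 0 < c0 ∧ c0 ≤ 1 / 4 ∧ ∀ (d : ℕ) (W : E d → ℝ) (ε η σ : ℝ), KPot ε W →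
      0 < ε → ε ≤ c0 → 0 < η → η ≤ c0 → 0 < σ → σ ≤ 1 → ∀ n : ℕ,
      TVle ((lzM n N d).map (outS R (gradient W) ε η σ n)) (cv W (ε ^ 2 + σ ^ 2))
        (C * (lvE m d ε η σ n + (1 - η / 4) ^ n / σ * ‖gradient W 0‖)) := by
  obtain ⟨C1, c1, hC1, hc1, hloc⟩ := local_exp R hm hR
  obtain ⟨c2, hc2, hcon⟩ := alg_contract R (by omega : 1 ≤ m)
  refine ⟨4 * C1 + 80, min (1 / 4) (min c1 c2), by positivity, by positivity, min_le_left _ _, ?_⟩
  intro d W ε η σ hW h0 hε hη hηc hσ hσ1 n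
  have hε4 : ε ≤ 1 / 4 := hε.trans (min_le_left _ _)
  have hη4 : η ≤ 1 / 4 := hηc.trans (min_le_left _ _)
  have hε1 : ε ≤ c1 := hε.trans ((min_le_right _ _).trans (min_le_left _ _))
  have hε2 : ε ≤ c2 := hε.trans ((min_le_right _ _).trans (min_le_right _ _))
  have hη1 : η ≤ c1 := hηc.trans ((min_le_right _ _).trans (min_le_left _ _))
  have hη2 : η ≤ c2 := hηc.trans ((min_le_right _ _).trans (min_le_right _ _))
  have hε22 : ε ≤ 1 / 2 := by linarith
  have hU : SPot (lsm ε W) := lsm_spot hW h0 hε22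
  obtain ⟨Φ, hΦ⟩ := exists_isFlow hU
  have hP : IsProbabilityMeasure (phase (lsm ε W)) := phase_prob hU
  have hgN : IsProbabilityMeasure (gN N d) := by unfold gN; infer_instance
  have hnz : IsProbabilityMeasure (nzM N d) := by unfold nzM; infer_instance
  have hac := (alg_cont (m := m) (N := N) R (kpot_cont hW h0 hε22) ε η).measurable
  have hl := hloc d W ε η hW h0 hε1 hη hη1 Φ hΦ
  have hcc := lipD R hη (by linarith : η ≤ 1)
    (hcon d (gradient W) (kpot_mono hW h0 hε22) ε η h0 hε2 hη hη2)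
  obtain ⟨hI, hIb⟩ := phase_sq hU
  intro f hf f0 f1
  rw [out_int R hac n hf f0 f1, cv_int hW h0 hε22 hσ.le hf f0 f1]
  have hfm : Measurable (fun p : (E d × E d) × E d => f (p.1.1 + σ • p.2)) := hf.comp (by fun_prop)
  have hψ : Measurable (fun z : E d × E d => ∫ ζ, f (z.1 + σ • ζ) ∂(stdGaussian (E d))) :=
    (hfm.stronglyMeasurable.integral_prod_right' (ν := stdGaussian (E d))).measurable
  have hψx : ∀ z : E d × E d, 0 ≤ ∫ ζ, f (z.1 + σ • ζ) ∂(stdGaussian (E d)) ∧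
      ∫ ζ, f (z.1 + σ • ζ) ∂(stdGaussian (E d)) ≤ 1 := fun z =>
    int01_mem _ (f := fun ζ => f (z.1 + σ • ζ)) (hf.comp (by fun_prop)) (fun _ => f0 _)
      (fun _ => f1 _)
  have hψl := fun z z' : E d × E d => psi_lip hσ hf f0 f1 z z'
  generalize hψd : (fun z : E d × E d => ∫ ζ, f (z.1 + σ • ζ) ∂(stdGaussian (E d))) = ψ at hψ
  have hψz : ∀ z : E d × E d, ∫ ζ, f (z.1 + σ • ζ) ∂(stdGaussian (E d)) = ψ z := fun z => by
    rw [← hψd]
  simp only [hψz] at hψx hψl ⊢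
  have hσi : 0 ≤ 1 / σ := by positivity
  have hρ : 0 ≤ 1 - η / 4 := by linarith
  have hst := itr_stat hac (phase (lsm ε W)) (nzM N d) (fun z z' => √(Qf (z - z'))) hρ hcc
    (δ := 72 * √d * (η ^ 2 * ε ^ 2 + η * ε ^ 3)) (κ := C1 * locE m d ε η)
    (fun L hL φ hφ p0 p1 hlip => one_step R hm hR hW h0 hε4 hη hη4 hΦ hl hL hφ p0 p1 hlip) n
    (1 / σ) hσi ψ hψ (fun z => (hψx z).1) (fun z => (hψx z).2) hψl
  have hD : Integrable (fun z : E d × E d => √(Qf (((0 : E d), (0 : E d)) - z)))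
      (phase (lsm ε W)) := by
    simp only [Qf_neg]
    exact hI
  have hcold := itr_cold hac (phase (lsm ε W)) (nzM N d) (D := fun z z' => √(Qf (z - z'))) hρ hcc n
    ((0 : E d), (0 : E d)) hσi hψ (fun z => (hψx z).1) (fun z => (hψx z).2) hψl hD
  simp only [Qf_neg] at hcold
  refine (abs_sub_le _ (∫ p, ψ (itr (alg R (gradient W) ε η) n p.1 p.2)
    ∂((phase (lsm ε W)).prod (Measure.pi fun _ : Fin n => nzM N d))) _).trans ?_
  refine (add_le_add hcold hst).trans ?_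
  have hgr := grad_zero_le hW h0 hε4
  exact chain_arith hC1 h0 hη hη4 hσ (norm_nonneg _) (by linarith)

end P347S
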