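import Vale.Agent.P347Q.Final

/-!
Shared definitions for the project `gamma_* ≤ 1/6` (P347).  See `NOTE.md` in this directory.

Smoothing parameter `ε` (`s = ε ^ 2`), step `η`, final position noise `σ`.
`W` is a potential of the class `KPot ε` (curvature between `1/(1-ε²)` and `2/(1-ε²)`),
`U = lsm ε W = -log (e^{-W} * gaussian)`, which satisfies `SPot U`.
-/

open MeasureTheory ProbabilityTheory Function
open scoped ENNReal BigOperators

namespace P347S

open P347Q

/-- class `𝒲_ε`: `C²`, curvature in `[1/(1-ε²), 2/(1-ε²)]` -/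
structure KPot {d : ℕ} (ε : ℝ) (W : E d → ℝ) : Prop where
  smooth : ContDiff ℝ 2 W
  lower : ∀ x w : E d, ‖w‖ ^ 2 ≤ (1 - ε ^ 2) * fderiv ℝ (fderiv ℝ W) x w w
  upper : ∀ x w : E d, (1 - ε ^ 2) * fderiv ℝ (fderiv ℝ W) x w w ≤ 2 * ‖w‖ ^ 2

/-- class of potentials with curvature in `[1, 1+lam]` (no condition at `0`) -/
structure CPot {d : ℕ} (lam : ℝ) (V : E d → ℝ) : Prop where
  smooth : ContDiff ℝ 2 V
  lower : ∀ x w : E d, ‖w‖ ^ 2 ≤ fderiv ℝ (fderiv ℝ V) x w w
  upper : ∀ x w : E d, fderiv ℝ (fderiv ℝ V) x w w ≤ (1 + lam) * ‖w‖ ^ 2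

/-- `C²` potentials with curvature at least `κ` -/
structure LPot {d : ℕ} (κ : ℝ) (Φ : E d → ℝ) : Prop where
  smooth : ContDiff ℝ 2 Φ
  lower : ∀ x w : E d, κ * ‖w‖ ^ 2 ≤ fderiv ℝ (fderiv ℝ Φ) x w w

/-- polynomial growth -/
def Pgr {d : ℕ} {F : Type*} [NormedAddCommGroup F] (f : E d → F) : Prop :=
  ∃ (k : ℕ) (C : ℝ), ∀ x, ‖f x‖ ≤ C * (1 + ‖x‖) ^ k

/-- potential of the posterior law `q_y ∝ exp (-W(w) - |w-y|²/(2ε²))` -/
noncomputable def pot {d : ℕ} (ε : ℝ) (W : E d → ℝ) (y : E d) : E d → ℝ :=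
  fun w => W w + ‖w - y‖ ^ 2 / (2 * ε ^ 2)

/-- posterior law `q_y` -/
noncomputable def post {d : ℕ} (ε : ℝ) (W : E d → ℝ) (y : E d) : Measure (E d) :=
  gibbs (pot ε W y)

/-- posterior expectation `E_y F` -/
noncomputable def pe {d : ℕ} (ε : ℝ) (W : E d → ℝ) (F : E d → ℝ) (y : E d) : ℝ :=
  ∫ w, F w ∂(post ε W y)

/-- `U = -log ∫ exp (-W (y + ε z)) γ(dz)` -/
noncomputable def lsm {d : ℕ} (ε : ℝ) (W : E d → ℝ) : E d → ℝ :=
  fun y => -Real.log (∫ z, Real.exp (-W (y + ε • z)) ∂(stdGaussian (E d)))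

/-- all derivatives of the force of `U` are bounded in Hilbert-Schmidt norm at scale `ε` -/
def HSB {d : ℕ} (B : ℕ → ℝ) (ε : ℝ) (U : E d → ℝ) : Prop :=
  ∀ n : ℕ, 1 ≤ n → ∀ w x : E d,
    hs (bas d) n (fun y => fderiv ℝ U y w) x ≤ B n * (ε ^ (2 * (n - 1)))⁻¹ * ‖w‖ ^ 2

/-- convolution of `gibbs V` with a Gaussian of variance `t` -/
noncomputable def cv {d : ℕ} (V : E d → ℝ) (t : ℝ) : Measure (E d) :=
  ((gibbs V).prod (stdGaussian (E d))).map (fun p => p.1 + √t • p.2)

/-- the force estimator `g(y - ε² g(y) + ε X)` -/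
noncomputable def est {d : ℕ} (g : E d → E d) (ε : ℝ) (y X : E d) : E d :=
  g (y - ε ^ 2 • g y + ε • X)

/-- the noise of one kick -/
noncomputable def err {d : ℕ} (W : E d → ℝ) (ε : ℝ) (y X : E d) : E d :=
  est (gradient W) ε y X - gradient (lsm ε W) y

/-- bias of the estimator -/
noncomputable def bias {d : ℕ} (W : E d → ℝ) (ε : ℝ) (y : E d) : E d :=
  ∫ X, err W ε y X ∂(stdGaussian (E d))

/-- law of the noises of the force evaluations of one step -/
noncomputable def gN (N d : ℕ) : Measure (Fin N → E d) :=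
  Measure.pi (fun _ : Fin N => stdGaussian (E d))

/-- the `i`-th force evaluation of a step -/
noncomputable def frc {d m N : ℕ} (R : Rule m N) (g : E d → E d) (ε η : ℝ) (z : E d × E d)
    (X : Fin N → E d) (i : Fin N) : E d :=
  g (z.1 + (η * R.t i) • z.2 - ((η * R.t i) ^ 2 / 2 + ε ^ 2) • g z.1 + ε • X i)

/-- one step of the integrator -/
noncomputable def stp {d m N : ℕ} (R : Rule m N) (g : E d → E d) (ε η : ℝ) (z : E d × E d)
    (X : Fin N → E d) : E d × E d :=
  (z.1 + η • z.2 - η ^ 2 • ∑ i, (R.w i * (1 - R.t i)) • frc R g ε η z X i,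
    z.2 - η • ∑ i, R.w i • frc R g ε η z X i)

/-- partial refreshment of the velocity -/
noncomputable def ou {d : ℕ} (η : ℝ) (z : E d × E d) (ζ : E d) : E d × E d :=
  (z.1, (1 - 2 * η) • z.2 + √(1 - (1 - 2 * η) ^ 2) • ζ)

/-- noise of one step: force noises and refreshment noise -/
abbrev Nz (N d : ℕ) := (Fin N → E d) × E d

/-- law of the noise of one step -/
noncomputable def nzM (N d : ℕ) : Measure (Nz N d) := (gN N d).prod (stdGaussian (E d))

/-- one step of the algorithm -/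
noncomputable def alg {d m N : ℕ} (R : Rule m N) (g : E d → E d) (ε η : ℝ) (z : E d × E d)
    (ω : Nz N d) : E d × E d :=
  ou η (stp R g ε η z ω.1) ω.2

/-- `n` steps of the algorithm -/
noncomputable def runS {d m N : ℕ} (R : Rule m N) (g : E d → E d) (ε η : ℝ) :
    (n : ℕ) → E d × E d → (Fin n → Nz N d) → E d × E d
  | 0, z, _ => z
  | n + 1, z, ω => alg R g ε η (runS R g ε η n z (fun i => ω i.castSucc)) (ω (Fin.last n))

/-- noise of one level: the noises of `n` steps and the final position noise -/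
abbrev Lz (n N d : ℕ) := (Fin n → Nz N d) × E d

/-- law of the noise of one level -/
noncomputable def lzM (n N d : ℕ) : Measure (Lz n N d) :=
  (Measure.pi (fun _ : Fin n => nzM N d)).prod (stdGaussian (E d))

/-- output of the chain: position after `n` steps from `(0,0)`, plus Gaussian noise of size `σ` -/
noncomputable def outS {d m N : ℕ} (R : Rule m N) (g : E d → E d) (ε η σ : ℝ) (n : ℕ)
    (ω : Lz n N d) : E d :=
  (runS R g ε η n (0, 0) ω.1).1 + σ • ω.2

/-! the ideal step with the same noises -/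

/-- nodes extended to `ℕ` -/
noncomputable def nd {m N : ℕ} (R : Rule m N) (k : ℕ) : ℝ := if h : k < N then R.t ⟨k, h⟩ else 1

/-- previous node (`0` before the first) -/
noncomputable def prv {m N : ℕ} (R : Rule m N) : ℕ → ℝ
  | 0 => 0
  | k + 1 => nd R k

/-- weights extended to `ℕ` -/
noncomputable def wt {m N : ℕ} (R : Rule m N) (k : ℕ) : ℝ := if h : k < N then R.w ⟨k, h⟩ else 0

/-- the noise kick of weight `w` -/
noncomputable def nk {d : ℕ} (W : E d → ℝ) (ε η w : ℝ) (z : E d × E d) (X : E d) : E d × E d :=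
  (z.1, z.2 - (η * w) • err W ε z.1 X)

/-- the ideal step after `k` kicks: exact flow interleaved with noise kicks -/
noncomputable def inn {d m N : ℕ} (R : Rule m N) (W : E d → ℝ) (ε η : ℝ)
    (Φ : ℝ → E d × E d → E d × E d) : (k : ℕ) → E d × E d → (Fin k → E d) → E d × E d
  | 0, z, _ => z
  | k + 1, z, X => nk W ε η (wt R k)
      (Φ (η * (nd R k - prv R k)) (inn R W ε η Φ k z (fun i => X i.castSucc))) (X (Fin.last k))

/-- the complete ideal step (before refreshment) -/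
noncomputable def innF {d m N : ℕ} (R : Rule m N) (W : E d → ℝ) (ε η : ℝ)
    (Φ : ℝ → E d × E d → E d × E d) (z : E d × E d) (X : Fin N → E d) : E d × E d :=
  Φ (η * (1 - prv R N)) (inn R W ε η Φ N z X)

/-! recursion on the condition number -/

/-- rescaling factor `r = (1-ε²)^{-1/2}` -/
noncomputable def rs (ε : ℝ) : ℝ := (√(1 - ε ^ 2))⁻¹

/-- gradient field of `W = V (r •)` -/
noncomputable def rg {d : ℕ} (ε : ℝ) (g : E d → E d) : E d → E d := fun x => rs ε • g (rs ε • x)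

/-- total variance after one level: `τ² = r² (ε² + σ²)` -/
noncomputable def tau2 (ε σ : ℝ) : ℝ := (rs ε) ^ 2 * (ε ^ 2 + σ ^ 2)

/-- `θ² = τ² / (1 + τ²)` -/
noncomputable def th2 (ε σ : ℝ) : ℝ := tau2 ε σ / (1 + tau2 ε σ)

/-- gradient field of the next potential `u ↦ V (y + θ u) + (1 - θ²) |u|²/2` -/
noncomputable def ng {d : ℕ} (θ : ℝ) (y : E d) (g : E d → E d) : E d → E d :=
  fun u => θ • g (y + θ • u) + (1 - θ ^ 2) • u

/-- next potential -/
noncomputable def np {d : ℕ} (θ : ℝ) (y : E d) (V : E d → ℝ) : E d → ℝ :=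
  fun u => V (y + θ • u) + (1 - θ ^ 2) * ‖u‖ ^ 2 / 2

/-- the complete sampler with `J` levels -/
noncomputable def samp {d m N : ℕ} (R : Rule m N) (ε η σ : ℝ) (n : ℕ) :
    (J : ℕ) → (E d → E d) → (Fin J → Lz n N d) × E d → E d
  | 0, g, ω => -g 0 + ω.2
  | J + 1, g, ω =>
    rs ε • outS R (rg ε g) ε η σ n (ω.1 0) +
      √(th2 ε σ) • samp R ε η σ n J
        (ng (√(th2 ε σ)) (rs ε • outS R (rg ε g) ε η σ n (ω.1 0)) g) (Fin.tail ω.1, ω.2)

/-- law of the noise of the complete sampler -/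
noncomputable def smM (n N J d : ℕ) : Measure ((Fin J → Lz n N d) × E d) :=
  (Measure.pi (fun _ : Fin J => lzM n N d)).prod (stdGaussian (E d))

end P347S
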