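import Vale.Agent.P347S.Poinc

/-!
Module Disint: if `y ∼ gibbs V * N(0,t)` and `u ∼ gibbs (np θ y V)` given `y`, `θ² = t/(1+t)`, then
`y + θ u ∼ gibbs V`.

Proof: joint density of `(x,y)` is `∝ exp(-V(x) - |x-y|²/(2t))`; given `y`, with `x = y + θu`:
`V(y+θu) + θ²|u|²/(2t) = V(y+θu) + (1-θ²)|u|²/2`.  Fubini/Tonelli with `lintegral` and the change of
variables `x = y + θu`.
-/

open MeasureTheory ProbabilityTheory Function
open scoped ENNReal BigOperators

namespace P347S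

open P347Q

variable {d : ℕ}

theorem dj_hasF (θ : ℝ) (y u : E d) :
    HasFDerivAt (fun u : E d => y + θ • u) (θ • ContinuousLinearMap.id ℝ (E d)) u :=
  ((hasFDerivAt_id u).const_smul θ).const_add y

theorem dj_fderiv_aff {V : E d → ℝ} (hV : ContDiff ℝ 2 V) (θ : ℝ) (y : E d) :
    fderiv ℝ (fun u => V (y + θ • u)) = fun u => θ • fderiv ℝ V (y + θ • u) := by
  funext u
  have hd : Differentiable ℝ V := hV.differentiable (by norm_num)
  have h2 := (hd (y + θ • u)).hasFDerivAt.comp u (dj_hasF θ y u)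
  have h3 : fderiv ℝ (fun u => V (y + θ • u)) u = _ := h2.fderiv
  rw [h3]
  ext w
  simp

theorem dj_np_eq (θ : ℝ) (y : E d) (V : E d → ℝ) :
    np θ y V = fun u => V (y + θ • u) + (1 - θ ^ 2) * (‖u‖ ^ 2 / 2) := by
  funext u
  unfold np
  ring

theorem dj_np_fderiv {V : E d → ℝ} (hV : ContDiff ℝ 2 V) (θ : ℝ) (y : E d) :
    fderiv ℝ (np θ y V) = fun u => θ • fderiv ℝ V (y + θ • u) + (1 - θ ^ 2) • innerSL ℝ u := by
  rw [dj_np_eq]
  funext u
  have hd : Differentiable ℝ V := hV.differentiable (by norm_num)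
  have h1 : DifferentiableAt ℝ (fun u => V (y + θ • u)) u :=
    ((hd (y + θ • u)).hasFDerivAt.comp u (dj_hasF θ y u)).differentiableAt
  have h2 : DifferentiableAt ℝ (fun u : E d => ‖u‖ ^ 2 / 2) u :=
    ((spot_sq d).contDiff.differentiable (by norm_num)) u
  have h3 := fderiv_sq d
  rw [fderiv_fun_add h1 (h2.const_mul _), dj_fderiv_aff hV, fderiv_const_mul h2, h3]

theorem dj_np_smooth {V : E d → ℝ} (hV : ContDiff ℝ 2 V) (θ : ℝ) (y : E d) :
    ContDiff ℝ 2 (np θ y V) := by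
  rw [dj_np_eq]
  have h1 : ContDiff ℝ 2 (fun u : E d => V (y + θ • u)) :=
    hV.comp (contDiff_const.add (contDiff_const_smul θ))
  exact h1.add (contDiff_const.mul (spot_sq d).contDiff)

theorem dj_np_fderiv2 {V : E d → ℝ} (hV : ContDiff ℝ 2 V) (θ : ℝ) (y u w : E d) :
    fderiv ℝ (fderiv ℝ (np θ y V)) u w w =
      θ ^ 2 * fderiv ℝ (fderiv ℝ V) (y + θ • u) w w + (1 - θ ^ 2) * ‖w‖ ^ 2 := by
  rw [dj_np_fderiv hV]
  have hd : Differentiable ℝ (fderiv ℝ V) :=
    (hV.fderiv_right (m := 1) (by norm_num)).differentiable (by norm_num)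
  have h1 := ((hd (y + θ • u)).hasFDerivAt.comp u (dj_hasF θ y u)).const_smul θ
  have h2 : HasFDerivAt (fun u : E d => (1 - θ ^ 2) • (innerSL ℝ u : E d →L[ℝ] ℝ))
      ((1 - θ ^ 2) • (innerSL ℝ : E d →L[ℝ] E d →L[ℝ] ℝ)) u := by
    have e : (fun u : E d => (1 - θ ^ 2) • (innerSL ℝ u : E d →L[ℝ] ℝ)) =
      (((1 - θ ^ 2) • (innerSL ℝ : E d →L[ℝ] E d →L[ℝ] ℝ) : E d →L[ℝ] E d →L[ℝ] ℝ) :
        E d → E d →L[ℝ] ℝ) := rfl
    rw [e]
    exact ContinuousLinearMap.hasFDerivAt _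
  have h3 := (h1.add h2).fderiv
  have h4 : fderiv ℝ (fun u => θ • fderiv ℝ V (y + θ • u) +
      (1 - θ ^ 2) • (innerSL ℝ u : E d →L[ℝ] ℝ)) u = _ := h3
  rw [h4]
  have h5 : ((innerSL ℝ) w) w = ‖w‖ ^ 2 := real_inner_self_eq_norm_sq w
  simp
  rw [h5]
  ring

/-- the next potential is in the class, with `lam` replaced by `lam θ²` -/
theorem np_cpot {lam θ : ℝ} {V : E d → ℝ} (hV : CPot lam V) (hθ : θ ^ 2 ≤ 1) (y : E d) :
    CPot (lam * θ ^ 2) (np θ y V) ∧ gradient (np θ y V) = ng θ y (gradient V) := by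
  refine ⟨⟨dj_np_smooth hV.smooth θ y, ?_, ?_⟩, ?_⟩
  · intro x w
    rw [dj_np_fderiv2 hV.smooth]
    have h := hV.lower (y + θ • x) w
    have h2 : 0 ≤ θ ^ 2 := sq_nonneg θ
    nlinarith
  · intro x w
    rw [dj_np_fderiv2 hV.smooth]
    have h := hV.upper (y + θ • x) w
    have h2 : 0 ≤ θ ^ 2 := sq_nonneg θ
    nlinarith
  · funext u
    apply ext_inner_right ℝ
    intro w
    rw [inner_gradient, dj_np_fderiv hV.smooth]
    unfold ng
    rw [inner_add_left, real_inner_smul_left, real_inner_smul_left, inner_gradient]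
    simp

/-- quadratic lower bound -/
theorem dj_lower {lam : ℝ} {V : E d → ℝ} (hV : CPot lam V) :
    ∃ c : ℝ, ∀ x, c + ‖x‖ ^ 2 / 4 ≤ V x := by
  refine ⟨V 0 - ‖fderiv ℝ V 0‖ ^ 2, fun x => ?_⟩
  have h := second_order_lower hV.smooth 0 x (‖x‖ ^ 2) (fun t _ => hV.lower _ _)
  rw [zero_add] at h
  have h1 : -(‖fderiv ℝ V 0‖ * ‖x‖) ≤ fderiv ℝ V 0 x := by
    have := (fderiv ℝ V 0).le_opNorm x
    rw [Real.norm_eq_abs] at this
    exact (abs_le.1 this).1
  nlinarith [sq_nonneg (‖fderiv ℝ V 0‖ - ‖x‖ / 2)]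

/-- integration against a Gibbs law -/
theorem dj_lint_gibbs {V : E d → ℝ} (hV : Continuous V) {h : E d → ℝ≥0∞} (hh : Measurable h) :
    ∫⁻ x, h x ∂(gibbs V) = (∫⁻ x, ENNReal.ofReal (Real.exp (-V x)))⁻¹ *
      ∫⁻ x, ENNReal.ofReal (Real.exp (-V x)) * h x := by
  have hm : Measurable (fun x : E d => ENNReal.ofReal (Real.exp (-V x))) := by
    have := hV.measurable
    fun_prop
  rw [gibbs, lintegral_smul_measure, lintegral_withDensity_eq_lintegral_mul _ hm hh]
  rfl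

/-- change of variables `y = x + r z` -/
theorem dj_cov {r : ℝ} (hr : r ≠ 0) (x : E d) {h : E d → ℝ≥0∞} (hh : Measurable h) :
    ∫⁻ z, h (x + r • z) = ENNReal.ofReal |(r ^ Module.finrank ℝ (E d))⁻¹| * ∫⁻ y, h y := by
  have h1 : ∫⁻ z, h (x + r • z) = ∫⁻ y, h (x + y) ∂(Measure.map (fun z : E d => r • z) volume) := by
    rw [lintegral_map (by fun_prop) (by fun_prop)]
  rw [h1, Measure.map_addHaar_smul _ hr, lintegral_smul_measure, lintegral_add_left_eq_self]
  rfl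

/-- the exponent of the joint density -/
theorem dj_weight {t : ℝ} (ht : 0 < t) (V : E d → ℝ) (y u : E d) :
    V (y + √(t / (1 + t)) • u) + ‖y + √(t / (1 + t)) • u - y‖ ^ 2 / (2 * t) =
      np (√(t / (1 + t))) y V u := by
  unfold np
  rw [add_sub_cancel_left, norm_smul, mul_pow, Real.norm_eq_abs, sq_abs,
    Real.sq_sqrt (by positivity)]
  field_simp
  ring

/-- joint density of `x ∼ exp (-V)` and `y = x + √t z` -/
noncomputable def djW (V : E d → ℝ) (t : ℝ) (p : E d × E d) : ℝ≥0∞ :=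
  ENNReal.ofReal (Real.exp (-(V p.1 + ‖p.1 - p.2‖ ^ 2 / (2 * t))))

theorem djW_meas {V : E d → ℝ} (hV : Continuous V) (t : ℝ) : Measurable (djW V t) := by
  unfold djW
  have : Continuous (fun p : E d × E d =>
      Real.exp (-(V p.1 + ‖p.1 - p.2‖ ^ 2 / (2 * t)))) := by fun_prop
  exact this.measurable.ennreal_ofReal

/-- marginal density of `y` -/
noncomputable def djA (V : E d → ℝ) (t : ℝ) (y : E d) : ℝ≥0∞ := ∫⁻ x, djW V t (x, y)

noncomputable def djB (V : E d → ℝ) (t : ℝ) (F : E d → ℝ≥0∞) (y : E d) : ℝ≥0∞ :=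
  ∫⁻ x, djW V t (x, y) * F x

theorem djA_meas {V : E d → ℝ} (hV : Continuous V) (t : ℝ) : Measurable (djA V t) :=
  (djW_meas hV t).lintegral_prod_left'

theorem djB_meas {V : E d → ℝ} (hV : Continuous V) (t : ℝ) {F : E d → ℝ≥0∞}
    (hF : Measurable F) : Measurable (djB V t F) := by
  have h : Measurable (fun p : E d × E d => djW V t p * F p.1) :=
    (djW_meas hV t).mul (hF.comp measurable_fst)
  exact h.lintegral_prod_left'

theorem dj_c_pos {r : ℝ} (hr : r ≠ 0) (n : ℕ) : ENNReal.ofReal |(r ^ n)⁻¹| ≠ 0 := by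
  rw [ENNReal.ofReal_ne_zero_iff]
  positivity

theorem dj_theta_pos {t : ℝ} (ht : 0 < t) : √(t / (1 + t)) ≠ 0 := by
  have : 0 < √(t / (1 + t)) := Real.sqrt_pos.2 (by positivity)
  exact this.ne'

/-- partition function of the next potential -/
theorem dj_Z {t : ℝ} (ht : 0 < t) {V : E d → ℝ} (hV : Continuous V) (y : E d) :
    ∫⁻ u, ENNReal.ofReal (Real.exp (-np (√(t / (1 + t))) y V u)) =
      ENNReal.ofReal |((√(t / (1 + t))) ^ Module.finrank ℝ (E d))⁻¹| * djA V t y := by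
  have hm : Measurable (fun x : E d => djW V t (x, y)) :=
    (djW_meas hV t).comp (measurable_id.prodMk measurable_const)
  have h := dj_cov (dj_theta_pos ht) y hm
  unfold djA
  rw [← h]
  apply lintegral_congr
  intro u
  unfold djW
  rw [dj_weight ht]

theorem dj_ZF {t : ℝ} (ht : 0 < t) {V : E d → ℝ} (hV : Continuous V) (y : E d)
    {F : E d → ℝ≥0∞} (hF : Measurable F) :
    ∫⁻ u, ENNReal.ofReal (Real.exp (-np (√(t / (1 + t))) y V u)) *
        F (y + √(t / (1 + t)) • u) =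
      ENNReal.ofReal |((√(t / (1 + t))) ^ Module.finrank ℝ (E d))⁻¹| * djB V t F y := by
  have hm : Measurable (fun x : E d => djW V t (x, y) * F x) :=
    ((djW_meas hV t).comp (measurable_id.prodMk measurable_const)).mul hF
  have h := dj_cov (dj_theta_pos ht) y hm
  unfold djB
  rw [← h]
  apply lintegral_congr
  intro u
  unfold djW
  rw [dj_weight ht]

theorem dj_np_prob {lam θ : ℝ} {V : E d → ℝ} (hV : CPot lam V) (hθ : θ ^ 2 ≤ 1) (y : E d) :
    IsProbabilityMeasure (gibbs (np θ y V)) := by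
  obtain ⟨c, hc⟩ := dj_lower (np_cpot hV hθ y).1
  exact gibbs_prob_of_lower (dj_np_smooth hV.smooth θ y).continuous hc

theorem dj_theta_sq {t : ℝ} (ht : 0 < t) : (√(t / (1 + t))) ^ 2 ≤ 1 := by
  rw [Real.sq_sqrt (by positivity), div_le_one (by positivity)]
  linarith

theorem djA_ne {lam t : ℝ} {V : E d → ℝ} (hV : CPot lam V) (ht : 0 < t) (y : E d) :
    djA V t y ≠ 0 ∧ djA V t y ≠ ⊤ := by
  have hc := hV.smooth.continuous
  obtain ⟨c, hl⟩ := dj_lower (np_cpot hV (dj_theta_sq ht) y).1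
  have hnc := (dj_np_smooth hV.smooth (√(t / (1 + t))) y).continuous
  have h1 := lint_exp_eq hnc hl
  have h2 := Z_pos hnc hl
  rw [dj_Z ht hc] at h1
  have h3 : ENNReal.ofReal (∫ x, Real.exp (-np (√(t / (1 + t))) y V x)) ≠ 0 := by
    rw [ENNReal.ofReal_ne_zero_iff]
    exact h2
  constructor
  · intro h
    rw [h, mul_zero] at h1
    exact h3 h1.symm
  · intro h
    rw [h, ENNReal.mul_top (dj_c_pos (dj_theta_pos ht) _)] at h1
    exact ENNReal.ofReal_ne_top h1.symm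

/-- conditional expectation given `y` -/
theorem dj_k {lam t : ℝ} {V : E d → ℝ} (hV : CPot lam V) (ht : 0 < t) {F : E d → ℝ≥0∞}
    (hF : Measurable F) (y : E d) :
    ∫⁻ u, F (y + √(t / (1 + t)) • u) ∂(gibbs (np (√(t / (1 + t))) y V)) =
      (djA V t y)⁻¹ * djB V t F y := by
  have hc := hV.smooth.continuous
  have hnc := (dj_np_smooth hV.smooth (√(t / (1 + t))) y).continuous
  rw [dj_lint_gibbs hnc (by fun_prop), dj_Z ht hc, dj_ZF ht hc y hF]
  have h0 := dj_c_pos (dj_theta_pos ht) (Module.finrank ℝ (E d))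
  have hT : ENNReal.ofReal |((√(t / (1 + t))) ^ Module.finrank ℝ (E d))⁻¹| ≠ ⊤ :=
    ENNReal.ofReal_ne_top
  generalize ENNReal.ofReal |((√(t / (1 + t))) ^ Module.finrank ℝ (E d))⁻¹| = c at h0 hT
  rw [ENNReal.mul_inv (Or.inl h0) (Or.inl hT)]
  calc c⁻¹ * (djA V t y)⁻¹ * (c * djB V t F y)
      = (c⁻¹ * c) * ((djA V t y)⁻¹ * djB V t F y) := by ring
    _ = _ := by rw [ENNReal.inv_mul_cancel h0 hT, one_mul]

/-- one Gaussian average -/
theorem dj_gauss {t : ℝ} (ht : 0 < t) (x : E d) {k : E d → ℝ≥0∞} (hk : Measurable k) :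
    ∫⁻ z, k (x + √t • z) ∂(stdGaussian (E d)) =
      (∫⁻ v : E d, ENNReal.ofReal (Real.exp (-(‖v‖ ^ 2 / 2))))⁻¹ *
        (ENNReal.ofReal |((√t) ^ Module.finrank ℝ (E d))⁻¹| *
          ∫⁻ y, ENNReal.ofReal (Real.exp (-(‖x - y‖ ^ 2 / (2 * t)))) * k y) := by
  have hst : √t ≠ 0 := (Real.sqrt_pos.2 ht).ne'
  have hc : Continuous (fun v : E d => ‖v‖ ^ 2 / 2) := (spot_sq d).cont
  have hm : Measurable (fun y : E d =>
      ENNReal.ofReal (Real.exp (-(‖x - y‖ ^ 2 / (2 * t)))) * k y) := by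
    have : Continuous (fun y : E d => Real.exp (-(‖x - y‖ ^ 2 / (2 * t)))) := by fun_prop
    exact this.measurable.ennreal_ofReal.mul hk
  rw [stdGaussian_eq_gibbs, dj_lint_gibbs hc (by fun_prop), ← dj_cov hst x hm]
  congr 1
  apply lintegral_congr
  intro z
  congr 3
  rw [sub_add_cancel_left, norm_neg, norm_smul, mul_pow, Real.norm_eq_abs, sq_abs,
    Real.sq_sqrt ht.le]
  field_simp

theorem dj_gauss_mass {t : ℝ} (ht : 0 < t) (x : E d) :
    ENNReal.ofReal |((√t) ^ Module.finrank ℝ (E d))⁻¹| *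
          ∫⁻ y, ENNReal.ofReal (Real.exp (-(‖x - y‖ ^ 2 / (2 * t)))) =
      ∫⁻ v : E d, ENNReal.ofReal (Real.exp (-(‖v‖ ^ 2 / 2))) := by
  have hst : √t ≠ 0 := (Real.sqrt_pos.2 ht).ne'
  have hm : Measurable (fun y : E d =>
      ENNReal.ofReal (Real.exp (-(‖x - y‖ ^ 2 / (2 * t))))) := by
    have : Continuous (fun y : E d => Real.exp (-(‖x - y‖ ^ 2 / (2 * t)))) := by fun_prop
    exact this.measurable.ennreal_ofReal
  rw [← dj_cov hst x hm]
  apply lintegral_congr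
  intro z
  congr 3
  rw [sub_add_cancel_left, norm_neg, norm_smul, mul_pow, Real.norm_eq_abs, sq_abs,
    Real.sq_sqrt ht.le]
  field_simp

theorem djW_split {V : E d → ℝ} (t : ℝ) (x y : E d) :
    djW V t (x, y) = ENNReal.ofReal (Real.exp (-V x)) *
      ENNReal.ofReal (Real.exp (-(‖x - y‖ ^ 2 / (2 * t)))) := by
  unfold djW
  rw [← ENNReal.ofReal_mul (Real.exp_nonneg _), ← Real.exp_add]
  congr 2
  ring

theorem dj_meas_exp {V : E d → ℝ} (hV : Continuous V) :
    Measurable (fun x : E d => ENNReal.ofReal (Real.exp (-V x))) := by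
  have : Continuous (fun x : E d => Real.exp (-V x)) := by fun_prop
  exact this.measurable.ennreal_ofReal

/-- Gaussian factor of the joint density -/
noncomputable def djG (t : ℝ) (p : E d × E d) : ℝ≥0∞ :=
  ENNReal.ofReal (Real.exp (-(‖p.1 - p.2‖ ^ 2 / (2 * t))))

theorem djG_meas (t : ℝ) : Measurable (djG (d := d) t) := by
  unfold djG
  have : Continuous (fun p : E d × E d => Real.exp (-(‖p.1 - p.2‖ ^ 2 / (2 * t)))) := by
    fun_prop
  exact this.measurable.ennreal_ofReal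

theorem djW_split' {V : E d → ℝ} (t : ℝ) (x y : E d) :
    djW V t (x, y) = ENNReal.ofReal (Real.exp (-V x)) * djG t (x, y) := djW_split t x y

/-- the mass of the Gaussian -/
noncomputable def djZ (d : ℕ) : ℝ≥0∞ :=
  ∫⁻ v : E d, ENNReal.ofReal (Real.exp (-(‖v‖ ^ 2 / 2)))

theorem djZ_ne (d : ℕ) : djZ d ≠ 0 ∧ djZ d ≠ ⊤ := by
  have hcg : Continuous (fun v : E d => ‖v‖ ^ 2 / 2) := (spot_sq d).cont
  have hlg : ∀ x : E d, (0 : ℝ) + ‖x‖ ^ 2 / 4 ≤ ‖x‖ ^ 2 / 2 := by
    intro x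
    have : 0 ≤ ‖x‖ ^ 2 := by positivity
    linarith
  unfold djZ
  rw [lint_exp_eq hcg hlg]
  refine ⟨?_, ENNReal.ofReal_ne_top⟩
  rw [ENNReal.ofReal_ne_zero_iff]
  exact Z_pos hcg hlg

noncomputable def djC (d : ℕ) (t : ℝ) : ℝ≥0∞ :=
  ENNReal.ofReal |((√t) ^ Module.finrank ℝ (E d))⁻¹|

theorem dj_gauss' {t : ℝ} (ht : 0 < t) (x : E d) {k : E d → ℝ≥0∞} (hk : Measurable k) :
    ∫⁻ z, k (x + √t • z) ∂(stdGaussian (E d)) =
      (djZ d)⁻¹ * (djC d t * ∫⁻ y, djG t (x, y) * k y) := dj_gauss ht x hk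

theorem dj_mass' {t : ℝ} (ht : 0 < t) (x : E d) :
    djC d t * ∫⁻ y, djG t (x, y) = djZ d := dj_gauss_mass ht x

/-- Tonelli for the joint density, function of `y` -/
theorem dj_swapA {V : E d → ℝ} (hV : Continuous V) (t : ℝ) {k : E d → ℝ≥0∞}
    (hk : Measurable k) :
    ∫⁻ x, ENNReal.ofReal (Real.exp (-V x)) * ∫⁻ y, djG t (x, y) * k y =
      ∫⁻ y, djA V t y * k y := by
  have hW := djW_meas hV t
  have hm : Measurable (fun p : E d × E d => djW V t p * k p.2) :=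
    hW.mul (hk.comp measurable_snd)
  have e1 : ∀ x, ENNReal.ofReal (Real.exp (-V x)) * ∫⁻ y, djG t (x, y) * k y =
      ∫⁻ y, djW V t (x, y) * k y := by
    intro x
    have hg : Measurable (fun y : E d => djG t (x, y) * k y) :=
      ((djG_meas t).comp (measurable_const.prodMk measurable_id)).mul hk
    rw [← lintegral_const_mul (ENNReal.ofReal (Real.exp (-V x))) hg]
    apply lintegral_congr
    intro y
    rw [djW_split', mul_assoc]
  have e2 : ∀ y, ∫⁻ x, djW V t (x, y) * k y = djA V t y * k y := by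
    intro y
    have hw : Measurable (fun x : E d => djW V t (x, y)) :=
      hW.comp (measurable_id.prodMk measurable_const)
    rw [lintegral_mul_const (k y) hw]
    rfl
  rw [lintegral_congr e1, ← lintegral_congr e2]
  exact lintegral_lintegral_swap hm.aemeasurable

/-- Tonelli for the joint density, function of `x` -/
theorem dj_swapB {V : E d → ℝ} (hV : Continuous V) (t : ℝ) {F : E d → ℝ≥0∞}
    (hF : Measurable F) :
    ∫⁻ y, djB V t F y =
      ∫⁻ x, (ENNReal.ofReal (Real.exp (-V x)) * F x) * ∫⁻ y, djG t (x, y) := by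
  have hW := djW_meas hV t
  have hm : Measurable (fun p : E d × E d => djW V t p * F p.1) :=
    hW.mul (hF.comp measurable_fst)
  have e1 : ∀ x, (ENNReal.ofReal (Real.exp (-V x)) * F x) * ∫⁻ y, djG t (x, y) =
      ∫⁻ y, djW V t (x, y) * F x := by
    intro x
    have hg : Measurable (fun y : E d => djG t (x, y)) :=
      (djG_meas t).comp (measurable_const.prodMk measurable_id)
    rw [← lintegral_const_mul (ENNReal.ofReal (Real.exp (-V x)) * F x) hg]
    apply lintegral_congr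
    intro y
    rw [djW_split']
    ring
  rw [lintegral_congr e1]
  unfold djB
  symm
  exact lintegral_lintegral_swap hm.aemeasurable

/-- the law `cv V t` in terms of the joint density -/
theorem dj_cv {V : E d → ℝ} (hV : Continuous V) [IsProbabilityMeasure (gibbs V)] {t : ℝ}
    (ht : 0 < t) {k : E d → ℝ≥0∞} (hk : Measurable k) :
    ∫⁻ y, k y ∂(cv V t) = (∫⁻ x, ENNReal.ofReal (Real.exp (-V x)))⁻¹ *
      (((djZ d)⁻¹ * djC d t) * ∫⁻ y, djA V t y * k y) := by
  have hGk : Measurable (fun p : E d × E d => djG t p * k p.2) :=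
    (djG_meas t).mul (hk.comp measurable_snd)
  have hI : Measurable (fun x : E d => ∫⁻ y, djG t (x, y) * k y) := hGk.lintegral_prod_right'
  have hkk : Measurable (fun p : E d × E d => k (p.1 + √t • p.2)) := by fun_prop
  have s1 : ∫⁻ y, k y ∂(cv V t) = ∫⁻ x, ∫⁻ z, k (x + √t • z) ∂(stdGaussian (E d)) ∂(gibbs V) := by
    unfold cv
    rw [lintegral_map hk (by fun_prop), lintegral_prod _ hkk.aemeasurable]
  rw [s1, lintegral_congr (fun x => dj_gauss' ht x hk),
    dj_lint_gibbs hV ((hI.const_mul (djC d t)).const_mul (djZ d)⁻¹)]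
  congr 1
  rw [← dj_swapA hV t hk]
  have hVI : Measurable (fun x : E d => ENNReal.ofReal (Real.exp (-V x)) *
      ∫⁻ y, djG t (x, y) * k y) := (dj_meas_exp hV).mul hI
  rw [← lintegral_const_mul ((djZ d)⁻¹ * djC d t) hVI]
  apply lintegral_congr
  intro x
  ring

theorem dj_B {V : E d → ℝ} (hV : Continuous V) {t : ℝ} (ht : 0 < t) {F : E d → ℝ≥0∞}
    (hF : Measurable F) :
    ((djZ d)⁻¹ * djC d t) * ∫⁻ y, djB V t F y =
      ∫⁻ x, ENNReal.ofReal (Real.exp (-V x)) * F x := by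
  obtain ⟨hZ0, hZT⟩ := djZ_ne d
  have hI : Measurable (fun x : E d => ∫⁻ y, djG t (x, y)) :=
    (djG_meas t).lintegral_prod_right'
  have hVI : Measurable (fun x : E d => (ENNReal.ofReal (Real.exp (-V x)) * F x) *
      ∫⁻ y, djG t (x, y)) := ((dj_meas_exp hV).mul hF).mul hI
  rw [dj_swapB hV t hF, ← lintegral_const_mul ((djZ d)⁻¹ * djC d t) hVI]
  apply lintegral_congr
  intro x
  have hmass := dj_mass' ht x
  calc (djZ d)⁻¹ * djC d t * (ENNReal.ofReal (Real.exp (-V x)) * F x *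
        ∫⁻ y, djG t (x, y))
      = (djZ d)⁻¹ * (ENNReal.ofReal (Real.exp (-V x)) * F x) *
        (djC d t * ∫⁻ y, djG t (x, y)) := by ring
    _ = ((djZ d)⁻¹ * djZ d) * (ENNReal.ofReal (Real.exp (-V x)) * F x) := by rw [hmass]; ring
    _ = _ := by rw [ENNReal.inv_mul_cancel hZ0 hZT, one_mul]

theorem dj_main {lam t : ℝ} {V : E d → ℝ} (hV : CPot lam V) (ht : 0 < t) {F : E d → ℝ≥0∞}
    (hF : Measurable F) :
    ∫⁻ y, (djA V t y)⁻¹ * djB V t F y ∂(cv V t) = ∫⁻ x, F x ∂(gibbs V) := by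
  have hc := hV.smooth.continuous
  obtain ⟨cl, hl⟩ := dj_lower hV
  have hp : IsProbabilityMeasure (gibbs V) := gibbs_prob_of_lower hc hl
  have hkm : Measurable (fun y => (djA V t y)⁻¹ * djB V t F y) :=
    (djA_meas hc t).inv.mul (djB_meas hc t hF)
  rw [dj_cv hc ht hkm, dj_lint_gibbs hc hF, ← dj_B hc ht hF]
  congr 2
  apply lintegral_congr
  intro y
  obtain ⟨h0, hT⟩ := djA_ne hV ht y
  rw [← mul_assoc, ENNReal.mul_inv_cancel h0 hT, one_mul]

theorem disint {lam t : ℝ} {V : E d → ℝ} (hV : CPot lam V) (ht : 0 < t) {f : E d → ℝ}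
    (hf : Measurable f) (h0 : ∀ x, 0 ≤ f x) (h1 : ∀ x, f x ≤ 1) :
    ∫ y, (∫ u, f (y + √(t / (1 + t)) • u) ∂(gibbs (np (√(t / (1 + t))) y V))) ∂(cv V t) =
      ∫ x, f x ∂(gibbs V) := by
  have hc := hV.smooth.continuous
  have hF : Measurable (fun x => ENNReal.ofReal (f x)) := hf.ennreal_ofReal
  have e1 : ∀ y : E d, ∫ u, f (y + √(t / (1 + t)) • u) ∂(gibbs (np (√(t / (1 + t))) y V)) =
      ((djA V t y)⁻¹ * djB V t (fun x => ENNReal.ofReal (f x)) y).toReal := by
    intro y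
    have hfm : Measurable (fun u : E d => f (y + √(t / (1 + t)) • u)) :=
      hf.comp (by fun_prop)
    rw [integral_eq_lintegral_of_nonneg_ae (Filter.Eventually.of_forall fun u => h0 _)
      hfm.aestronglyMeasurable, ← dj_k hV ht hF y]
  have hlt : ∀ y : E d, (djA V t y)⁻¹ * djB V t (fun x => ENNReal.ofReal (f x)) y < ⊤ := by
    intro y
    rw [← dj_k hV ht hF y]
    have := dj_np_prob hV (dj_theta_sq ht) y
    have h2 : ∫⁻ u, ENNReal.ofReal (f (y + √(t / (1 + t)) • u))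
        ∂(gibbs (np (√(t / (1 + t))) y V)) ≤
        ∫⁻ _, 1 ∂(gibbs (np (√(t / (1 + t))) y V)) := by
      apply lintegral_mono
      intro u
      rw [← ENNReal.ofReal_one]
      exact ENNReal.ofReal_le_ofReal (h1 _)
    rw [lintegral_const, measure_univ, mul_one] at h2
    exact lt_of_le_of_lt h2 ENNReal.one_lt_top
  simp only [e1]
  have hkm : Measurable (fun y : E d =>
      (djA V t y)⁻¹ * djB V t (fun x => ENNReal.ofReal (f x)) y) :=
    (djA_meas hc t).inv.mul (djB_meas hc t hF)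
  rw [integral_toReal hkm.aemeasurable (Filter.Eventually.of_forall hlt)]
  rw [integral_eq_lintegral_of_nonneg_ae (Filter.Eventually.of_forall h0)
    hf.aestronglyMeasurable, dj_main hV ht hF]

end P347S
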