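import Vale.Agent.P347S.Defs

/-!
Module OModel: the sampler is an algorithm with `J n (N+1) + 1` first-order queries.

The gradient field of a level is `u ↦ T (h, (u, gradient V (S (h, u))))` with measurable `S`, `T`,
where `h` is the data (positions of the previous levels) computed so far.  `Comp q` is the notion
of `P347Q/Model.lean`.
-/

open MeasureTheory ProbabilityTheory Function
open scoped ENNReal BigOperators

namespace P347S

open P347Q

/-- transformed gradient field -/
noncomputable def om_tgr {d : ℕ} {H : Type} (S : H × E d → E d) (T : H × (E d × E d) → E d) (h : H)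
    (V : E d → ℝ) : E d → E d :=
  fun u => T (h, (u, gradient V (S (h, u))))

section comp

variable {d m N : ℕ} {Ω : Type} [MeasurableSpace Ω]

/-- one step with the transformed gradient field: `N + 1` queries -/
theorem om_comp_alg {H : Type} [MeasurableSpace H] (R : Rule m N) (ε η : ℝ) {q : ℕ}
    {F : (E d → ℝ) → Ω → H × (E d × E d)} (hF : Comp q F) {s : Ω → Nz N d} (hs : Measurable s)
    {S : H × E d → E d} (hS : Measurable S) {T : H × (E d × E d) → E d} (hT : Measurable T) :
    Comp (q + (N + 1)) (fun V ω => ((F V ω).1,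
      alg R (om_tgr S T (F V ω).1 V) ε η (F V ω).2 (s ω))) := by
  have h1 := hF.query (x := fun p : Ω × (H × (E d × E d)) => S (p.2.1, p.2.2.1))
    (hS.comp (by fun_prop))
  -- the value of the transformed field at the base point
  let g0 : Ω × ((H × (E d × E d)) × (ℝ × E d)) → E d := fun p => T (p.2.1.1, (p.2.1.2.1, p.2.2.2))
  have hg0 : Measurable g0 := hT.comp (by fun_prop)
  let ps : Fin N → Ω × ((H × (E d × E d)) × (ℝ × E d)) → E d := fun i p =>
    p.2.1.2.1 + (η * R.t i) • p.2.1.2.2 - ((η * R.t i) ^ 2 / 2 + ε ^ 2) • g0 p + ε • (s p.1).1 i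
  have hsX : ∀ i, Measurable (fun p : Ω × ((H × (E d × E d)) × (ℝ × E d)) => (s p.1).1 i) := by
    intro i
    have h2 : Measurable (fun ω : Ω => (s ω).1 i) := (measurable_pi_apply i).comp (measurable_fst.comp hs)
    exact h2.comp measurable_fst
  have hps : ∀ i, Measurable (ps i) := by
    intro i
    have h2 := hsX i
    simp only [ps]
    fun_prop
  have h2 := h1.batch' (ι := Fin N) (fun i p => S (p.2.1.1, ps i p)) (fun i => by
    have := hps i
    exact hS.comp (by fun_prop))
  -- the forces
  let fr : Fin N → Ω × (((H × (E d × E d)) × (ℝ × E d)) × (Fin N → ℝ × E d)) → E d := fun i p =>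
    T (p.2.1.1.1, (ps i (p.1, p.2.1), (p.2.2 i).2))
  have hfr : ∀ i, Measurable (fr i) := by
    intro i
    have h3 : Measurable (fun p : Ω × (((H × (E d × E d)) × (ℝ × E d)) × (Fin N → ℝ × E d)) =>
      ps i (p.1, p.2.1)) := (hps i).comp (by fun_prop)
    exact hT.comp (by fun_prop)
  have hs2 : Measurable (fun p : Ω × (((H × (E d × E d)) × (ℝ × E d)) × (Fin N → ℝ × E d)) =>
      (s p.1).2) := (measurable_snd.comp hs).comp measurable_fst
  have h3 := h2.map (g := fun p : Ω × (((H × (E d × E d)) × (ℝ × E d)) × (Fin N → ℝ × E d)) =>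
    (p.2.1.1.1, ou η (p.2.1.1.2.1 + η • p.2.1.1.2.2 - η ^ 2 • ∑ i, (R.w i * (1 - R.t i)) • fr i p,
      p.2.1.1.2.2 - η • ∑ i, R.w i • fr i p) (s p.1).2)) (by
      unfold ou
      fun_prop)
  have e : q + (N + 1) = q + 1 + Fintype.card (Fin N) := by
    rw [Fintype.card_fin]
    ring
  rw [e]
  exact h3

/-- `n` steps with the transformed gradient field -/
theorem om_comp_run {H : Type} [MeasurableSpace H] (R : Rule m N) (ε η : ℝ)
    {S : H × E d → E d} (hS : Measurable S) {T : H × (E d × E d) → E d} (hT : Measurable T)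
    {q : ℕ} {F : (E d → ℝ) → Ω → H} (hF : Comp q F) :
    ∀ (n : ℕ) {s : Ω → Fin n → Nz N d} (_ : Measurable s),
    Comp (q + n * (N + 1)) (fun V ω => (F V ω,
      runS R (om_tgr S T (F V ω) V) ε η n ((0 : E d), (0 : E d)) (s ω))) := by
  intro n
  induction n with
  | zero =>
    intro s _
    have h1 := hF.map (g := fun p : Ω × H => (p.2, ((0 : E d), (0 : E d)))) (by fun_prop)
    rw [Nat.zero_mul]
    exact h1
  | succ n ih =>
    intro s hs
    have h1 := ih (s := fun ω i => s ω i.castSucc) (by
      refine measurable_pi_lambda _ fun i => ?_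
      exact (measurable_pi_apply _).comp hs)
    have h2 := om_comp_alg R ε η h1 (s := fun ω => s ω (Fin.last n)) ((measurable_pi_apply _).comp hs) hS hT
    have e : q + (n + 1) * (N + 1) = q + n * (N + 1) + (N + 1) := by ring
    rw [e]
    exact h2

/-- output of one level -/
theorem om_comp_out {H : Type} [MeasurableSpace H] (R : Rule m N) (ε η σ : ℝ)
    {S : H × E d → E d} (hS : Measurable S) {T : H × (E d × E d) → E d} (hT : Measurable T)
    {q : ℕ} {F : (E d → ℝ) → Ω → H} (hF : Comp q F) (n : ℕ) {s : Ω → Lz n N d} (hs : Measurable s) :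
    Comp (q + n * (N + 1)) (fun V ω => (F V ω,
      outS R (om_tgr S T (F V ω) V) ε η σ n (s ω))) := by
  have h1 := om_comp_run R ε η hS hT hF n (s := fun ω => (s ω).1) (measurable_fst.comp hs)
  have hs2 : Measurable (fun p : Ω × (H × (E d × E d)) => (s p.1).2) :=
    (measurable_snd.comp hs).comp measurable_fst
  have h2 := h1.map (g := fun p : Ω × (H × (E d × E d)) => (p.2.1, p.2.2.1 + σ • (s p.1).2)) (by
    fun_prop)
  exact h2

/-- the complete sampler with the transformed gradient field -/
theorem om_comp_samp (R : Rule m N) (ε η σ : ℝ) (n : ℕ) :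
    ∀ (J : ℕ) {H : Type} [MeasurableSpace H]
    {S : H × E d → E d} (_ : Measurable S) {T : H × (E d × E d) → E d} (_ : Measurable T)
    {q : ℕ} {F : (E d → ℝ) → Ω → H} (_ : Comp q F)
    {s : Ω → (Fin J → Lz n N d) × E d} (_ : Measurable s),
    Comp (q + (J * (n * (N + 1)) + 1)) (fun V ω => (F V ω,
      samp R ε η σ n J (om_tgr S T (F V ω) V) (s ω))) := by
  intro J
  induction J with
  | zero =>
    intro H _ S hS T hT q F hF s hs
    have h1 := hF.query (x := fun p : Ω × H => S (p.2, (0 : E d))) (hS.comp (by fun_prop))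
    have hs2 : Measurable (fun p : Ω × (H × (ℝ × E d)) => (s p.1).2) :=
      (measurable_snd.comp hs).comp measurable_fst
    have hT2 : Measurable (fun p : Ω × (H × (ℝ × E d)) => T (p.2.1, ((0 : E d), p.2.2.2))) :=
      hT.comp (by fun_prop)
    have h2 := h1.map (g := fun p : Ω × (H × (ℝ × E d)) =>
      (p.2.1, -T (p.2.1, ((0 : E d), p.2.2.2)) + (s p.1).2)) (by fun_prop)
    have e : q + (0 * (n * (N + 1)) + 1) = q + 1 := by ring
    rw [e]
    exact h2
  | succ J ih =>
    intro H _ S hS T hT q F hF s hs
    -- the level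
    let S' : H × E d → E d := fun p => S (p.1, rs ε • p.2)
    let T' : H × (E d × E d) → E d := fun p => rs ε • T (p.1, (rs ε • p.2.1, p.2.2))
    have hS' : Measurable S' := hS.comp (by fun_prop)
    have hT' : Measurable T' := by
      have : Measurable (fun p : H × (E d × E d) => T (p.1, (rs ε • p.2.1, p.2.2))) :=
        hT.comp (by fun_prop)
      exact Measurable.const_smul this (rs ε)
    have h1 := om_comp_out R ε η σ hS' hT' hF n (s := fun ω => (s ω).1 0)
      ((measurable_pi_apply _).comp (measurable_fst.comp hs))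
    -- new data
    have h2 := h1.map (g := fun p : Ω × (H × E d) => (p.2.1, rs ε • p.2.2)) (by fun_prop)
    let θ : ℝ := √(th2 ε σ)
    let S'' : (H × E d) × E d → E d := fun p => S (p.1.1, p.1.2 + θ • p.2)
    let T'' : (H × E d) × (E d × E d) → E d := fun p =>
      θ • T (p.1.1, (p.1.2 + θ • p.2.1, p.2.2)) + (1 - θ ^ 2) • p.2.1
    have hS'' : Measurable S'' := hS.comp (by fun_prop)
    have hT'' : Measurable T'' := by
      have : Measurable (fun p : (H × E d) × (E d × E d) => T (p.1.1, (p.1.2 + θ • p.2.1, p.2.2))) :=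
        hT.comp (by fun_prop)
      simp only [T'']
      fun_prop
    have htail : Measurable (fun ω : Ω => ((Fin.tail (s ω).1, (s ω).2) : (Fin J → Lz n N d) × E d)) := by
      refine Measurable.prodMk ?_ (measurable_snd.comp hs)
      refine measurable_pi_lambda _ fun i => ?_
      exact (measurable_pi_apply i.succ).comp (measurable_fst.comp hs)
    have h3 := ih (H := H × E d) hS'' hT'' h2 (s := fun ω => (Fin.tail (s ω).1, (s ω).2)) htail
    have h4 := h3.map (g := fun p : Ω × ((H × E d) × E d) => (p.2.1.1, p.2.1.2 + θ • p.2.2)) (by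
      fun_prop)
    have e : q + ((J + 1) * (n * (N + 1)) + 1) = q + n * (N + 1) + (J * (n * (N + 1)) + 1) := by ring
    rw [e]
    exact h4

end comp

instance om_gN_prob (N d : ℕ) : IsProbabilityMeasure (gN N d) := by
  unfold gN
  infer_instance

instance om_nzM_prob (N d : ℕ) : IsProbabilityMeasure (nzM N d) := by
  unfold nzM
  infer_instance

instance om_lzM_prob (n N d : ℕ) : IsProbabilityMeasure (lzM n N d) := by
  unfold lzM
  infer_instance

instance om_smM_prob (n N J d : ℕ) : IsProbabilityMeasure (smM n N J d) := by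
  unfold smM
  infer_instance

theorem model_S {m N : ℕ} (R : Rule m N) (d n J : ℕ) (ε η σ : ℝ) :
    ∃ S : Sampler d (J * (n * (N + 1)) + 1), ∀ V : E d → ℝ,
      S.law V = (smM n N J d).map (samp R ε η σ n J (gradient V)) := by
  have h0 : Comp (d := d) (Ω := (Fin J → Lz n N d) × E d) 0 (fun _ _ => ()) :=
    Comp.zero measurable_const
  have h1 := om_comp_samp (d := d) R ε η σ n J (H := Unit) (S := fun p => p.2) measurable_snd
    (T := fun p => p.2.2) (measurable_snd.comp measurable_snd) h0
    (s := fun ω => ω) measurable_id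
  have h2 := h1.map (g := fun p : ((Fin J → Lz n N d) × E d) × (Unit × E d) => p.2.2) (by fun_prop)
  have e : 0 + (J * (n * (N + 1)) + 1) = J * (n * (N + 1)) + 1 := by ring
  rw [e] at h2
  obtain ⟨query, hq, out, ho, h⟩ := h2
  refine ⟨{ Ω := (Fin J → Lz n N d) × E d
            mΩ := inferInstance
            P := smM n N J d
            prob := inferInstance
            query := query
            meas_query := hq
            out := fun ω a => out (ω, a)
            meas_out := ho }, ?_⟩
  intro V
  rw [Sampler.law]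
  congr 1
  funext ω
  rw [Sampler.answers_eq]
  exact (h V ω).symm

end P347S
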