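import Vale.Agent.P347S.Defs
import Vale.Agent.P347Q.QuadEx

/-!
Module SortRule: a quadrature rule with increasing nodes exists (`P347Q.rule_exists`, `Tuple.sort`).
-/

open MeasureTheory ProbabilityTheory Function
open scoped ENNReal BigOperators

namespace P347S

open P347Q

theorem rule_sorted (m : ℕ) : ∃ N : ℕ, 0 < N ∧ ∃ R : Rule m N, Monotone R.t := by
  obtain ⟨N, hN, ⟨R⟩⟩ := rule_exists m
  refine ⟨N, hN, ⟨R.t ∘ Tuple.sort R.t, R.w ∘ Tuple.sort R.t, fun j => R.t_mem _,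
    fun j => R.w_nonneg _, ?_⟩, Tuple.monotone_sort R.t⟩
  intro i hi
  have h := Equiv.sum_comp (Tuple.sort R.t) (fun j => R.w j * R.t j ^ i)
  rw [← R.w_exact i hi, ← h]
  rfl

end P347S
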