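import Vale.Agent.P347S.Rec
import Vale.Agent.P347S.OModel
import Vale.Agent.P347S.SortRule

/-!
Module Fin6: choice of parameters.  Given `κ > 0` put `k = min (κ/8) (1/24)`, `ε = d^{-1/6-k}`,
`η = d^{-1/6-2k}`, `σ = d^{-k/2}`, `n = ⌈C log d / η⌉` with `C` large, `m` with `m k ≥ 2`,
`J` with `J k ≥ 2` or so (`th2 ε σ ≤ 4 d^{-k}`).  Then `samp_tv` gives total variation `→ 0` and
the number of queries is `J n (N+1) + 1 ≤ d^{1/6+κ}`.
-/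

open MeasureTheory ProbabilityTheory Function
open scoped ENNReal BigOperators

namespace P347S

open P347Q

theorem Pot.cpot {d : ℕ} {V : E d → ℝ} (hV : Pot d V) : CPot 1 V :=
  ⟨hV.smooth, hV.lower, fun x w => by have := hV.upper x w; linarith⟩

/-- the number of steps of one level -/
noncomputable def nst (k : ℝ) (d : ℕ) : ℕ := ⌈8 * Real.log d * (d : ℝ) ^ (1 / 6 + 2 * k)⌉₊

theorem nst_le {k : ℝ} (_hk : 0 < k) {d : ℕ} (hd : 1 ≤ d) :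
    (nst k d : ℝ) ≤ (8 * Real.log d + 1) * (d : ℝ) ^ (1 / 6 + 2 * k) := by
  have hD1 : (1 : ℝ) ≤ d := by exact_mod_cast hd
  have hlog : 0 ≤ Real.log d := Real.log_nonneg hD1
  have hβ1 : 1 ≤ (d : ℝ) ^ (1 / 6 + 2 * k) := Real.one_le_rpow hD1 (by linarith)
  have hn1 : (nst k d : ℝ) ≤ 8 * Real.log d * (d : ℝ) ^ (1 / 6 + 2 * k) + 1 :=
    (Nat.ceil_lt_add_one (by positivity)).le
  nlinarith

theorem pow_decay {k : ℝ} (hk : 0 < k) {d : ℕ} (hd : 1 ≤ d) :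
    (1 - (d : ℝ) ^ (-(1 / 6 + 2 * k)) / 4) ^ (nst k d) ≤ (d : ℝ) ^ (-2 : ℝ) := by
  have hD : (0 : ℝ) < d := by exact_mod_cast hd
  have hD1 : (1 : ℝ) ≤ d := by exact_mod_cast hd
  have hn2 : 8 * Real.log d * (d : ℝ) ^ (1 / 6 + 2 * k) ≤ nst k d := Nat.le_ceil _
  have hη0 : 0 < (d : ℝ) ^ (-(1 / 6 + 2 * k)) := Real.rpow_pos_of_pos hD _
  have hη1 : (d : ℝ) ^ (-(1 / 6 + 2 * k)) ≤ 1 :=
    Real.rpow_le_one_of_one_le_of_nonpos hD1 (by linarith)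
  set D : ℝ := (d : ℝ) with hDdef
  set n := nst k d with hn
  have a1 : 1 - D ^ (-(1 / 6 + 2 * k)) / 4 ≤ Real.exp (-(D ^ (-(1 / 6 + 2 * k)) / 4)) := by
    have := Real.add_one_le_exp (-(D ^ (-(1 / 6 + 2 * k)) / 4))
    linarith
  have a0 : 0 ≤ 1 - D ^ (-(1 / 6 + 2 * k)) / 4 := by linarith
  calc (1 - D ^ (-(1 / 6 + 2 * k)) / 4) ^ n ≤
      (Real.exp (-(D ^ (-(1 / 6 + 2 * k)) / 4))) ^ n := by gcongr
    _ = Real.exp (n * -(D ^ (-(1 / 6 + 2 * k)) / 4)) := by rw [← Real.exp_nat_mul]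
    _ ≤ Real.exp (Real.log D * (-2)) := by
        apply Real.exp_le_exp.2
        have b1 : 8 * Real.log D ≤ n * D ^ (-(1 / 6 + 2 * k)) := by
          have b2 : 8 * Real.log D * (D ^ (1 / 6 + 2 * k) * D ^ (-(1 / 6 + 2 * k))) ≤
              n * D ^ (-(1 / 6 + 2 * k)) := by
            rw [← mul_assoc]
            gcongr
          rwa [← Real.rpow_add hD, add_neg_cancel, Real.rpow_zero, mul_one] at b2
        linarith
    _ = D ^ (-2 : ℝ) := by rw [Real.rpow_def_of_pos hD]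

theorem lvE_le {m : ℕ} {k : ℝ} (hk : 0 < k) (hk4 : k ≤ 1 / 24) (hm : 2 ≤ (m : ℝ) * k) {d : ℕ}
    (hd : 1 ≤ d) :
    lvE m d ((d : ℝ) ^ (-(1 / 6 + k))) ((d : ℝ) ^ (-(1 / 6 + 2 * k))) ((d : ℝ) ^ (-(k / 2)))
      (nst k d) ≤ (16 * Real.log d + 7) * (d : ℝ) ^ (-k) := by
  have hD : (0 : ℝ) < d := by exact_mod_cast hd
  have hD1 : (1 : ℝ) ≤ d := by exact_mod_cast hd
  have hlog : 0 ≤ Real.log d := Real.log_nonneg hD1
  have hn := nst_le hk hd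
  have hdec := pow_decay hk hd
  set D : ℝ := (d : ℝ) with hDdef
  have hsd : √D = D ^ (1 / 2 : ℝ) := Real.sqrt_eq_rpow D
  have pw : ∀ (a : ℝ) (n : ℕ), (D ^ a) ^ n = D ^ (a * n) := by
    intro a n
    rw [Real.rpow_mul hD.le, Real.rpow_natCast]
  have hm' : k * (m : ℝ) = (m : ℝ) * k := mul_comm _ _
  -- noise terms
  have t1 : √D * (nst k d : ℝ) * ((D ^ (-(1 / 6 + 2 * k))) ^ 2 * (D ^ (-(1 / 6 + k))) ^ 2) ≤
      (8 * Real.log D + 1) * D ^ (-k) := by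
    calc √D * (nst k d : ℝ) * ((D ^ (-(1 / 6 + 2 * k))) ^ 2 * (D ^ (-(1 / 6 + k))) ^ 2) ≤
        √D * ((8 * Real.log D + 1) * D ^ (1 / 6 + 2 * k)) *
          ((D ^ (-(1 / 6 + 2 * k))) ^ 2 * (D ^ (-(1 / 6 + k))) ^ 2) := by gcongr
      _ = (8 * Real.log D + 1) * (√D * D ^ (1 / 6 + 2 * k) *
          ((D ^ (-(1 / 6 + 2 * k))) ^ 2 * (D ^ (-(1 / 6 + k))) ^ 2)) := by ring
      _ ≤ (8 * Real.log D + 1) * D ^ (-k) := by
        apply mul_le_mul_of_nonneg_left _ (by positivity)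
        rw [hsd, pw, pw, ← Real.rpow_add hD, ← Real.rpow_add hD, ← Real.rpow_add hD]
        apply Real.rpow_le_rpow_of_exponent_le hD1
        push_cast
        linarith
  have t2 : √D * (nst k d : ℝ) * (D ^ (-(1 / 6 + 2 * k)) * (D ^ (-(1 / 6 + k))) ^ 3) ≤
      (8 * Real.log D + 1) * D ^ (-k) := by
    calc √D * (nst k d : ℝ) * (D ^ (-(1 / 6 + 2 * k)) * (D ^ (-(1 / 6 + k))) ^ 3) ≤
        √D * ((8 * Real.log D + 1) * D ^ (1 / 6 + 2 * k)) *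
          (D ^ (-(1 / 6 + 2 * k)) * (D ^ (-(1 / 6 + k))) ^ 3) := by gcongr
      _ = (8 * Real.log D + 1) * (√D * D ^ (1 / 6 + 2 * k) *
          (D ^ (-(1 / 6 + 2 * k)) * (D ^ (-(1 / 6 + k))) ^ 3)) := by ring
      _ ≤ (8 * Real.log D + 1) * D ^ (-k) := by
        apply mul_le_mul_of_nonneg_left _ (by positivity)
        rw [hsd, pw, ← Real.rpow_add hD, ← Real.rpow_add hD, ← Real.rpow_add hD]
        apply Real.rpow_le_rpow_of_exponent_le hD1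
        push_cast
        linarith
  -- local error terms
  have l1 : √D * (D ^ (-(1 / 6 + 2 * k)) * (D ^ (-(1 / 6 + 2 * k))) ^ 3) /
      (D ^ (-(k / 2)) * D ^ (-(1 / 6 + 2 * k))) ≤ D ^ (-k) := by
    rw [hsd, pw, ← Real.rpow_add hD, ← Real.rpow_add hD, ← Real.rpow_add hD, ← Real.rpow_sub hD]
    apply Real.rpow_le_rpow_of_exponent_le hD1
    push_cast
    linarith
  have l2 : √D * (D ^ (-(1 / 6 + 2 * k)) * ((D ^ (-(1 / 6 + 2 * k))) ^ 2 * D ^ (-(1 / 6 + k)))) /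
      (D ^ (-(k / 2)) * D ^ (-(1 / 6 + 2 * k))) ≤ D ^ (-k) := by
    rw [hsd, pw, ← Real.rpow_add hD, ← Real.rpow_add hD, ← Real.rpow_add hD, ← Real.rpow_add hD,
      ← Real.rpow_sub hD]
    apply Real.rpow_le_rpow_of_exponent_le hD1
    push_cast
    linarith
  have l3 : √D * (D ^ (-(1 / 6 + 2 * k)) * (D ^ (-(1 / 6 + 2 * k)) * (D ^ (-(1 / 6 + k))) ^ 2)) /
      (D ^ (-(k / 2)) * D ^ (-(1 / 6 + 2 * k))) ≤ D ^ (-k) := by
    rw [hsd, pw, ← Real.rpow_add hD, ← Real.rpow_add hD, ← Real.rpow_add hD, ← Real.rpow_add hD,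
      ← Real.rpow_sub hD]
    apply Real.rpow_le_rpow_of_exponent_le hD1
    push_cast
    linarith
  have l4 : √D * (D ^ (-(1 / 6 + k)) * (D ^ (-(1 / 6 + 2 * k)) / D ^ (-(1 / 6 + k))) ^ m) /
      (D ^ (-(k / 2)) * D ^ (-(1 / 6 + 2 * k))) ≤ D ^ (-k) := by
    rw [hsd, ← Real.rpow_sub hD, pw, ← Real.rpow_add hD, ← Real.rpow_add hD, ← Real.rpow_add hD,
      ← Real.rpow_sub hD]
    apply Real.rpow_le_rpow_of_exponent_le hD1
    have : (-(1 / 6 + 2 * k) - -(1 / 6 + k)) * (m : ℝ) = -((m : ℝ) * k) := by ring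
    rw [this]
    linarith
  -- cold start
  have c1 : (1 - D ^ (-(1 / 6 + 2 * k)) / 4) ^ (nst k d) / D ^ (-(k / 2)) * √D ≤ D ^ (-k) := by
    calc (1 - D ^ (-(1 / 6 + 2 * k)) / 4) ^ (nst k d) / D ^ (-(k / 2)) * √D ≤
        D ^ (-2 : ℝ) / D ^ (-(k / 2)) * √D := by gcongr
      _ ≤ D ^ (-k) := by
        rw [hsd, ← Real.rpow_sub hD, ← Real.rpow_add hD]
        apply Real.rpow_le_rpow_of_exponent_le hD1
        linarith
  unfold lvE locE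
  rw [← hDdef] at *
  have e : √D * (nst k d : ℝ) * ((D ^ (-(1 / 6 + 2 * k))) ^ 2 * (D ^ (-(1 / 6 + k))) ^ 2 +
        D ^ (-(1 / 6 + 2 * k)) * (D ^ (-(1 / 6 + k))) ^ 3) +
      √D * (D ^ (-(1 / 6 + 2 * k)) * ((D ^ (-(1 / 6 + 2 * k))) ^ 3 +
        (D ^ (-(1 / 6 + 2 * k))) ^ 2 * D ^ (-(1 / 6 + k)) +
        D ^ (-(1 / 6 + 2 * k)) * (D ^ (-(1 / 6 + k))) ^ 2) +
        D ^ (-(1 / 6 + k)) * (D ^ (-(1 / 6 + 2 * k)) / D ^ (-(1 / 6 + k))) ^ m) /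
        (D ^ (-(k / 2)) * D ^ (-(1 / 6 + 2 * k))) +
      (1 - D ^ (-(1 / 6 + 2 * k)) / 4) ^ (nst k d) / D ^ (-(k / 2)) * √D =
      √D * (nst k d : ℝ) * ((D ^ (-(1 / 6 + 2 * k))) ^ 2 * (D ^ (-(1 / 6 + k))) ^ 2) +
      √D * (nst k d : ℝ) * (D ^ (-(1 / 6 + 2 * k)) * (D ^ (-(1 / 6 + k))) ^ 3) +
      √D * (D ^ (-(1 / 6 + 2 * k)) * (D ^ (-(1 / 6 + 2 * k))) ^ 3) /
        (D ^ (-(k / 2)) * D ^ (-(1 / 6 + 2 * k))) +
      √D * (D ^ (-(1 / 6 + 2 * k)) * ((D ^ (-(1 / 6 + 2 * k))) ^ 2 * D ^ (-(1 / 6 + k)))) /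
        (D ^ (-(k / 2)) * D ^ (-(1 / 6 + 2 * k))) +
      √D * (D ^ (-(1 / 6 + 2 * k)) * (D ^ (-(1 / 6 + 2 * k)) * (D ^ (-(1 / 6 + k))) ^ 2)) /
        (D ^ (-(k / 2)) * D ^ (-(1 / 6 + 2 * k))) +
      √D * (D ^ (-(1 / 6 + k)) * (D ^ (-(1 / 6 + 2 * k)) / D ^ (-(1 / 6 + k))) ^ m) /
        (D ^ (-(k / 2)) * D ^ (-(1 / 6 + 2 * k))) +
      (1 - D ^ (-(1 / 6 + 2 * k)) / 4) ^ (nst k d) / D ^ (-(k / 2)) * √D := by ring
  rw [e]
  linarith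

theorem th2_le {k : ℝ} (hk : 0 < k) {d : ℕ} (hd : 1 ≤ d)
    (he : (d : ℝ) ^ (-(1 / 6 + k)) ≤ 1 / 4) :
    0 ≤ th2 ((d : ℝ) ^ (-(1 / 6 + k))) ((d : ℝ) ^ (-(k / 2))) ∧
    th2 ((d : ℝ) ^ (-(1 / 6 + k))) ((d : ℝ) ^ (-(k / 2))) ≤ 3 * (d : ℝ) ^ (-k) := by
  have hD : (0 : ℝ) < d := by exact_mod_cast hd
  have hD1 : (1 : ℝ) ≤ d := by exact_mod_cast hd
  set D : ℝ := (d : ℝ) with hDdef
  have hε0 : 0 < D ^ (-(1 / 6 + k)) := Real.rpow_pos_of_pos hD _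
  have hσ0 : 0 < D ^ (-(k / 2)) := Real.rpow_pos_of_pos hD _
  have hεσ : D ^ (-(1 / 6 + k)) ≤ D ^ (-(k / 2)) :=
    Real.rpow_le_rpow_of_exponent_le hD1 (by linarith)
  have hσ2 : (D ^ (-(k / 2))) ^ 2 = D ^ (-k) := by
    rw [← Real.rpow_natCast, ← Real.rpow_mul hD.le]
    congr 1
    push_cast
    ring
  have hr : (rs (D ^ (-(1 / 6 + k)))) ^ 2 ≤ 3 / 2 := by
    unfold rs
    rw [inv_pow, Real.sq_sqrt (by nlinarith)]
    rw [inv_le_comm₀ (by nlinarith) (by norm_num)]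
    nlinarith
  have hr0 : 0 ≤ (rs (D ^ (-(1 / 6 + k)))) ^ 2 := sq_nonneg _
  have hτ : tau2 (D ^ (-(1 / 6 + k))) (D ^ (-(k / 2))) ≤ 3 * D ^ (-k) := by
    unfold tau2
    have h1 : (D ^ (-(1 / 6 + k))) ^ 2 ≤ D ^ (-k) := by
      rw [← hσ2]
      gcongr
    rw [hσ2]
    have h2 : (D ^ (-(1 / 6 + k))) ^ 2 + D ^ (-k) ≤ 2 * D ^ (-k) := by linarith
    have h3 : 0 ≤ (D ^ (-(1 / 6 + k))) ^ 2 + D ^ (-k) := by positivity
    calc (rs (D ^ (-(1 / 6 + k)))) ^ 2 * ((D ^ (-(1 / 6 + k))) ^ 2 + D ^ (-k)) ≤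
        3 / 2 * (2 * D ^ (-k)) := mul_le_mul hr h2 h3 (by norm_num)
      _ = 3 * D ^ (-k) := by ring
  have hτ0 : 0 ≤ tau2 (D ^ (-(1 / 6 + k))) (D ^ (-(k / 2))) := by
    unfold tau2
    positivity
  unfold th2
  refine ⟨by positivity, ?_⟩
  refine le_trans ?_ hτ
  apply div_le_self hτ0
  linarith

theorem param_lim6 {k : ℝ} (hk : 0 < k) (A B : ℝ) :
    Filter.Tendsto (fun d : ℕ => A * ((16 * Real.log d + 7) * (d : ℝ) ^ (-k)) +
      B * (d : ℝ) ^ (-1 : ℝ)) Filter.atTop (nhds 0) := by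
  have h1 : Filter.Tendsto (fun D : ℝ => Real.log D * D ^ (-k)) Filter.atTop (nhds 0) := by
    have := (isLittleO_log_rpow_atTop (r := k) (by positivity)).tendsto_div_nhds_zero
    refine this.congr' ?_
    filter_upwards [Filter.eventually_gt_atTop 0] with D hD
    rw [Real.rpow_neg hD.le, div_eq_mul_inv]
  have h2 : Filter.Tendsto (fun D : ℝ => D ^ (-k)) Filter.atTop (nhds 0) :=
    tendsto_rpow_neg_atTop hk
  have h4 : Filter.Tendsto (fun D : ℝ => D ^ (-1 : ℝ)) Filter.atTop (nhds 0) :=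
    tendsto_rpow_neg_atTop one_pos
  have h3 : Filter.Tendsto (fun D : ℝ => A * ((16 * Real.log D + 7) * D ^ (-k)) +
      B * D ^ (-1 : ℝ)) Filter.atTop (nhds 0) := by
    have := (((h1.const_mul 16).add (h2.const_mul 7)).const_mul A).add (h4.const_mul B)
    simp only [mul_zero, add_zero] at this
    refine this.congr fun D => ?_
    ring
  exact h3.comp tendsto_natCast_atTop_atTop

theorem query_lim6 {k κ : ℝ} (hκ : 2 * k < κ) (hk : 0 < k) (M : ℝ) (_hM : 0 ≤ M) :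
    ∀ᶠ d : ℕ in Filter.atTop,
      M * ((8 * Real.log d + 1) * (d : ℝ) ^ (1 / 6 + 2 * k)) + 1 ≤ (d : ℝ) ^ (1 / 6 + κ) := by
  have h1 : Filter.Tendsto (fun D : ℝ => Real.log D * D ^ (-(κ - 2 * k))) Filter.atTop (nhds 0) := by
    have := (isLittleO_log_rpow_atTop (r := κ - 2 * k) (by linarith)).tendsto_div_nhds_zero
    refine this.congr' ?_
    filter_upwards [Filter.eventually_gt_atTop 0] with D hD
    rw [Real.rpow_neg hD.le, div_eq_mul_inv]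
  have h2 : Filter.Tendsto (fun D : ℝ => D ^ (-(κ - 2 * k))) Filter.atTop (nhds 0) :=
    tendsto_rpow_neg_atTop (by linarith)
  have h3 : Filter.Tendsto (fun D : ℝ => (8 * Real.log D + 1) * D ^ (-(κ - 2 * k)) * M +
      D ^ (-(κ - 2 * k))) Filter.atTop (nhds 0) := by
    have := (((h1.const_mul 8).add h2).mul_const M).add h2
    simp only [mul_zero, add_zero, zero_mul] at this
    refine this.congr fun D => ?_
    ring
  have h4 := h3.comp tendsto_natCast_atTop_atTop (α := ℕ)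
  filter_upwards [h4.eventually (gt_mem_nhds (zero_lt_one)), Filter.eventually_ge_atTop 1]
    with d hd1 hd2
  have hD : (0 : ℝ) < d := by exact_mod_cast hd2
  have hD1 : (1 : ℝ) ≤ d := by exact_mod_cast hd2
  simp only [Function.comp_apply] at hd1
  have e : (d : ℝ) ^ (1 / 6 + 2 * k) = (d : ℝ) ^ (-(κ - 2 * k)) * (d : ℝ) ^ (1 / 6 + κ) := by
    rw [← Real.rpow_add hD]
    congr 1
    ring
  have hpos : 0 < (d : ℝ) ^ (1 / 6 + κ) := Real.rpow_pos_of_pos hD _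
  have h1' : (1 : ℝ) ≤ (d : ℝ) ^ (-(κ - 2 * k)) * (d : ℝ) ^ (1 / 6 + κ) := by
    rw [← e]
    exact Real.one_le_rpow hD1 (by linarith)
  calc M * ((8 * Real.log d + 1) * (d : ℝ) ^ (1 / 6 + 2 * k)) + 1 ≤
      M * ((8 * Real.log d + 1) * ((d : ℝ) ^ (-(κ - 2 * k)) * (d : ℝ) ^ (1 / 6 + κ))) +
        (d : ℝ) ^ (-(κ - 2 * k)) * (d : ℝ) ^ (1 / 6 + κ) := by
        rw [e]
        linarith
    _ = ((8 * Real.log d + 1) * (d : ℝ) ^ (-(κ - 2 * k)) * M + (d : ℝ) ^ (-(κ - 2 * k))) *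
        (d : ℝ) ^ (1 / 6 + κ) := by ring
    _ ≤ 1 * (d : ℝ) ^ (1 / 6 + κ) := by gcongr
    _ = _ := one_mul _

theorem final6 (κ : ℝ) (hκ : 0 < κ) :
    ∀ᶠ d : ℕ in Filter.atTop, ∃ q : ℕ, (q : ℝ) ≤ (d : ℝ) ^ (1 / 6 + κ) ∧ Suff d q := by
  set k : ℝ := min (κ / 8) (1 / 24) with hk
  have hk0 : 0 < k := lt_min (by positivity) (by norm_num)
  have hk24 : k ≤ 1 / 24 := min_le_right _ _
  have hkκ : 2 * k < κ := by
    have := min_le_left (κ / 8) (1 / 24 : ℝ)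
    linarith
  obtain ⟨m, hm⟩ := exists_nat_ge (2 / k + 2)
  have hmk : 2 ≤ (m : ℝ) * k := by
    have : 2 / k ≤ m := by linarith
    rwa [div_le_iff₀ hk0] at this
  have hm2 : 2 ≤ m := by
    have : (2 : ℝ) ≤ m := by
      have : 0 ≤ 2 / k := by positivity
      linarith
    exact_mod_cast this
  obtain ⟨N, _, R, hR⟩ := rule_sorted m
  obtain ⟨C, c0, hC, hc0, hc4, hsamp⟩ := samp_tv R hm2 hR
  have hη : Filter.Tendsto (fun d : ℕ => (d : ℝ) ^ (-(1 / 6 + 2 * k))) Filter.atTop (nhds 0) :=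
    (tendsto_rpow_neg_atTop (by positivity)).comp tendsto_natCast_atTop_atTop
  have hε : Filter.Tendsto (fun d : ℕ => (d : ℝ) ^ (-(1 / 6 + k))) Filter.atTop (nhds 0) :=
    (tendsto_rpow_neg_atTop (by positivity)).comp tendsto_natCast_atTop_atTop
  have hσ : Filter.Tendsto (fun d : ℕ => (d : ℝ) ^ (-(k / 2))) Filter.atTop (nhds 0) :=
    (tendsto_rpow_neg_atTop (by positivity)).comp tendsto_natCast_atTop_atTop
  filter_upwards [hη.eventually (gt_mem_nhds hc0), hε.eventually (gt_mem_nhds hc0),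
    hσ.eventually (gt_mem_nhds (by norm_num : (0 : ℝ) < 1 / 2)),
    (param_lim6 hk0 (C * m) (C * 3 ^ m)).eventually (gt_mem_nhds (by norm_num : (0 : ℝ) < 1 / 10)),
    query_lim6 hkκ hk0 ((m : ℝ) * (N + 1)) (by positivity), Filter.eventually_ge_atTop 1]
    with d h1 h1' h1'' h2 h3 h4
  have hD : (0 : ℝ) < d := by exact_mod_cast h4
  have hD1 : (1 : ℝ) ≤ d := by exact_mod_cast h4
  have hn := nst_le hk0 h4
  refine ⟨m * (nst k d * (N + 1)) + 1, ?_, ?_⟩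
  · push_cast
    refine le_trans ?_ h3
    have : (m : ℝ) * ((nst k d : ℝ) * (N + 1)) = (m * (N + 1)) * (nst k d : ℝ) := by ring
    rw [this]
    gcongr
  · obtain ⟨S, hS⟩ := model_S R d (nst k d) m ((d : ℝ) ^ (-(1 / 6 + k)))
      ((d : ℝ) ^ (-(1 / 6 + 2 * k))) ((d : ℝ) ^ (-(k / 2)))
    refine ⟨S, fun V hV B hB => ?_⟩
    rw [hS V]
    have hmx := hsamp m d V 1 ((d : ℝ) ^ (-(1 / 6 + k))) ((d : ℝ) ^ (-(1 / 6 + 2 * k)))
      ((d : ℝ) ^ (-(k / 2))) (Pot.cpot hV) zero_le_one le_rfl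
      (Real.rpow_pos_of_pos hD _) h1'.le (Real.rpow_pos_of_pos hD _) h1.le
      (Real.rpow_pos_of_pos hD _) h1''.le (nst k d)
    have hlv := lvE_le hk0 hk24 hmk h4
    obtain ⟨hth0, hth⟩ := th2_le hk0 h4 (h1'.le.trans hc4)
    rw [hV.grad_zero, norm_zero] at hmx
    have hmx2 := hmx (B.indicator 1) (measurable_one.indicator hB)
      (fun x => Set.indicator_nonneg (fun _ _ => zero_le_one) x)
      (fun x => Set.indicator_le' (fun _ _ => le_refl _) (fun _ _ => zero_le_one) x)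
    rw [integral_indicator_one hB, integral_indicator_one hB] at hmx2
    refine hmx2.trans (le_trans ?_ h2.le)
    have hpow : (th2 ((d : ℝ) ^ (-(1 / 6 + k))) ((d : ℝ) ^ (-(k / 2)))) ^ m * d ≤
        3 ^ m * (d : ℝ) ^ (-1 : ℝ) := by
      calc (th2 ((d : ℝ) ^ (-(1 / 6 + k))) ((d : ℝ) ^ (-(k / 2)))) ^ m * d ≤
          (3 * (d : ℝ) ^ (-k)) ^ m * d := by gcongr
        _ = 3 ^ m * ((d : ℝ) ^ (-k * m) * (d : ℝ) ^ (1 : ℝ)) := by
          rw [mul_pow, Real.rpow_mul hD.le, Real.rpow_natCast, Real.rpow_one, mul_assoc]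
        _ ≤ 3 ^ m * (d : ℝ) ^ (-1 : ℝ) := by
          rw [← Real.rpow_add hD]
          apply mul_le_mul_of_nonneg_left _ (by positivity)
          apply Real.rpow_le_rpow_of_exponent_le hD1
          have : -k * (m : ℝ) = -((m : ℝ) * k) := by ring
          rw [this]
          linarith
    have e1 : C * (m * lvE m d ((d : ℝ) ^ (-(1 / 6 + k))) ((d : ℝ) ^ (-(1 / 6 + 2 * k)))
        ((d : ℝ) ^ (-(k / 2))) (nst k d) + (1 - (d : ℝ) ^ (-(1 / 6 + 2 * k)) / 4) ^ (nst k d) /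
          (d : ℝ) ^ (-(k / 2)) * 0) ≤ C * m * ((16 * Real.log d + 7) * (d : ℝ) ^ (-k)) := by
      rw [mul_zero, add_zero, mul_assoc]
      gcongr
    have e2 : C * 1 * (th2 ((d : ℝ) ^ (-(1 / 6 + k))) ((d : ℝ) ^ (-(k / 2)))) ^ m *
        (d + 0 ^ 2) ≤ C * 3 ^ m * (d : ℝ) ^ (-1 : ℝ) := by
      have : C * 1 * (th2 ((d : ℝ) ^ (-(1 / 6 + k))) ((d : ℝ) ^ (-(k / 2)))) ^ m * (d + 0 ^ 2) =
          C * ((th2 ((d : ℝ) ^ (-(1 / 6 + k))) ((d : ℝ) ^ (-(k / 2)))) ^ m * d) := by ring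
      rw [this, mul_assoc C]
      gcongr
    linarith

end P347S
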