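import Vale.Agent.P347S.Defs
import Vale.Agent.P347S.InnerDiffA

/-!
Module InnerDiff: pure ODE estimates for the exact flow interleaved with velocity kicks
`p ↦ p - η w_k e_k` at the nodes.

Proofs.  (a) two solutions of the flow: `δy(r) = δy(0) + r δp(0) - ∫_0^r (r-v) δ∇U(v) dv`,
`δp(r) = δp(0) - ∫_0^r δ∇U(v) dv`, `|δ∇U| ≤ 2 |δy|`; hence for `0 ≤ r ≤ 1/4`
`sup_{v≤r}|δy(v)| ≤ 2(|δy(0)| + r |δp(0)|)` and `flow_diff`.
(b) induction over `k ≤ N` for the difference between the kicked path and the flow of `z`: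
`Δp_k = -η ∑_{i<k} w_i e_i + O(η³ M)`, `Δy_k = -η² ∑_{i<k} w_i (t_{k-1} - t_i) e_i + O(η⁴ M)`
(state right after kick number `k-1`, at time `η t_{k-1} = η prv k`), `M = ∑ w_i |e_i|`.
-/

open MeasureTheory ProbabilityTheory Function
open scoped ENNReal BigOperators

namespace P347S

open P347Q

variable {d : ℕ} {U : E d → ℝ}

/-- exact flow interleaved with the velocity kicks `p ↦ p - η w_k e_k` -/
noncomputable def kst {m N : ℕ} (R : Rule m N) (η : ℝ) (Φ : ℝ → E d × E d → E d × E d)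
    (e : ℕ → E d) : ℕ → E d × E d → E d × E d
  | 0, z => z
  | k + 1, z =>
    ((Φ (η * (nd R k - prv R k)) (kst R η Φ e k z)).1,
      (Φ (η * (nd R k - prv R k)) (kst R η Φ e k z)).2 - (η * wt R k) • e k)

/-- position at node `k` (before the kick) -/
noncomputable def kpos {m N : ℕ} (R : Rule m N) (η : ℝ) (Φ : ℝ → E d × E d → E d × E d)
    (e : ℕ → E d) (k : ℕ) (z : E d × E d) : E d :=
  (Φ (η * (nd R k - prv R k)) (kst R η Φ e k z)).1

theorem idf_sol (_hU : SPot U) {Φ : ℝ → E d × E d → E d × E d} (hΦ : IsFlow U Φ) {T : ℝ}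
    (hT1 : T ≤ 1 / 4) (z : E d × E d) :
    P347SA.Sol (gradient U) T (fun s => Φ s z) := by
  intro s hs
  exact (hΦ.deriv z s ⟨hs.1, hs.2.trans hT1⟩).mono (Set.Icc_subset_Icc le_rfl hT1)

/-- dependence of the flow on the initial state -/
theorem flow_diff (hU : SPot U) {Φ : ℝ → E d × E d → E d × E d} (hΦ : IsFlow U Φ) {r : ℝ}
    (h0 : 0 ≤ r) (h1 : r ≤ 1 / 4) (a b : E d × E d) :
    ‖(Φ r a).1 - (Φ r b).1 - ((a.1 - b.1) + r • (a.2 - b.2))‖ ≤
        4 * r ^ 2 * (‖a.1 - b.1‖ + r * ‖a.2 - b.2‖) ∧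
    ‖(Φ r a).2 - (Φ r b).2 - (a.2 - b.2)‖ ≤ 4 * r * (‖a.1 - b.1‖ + r * ‖a.2 - b.2‖) := by
  have := P347SA.sol_diff (hU.grad_lip) (idf_sol hU hΦ h1 a) (idf_sol hU hΦ h1 b) h0 h1
  simpa [hΦ.zero] using this

/-- the flow has the semigroup property on `[0, 1/4]` -/
theorem flow_add (hU : SPot U) {Φ : ℝ → E d × E d → E d × E d} (hΦ : IsFlow U Φ) {r s : ℝ}
    (hr : 0 ≤ r) (hs : 0 ≤ s) (h1 : r + s ≤ 1 / 4) (z : E d × E d) :
    Φ (r + s) z = Φ s (Φ r z) := by
  have hA : P347SA.Sol (gradient U) s (fun u => Φ (r + u) z) := by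
    intro u hu
    have h2 := hΦ.deriv z (r + u) ⟨by have := hu.1; linarith, by have := hu.2; linarith⟩
    have h3 : HasDerivWithinAt (fun u : ℝ => r + u) 1 (Set.Icc (0 : ℝ) s) u := by
      simpa using (hasDerivWithinAt_id u _).const_add r
    have h4 := h2.scomp u h3 (fun v hv => ⟨by have := hv.1; linarith, by have := hv.2; linarith⟩)
    simpa [Function.comp_def] using h4
  have hB := idf_sol hU hΦ (T := s) (by linarith) (Φ r z)
  have h := P347SA.sol_diff (hU.grad_lip) hA hB hs (by linarith)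
  simp only [hΦ.zero, add_zero, sub_self, smul_zero, norm_zero, mul_zero, add_zero, sub_zero] at h
  refine Prod.ext ?_ ?_
  · exact sub_eq_zero.1 (norm_le_zero_iff.1 h.1)
  · exact sub_eq_zero.1 (norm_le_zero_iff.1 h.2)

/-- short time expansion of the flow -/
theorem flow_short (hU : SPot U) {Φ : ℝ → E d × E d → E d × E d} (hΦ : IsFlow U Φ) {r : ℝ}
    (h0 : 0 ≤ r) (h1 : r ≤ 1 / 4) (z : E d × E d) :
    ‖(Φ r z).1 - z.1‖ ≤ 2 * r * (‖z.2‖ + r * ‖gradient U z.1‖) ∧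
    ‖(Φ r z).1 - (z.1 + r • z.2 - (r ^ 2 / 2) • gradient U z.1)‖ ≤
      2 * r ^ 3 * (‖z.2‖ + r * ‖gradient U z.1‖) := by
  have := P347SA.sol_short (hU.grad_lip) (idf_sol hU hΦ h1 z) h0 h1
  simpa [hΦ.zero] using this

section nodes

variable {m N : ℕ}

theorem idf_nd (R : Rule m N) (k : ℕ) : nd R k ∈ Set.Icc (0 : ℝ) 1 := by
  unfold nd
  split_ifs with h
  · exact R.t_mem _
  · exact ⟨zero_le_one, le_rfl⟩

theorem idf_nd_mono (R : Rule m N) (hR : Monotone R.t) {j k : ℕ} (h : j ≤ k) :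
    nd R j ≤ nd R k := by
  by_cases hk : k < N
  · have hj : j < N := lt_of_le_of_lt h hk
    simp only [nd, hk, hj, dite_true]
    exact hR (by simpa using h)
  · have : nd R k = 1 := by simp [nd, hk]
    rw [this]
    exact (idf_nd R j).2

theorem idf_prv (R : Rule m N) (k : ℕ) : prv R k ∈ Set.Icc (0 : ℝ) 1 := by
  cases k with
  | zero => exact ⟨le_rfl, zero_le_one⟩
  | succ k => exact idf_nd R k

theorem idf_prv_nd (R : Rule m N) (hR : Monotone R.t) (k : ℕ) : prv R k ≤ nd R k := by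
  cases k with
  | zero => exact (idf_nd R 0).1
  | succ k => exact idf_nd_mono R hR (Nat.le_succ k)

theorem idf_nd_prv (R : Rule m N) (hR : Monotone R.t) {j k : ℕ} (h : j < k) :
    nd R j ≤ prv R k := by
  cases k with
  | zero => omega
  | succ k => exact idf_nd_mono R hR (Nat.lt_succ_iff.1 h)

theorem idf_wt (R : Rule m N) (k : ℕ) : 0 ≤ wt R k := by
  unfold wt
  split_ifs with h
  · exact R.w_nonneg _
  · exact le_rfl

/-- partial sums -/
noncomputable def sU (R : Rule m N) (e : ℕ → E d) (k : ℕ) : E d :=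
  ∑ j ∈ Finset.range k, wt R j • e j

noncomputable def sV (R : Rule m N) (e : ℕ → E d) (c : ℝ) (k : ℕ) : E d :=
  ∑ j ∈ Finset.range k, (wt R j * (c - nd R j)) • e j

noncomputable def sM (R : Rule m N) (e : ℕ → E d) (k : ℕ) : ℝ :=
  ∑ j ∈ Finset.range k, wt R j * ‖e j‖

theorem sM_nonneg (R : Rule m N) (e : ℕ → E d) (k : ℕ) : 0 ≤ sM R e k :=
  Finset.sum_nonneg fun j _ => mul_nonneg (idf_wt R j) (norm_nonneg _)

theorem sM_mono (R : Rule m N) (e : ℕ → E d) {j k : ℕ} (h : j ≤ k) : sM R e j ≤ sM R e k :=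
  Finset.sum_le_sum_of_subset_of_nonneg (Finset.range_mono h)
    fun j _ _ => mul_nonneg (idf_wt R j) (norm_nonneg _)

theorem sU_le (R : Rule m N) (e : ℕ → E d) (k : ℕ) : ‖sU R e k‖ ≤ sM R e k := by
  refine (norm_sum_le _ _).trans (le_of_eq ?_)
  refine Finset.sum_congr rfl fun j _ => ?_
  rw [norm_smul, Real.norm_of_nonneg (idf_wt R j)]

theorem sV_le (R : Rule m N) (e : ℕ → E d) {c : ℝ} (k : ℕ)
    (h : ∀ j < k, nd R j ≤ c) (hc : c ≤ 1) : ‖sV R e c k‖ ≤ sM R e k := by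
  refine (norm_sum_le _ _).trans ?_
  refine Finset.sum_le_sum fun j hj => ?_
  have hj' := h j (Finset.mem_range.1 hj)
  have h0 := (idf_nd R j).1
  rw [norm_smul, Real.norm_of_nonneg (mul_nonneg (idf_wt R j) (by linarith))]
  refine mul_le_mul_of_nonneg_right ?_ (norm_nonneg _)
  have := idf_wt R j
  nlinarith

theorem sV_shift (R : Rule m N) (e : ℕ → E d) (c c' : ℝ) (k : ℕ) :
    sV R e c k + (c' - c) • sU R e k = sV R e c' k := by
  unfold sV sU
  rw [Finset.smul_sum, ← Finset.sum_add_distrib]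
  refine Finset.sum_congr rfl fun j _ => ?_
  rw [smul_smul, ← add_smul]
  congr 1
  ring

theorem sV_succ (R : Rule m N) (e : ℕ → E d) (k : ℕ) :
    sV R e (nd R k) (k + 1) = sV R e (nd R k) k := by
  unfold sV
  rw [Finset.sum_range_succ]
  simp

theorem sM_fin (R : Rule m N) (e : ℕ → E d) : sM R e N = ∑ j : Fin N, R.w j * ‖e j‖ := by
  unfold sM
  rw [Finset.sum_range]
  refine Finset.sum_congr rfl fun j _ => ?_
  simp [wt]

theorem sU_fin (R : Rule m N) (e : ℕ → E d) : sU R e N = ∑ j : Fin N, R.w j • e j := by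
  unfold sU
  rw [Finset.sum_range]
  refine Finset.sum_congr rfl fun j _ => ?_
  simp [wt]

theorem sV_fin (R : Rule m N) (e : ℕ → E d) :
    sV R e 1 N = ∑ j : Fin N, (R.w j * (1 - R.t j)) • e j := by
  unfold sV
  rw [Finset.sum_range]
  refine Finset.sum_congr rfl fun j _ => ?_
  simp [wt, nd]

/-- the flow step between two nodes -/
theorem idf_step (R : Rule m N) (hR : Monotone R.t) (hU : SPot U)
    {Φ : ℝ → E d × E d → E d × E d} (hΦ : IsFlow U Φ) {η : ℝ} (hη : 0 < η) (hη1 : η ≤ 1 / 4)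
    (e : ℕ → E d) (z : E d × E d) (k : ℕ) {A c : ℝ} (hA : 0 ≤ A) (hc : prv R k ≤ c) (hc1 : c ≤ 1)
    (hb : ‖(kst R η Φ e k z).2 - (Φ (η * prv R k) z).2 + η • sU R e k‖ ≤ A * η ^ 3 * sM R e k)
    (ha : ‖(kst R η Φ e k z).1 - (Φ (η * prv R k) z).1 + η ^ 2 • sV R e (prv R k) k‖ ≤
      A * η ^ 4 * sM R e k) :
    ‖(Φ (η * (c - prv R k)) (kst R η Φ e k z)).1 - (Φ (η * c) z).1 + η ^ 2 • sV R e c k‖ ≤
      (5 / 2 * A + 8) * η ^ 4 * sM R e k ∧
    ‖(Φ (η * (c - prv R k)) (kst R η Φ e k z)).2 - (Φ (η * c) z).2 + η • sU R e k‖ ≤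
      (5 / 2 * A + 8) * η ^ 3 * sM R e k := by
  have hp := idf_prv R k
  have hp0 := hp.1
  have hδ : 0 ≤ c - prv R k := by linarith
  have hδ1 : c - prv R k ≤ 1 := by linarith
  have hr0 : 0 ≤ η * (c - prv R k) := mul_nonneg hη.le hδ
  have hr1 : η * (c - prv R k) ≤ 1 / 4 := by nlinarith
  have hadd : Φ (η * c) z = Φ (η * (c - prv R k)) (Φ (η * prv R k) z) := by
    rw [← flow_add hU hΦ (mul_nonneg hη.le hp0) hr0 (by nlinarith) z]
    congr 1
    ring
  have hd := flow_diff hU hΦ hr0 hr1 (kst R η Φ e k z) (Φ (η * prv R k) z)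
  rw [← hadd] at hd
  have h := P347SA.node_step (u := sU R e k) (v := sV R e (prv R k) k)
    (a := (kst R η Φ e k z).1 - (Φ (η * prv R k) z).1)
    (b := (kst R η Φ e k z).2 - (Φ (η * prv R k) z).2)
    (a' := (Φ (η * (c - prv R k)) (kst R η Φ e k z)).1 - (Φ (η * c) z).1)
    (b' := (Φ (η * (c - prv R k)) (kst R η Φ e k z)).2 - (Φ (η * c) z).2)
    hA (sM_nonneg R e k) hη hη1 hδ hδ1 (sU_le R e k)
    (sV_le R e k (fun j hj => idf_nd_prv R hR hj) hp.2) hb ha hd.1 hd.2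
  rw [sV_shift] at h
  exact h

theorem idf_ind (R : Rule m N) (hR : Monotone R.t) (hU : SPot U)
    {Φ : ℝ → E d × E d → E d × E d} (hΦ : IsFlow U Φ) {η : ℝ} (hη : 0 < η) (hη1 : η ≤ 1 / 4)
    (e : ℕ → E d) (z : E d × E d) (k : ℕ) :
    ‖(kst R η Φ e k z).2 - (Φ (η * prv R k) z).2 + η • sU R e k‖ ≤
      (16 : ℝ) ^ k * η ^ 3 * sM R e k ∧
    ‖(kst R η Φ e k z).1 - (Φ (η * prv R k) z).1 + η ^ 2 • sV R e (prv R k) k‖ ≤
      (16 : ℝ) ^ k * η ^ 4 * sM R e k := by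
  induction k with
  | zero => simp [kst, prv, sU, sV, sM, hΦ.zero]
  | succ k ih =>
    obtain ⟨hb, ha⟩ := ih
    have h := idf_step R hR hU hΦ hη hη1 e z k (A := (16 : ℝ) ^ k) (c := nd R k)
      (by positivity) (idf_prv_nd R hR k) (idf_nd R k).2 hb ha
    have h16 : (5 / 2 * (16 : ℝ) ^ k + 8) ≤ (16 : ℝ) ^ (k + 1) := by
      have : (1 : ℝ) ≤ (16 : ℝ) ^ k := one_le_pow₀ (by norm_num)
      rw [pow_succ]
      linarith
    have hMm := sM_mono R e (Nat.le_succ k)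
    have hM0 := sM_nonneg R e k
    constructor
    · have e1 : (kst R η Φ e (k + 1) z).2 - (Φ (η * prv R (k + 1)) z).2 + η • sU R e (k + 1) =
          (Φ (η * (nd R k - prv R k)) (kst R η Φ e k z)).2 - (Φ (η * nd R k) z).2 +
            η • sU R e k := by
        have : sU R e (k + 1) = sU R e k + wt R k • e k := by
          unfold sU; rw [Finset.sum_range_succ]
        rw [this]
        simp only [kst, prv, smul_add, smul_smul]
        abel
      rw [e1]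
      refine h.2.trans ?_
      have : 0 ≤ η ^ 3 * sM R e k := by positivity
      calc (5 / 2 * (16 : ℝ) ^ k + 8) * η ^ 3 * sM R e k
          = (5 / 2 * (16 : ℝ) ^ k + 8) * (η ^ 3 * sM R e k) := by ring
        _ ≤ (16 : ℝ) ^ (k + 1) * (η ^ 3 * sM R e k) := mul_le_mul_of_nonneg_right h16 this
        _ ≤ (16 : ℝ) ^ (k + 1) * (η ^ 3 * sM R e (k + 1)) := by
            have h5 : η ^ 3 * sM R e k ≤ η ^ 3 * sM R e (k + 1) :=
              mul_le_mul_of_nonneg_left hMm (by positivity)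
            exact mul_le_mul_of_nonneg_left h5 (by positivity)
        _ = _ := by ring
    · have e1 : (kst R η Φ e (k + 1) z).1 - (Φ (η * prv R (k + 1)) z).1 +
          η ^ 2 • sV R e (prv R (k + 1)) (k + 1) =
          (Φ (η * (nd R k - prv R k)) (kst R η Φ e k z)).1 - (Φ (η * nd R k) z).1 +
            η ^ 2 • sV R e (nd R k) k := by
        have : prv R (k + 1) = nd R k := rfl
        rw [this, sV_succ]
        simp only [kst]
      rw [e1]
      refine h.1.trans ?_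
      have : 0 ≤ η ^ 4 * sM R e k := by positivity
      calc (5 / 2 * (16 : ℝ) ^ k + 8) * η ^ 4 * sM R e k
          = (5 / 2 * (16 : ℝ) ^ k + 8) * (η ^ 4 * sM R e k) := by ring
        _ ≤ (16 : ℝ) ^ (k + 1) * (η ^ 4 * sM R e k) := mul_le_mul_of_nonneg_right h16 this
        _ ≤ (16 : ℝ) ^ (k + 1) * (η ^ 4 * sM R e (k + 1)) := by
            have h5 : η ^ 4 * sM R e k ≤ η ^ 4 * sM R e (k + 1) :=
              mul_le_mul_of_nonneg_left hMm (by positivity)
            exact mul_le_mul_of_nonneg_left h5 (by positivity)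
        _ = _ := by ring

end nodes

/-- kicked path against the flow -/
theorem kick_path {m N : ℕ} (R : Rule m N) (hm : 1 ≤ m) (hR : Monotone R.t) (hU : SPot U)
    {Φ : ℝ → E d × E d → E d × E d} (hΦ : IsFlow U Φ) {η : ℝ} (hη : 0 < η) (hη1 : η ≤ 1 / 4)
    (e : ℕ → E d) (z : E d × E d) :
    (∀ i : Fin N, ‖kpos R η Φ e i z - (Φ (η * R.t i) z).1‖ ≤
      4 ^ (2 * N + 2) * η ^ 2 * ∑ j : Fin N, R.w j * ‖e j‖) ∧
    ‖(Φ (η * (1 - prv R N)) (kst R η Φ e N z)).1 - (Φ η z).1 +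
        η ^ 2 • ∑ j : Fin N, (R.w j * (1 - R.t j)) • e j‖ ≤
      4 ^ (2 * N + 2) * η ^ 4 * ∑ j : Fin N, R.w j * ‖e j‖ ∧
    ‖(Φ (η * (1 - prv R N)) (kst R η Φ e N z)).2 - (Φ η z).2 +
        η • ∑ j : Fin N, R.w j • e j‖ ≤
      4 ^ (2 * N + 2) * η ^ 3 * ∑ j : Fin N, R.w j * ‖e j‖ := by
  have hM0 := sM_nonneg R e N
  have hN4 : (4 : ℝ) ^ (2 * N + 2) = 16 ^ (N + 1) := by
    rw [show 2 * N + 2 = 2 * (N + 1) by ring, pow_mul]
    norm_num
  have h16 : ∀ k : ℕ, (5 / 2 * (16 : ℝ) ^ k + 8) ≤ (16 : ℝ) ^ (k + 1) := by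
    intro k
    have : (1 : ℝ) ≤ (16 : ℝ) ^ k := one_le_pow₀ (by norm_num)
    rw [pow_succ]
    linarith
  have hη2 : η ^ 2 ≤ 1 / 16 := by nlinarith
  rw [hN4, ← sM_fin R e, ← sU_fin R e, ← sV_fin R e]
  refine ⟨fun i => ?_, ?_, ?_⟩
  · obtain ⟨hb, ha⟩ := idf_ind R hR hU hΦ hη hη1 e z i
    have hnd : nd R (i : ℕ) = R.t i := by simp [nd]
    have h := (idf_step R hR hU hΦ hη hη1 e z i (A := (16 : ℝ) ^ (i : ℕ)) (c := nd R i)
      (by positivity) (idf_prv_nd R hR i) (idf_nd R i).2 hb ha).1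
    have hv := sV_le R e (c := nd R i) i
      (fun j hj => idf_nd_mono R hR hj.le) (idf_nd R i).2
    have hMi := sM_mono R e (i.2.le)
    have hMi0 := sM_nonneg R e (i : ℕ)
    have hk : kpos R η Φ e i z - (Φ (η * R.t i) z).1 =
        ((Φ (η * (nd R i - prv R i)) (kst R η Φ e i z)).1 - (Φ (η * nd R i) z).1 +
          η ^ 2 • sV R e (nd R i) i) - η ^ 2 • sV R e (nd R i) i := by
      rw [hnd]; simp only [kpos, hnd]; abel
    rw [hk]
    refine (norm_sub_le _ _).trans ?_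
    have h1 : ‖η ^ 2 • sV R e (nd R i) i‖ ≤ η ^ 2 * sM R e i := by
      rw [norm_smul, Real.norm_of_nonneg (by positivity)]
      exact mul_le_mul_of_nonneg_left hv (by positivity)
    have h2 : (5 / 2 * (16 : ℝ) ^ (i : ℕ) + 8) * η ^ 4 * sM R e i ≤
        (16 : ℝ) ^ ((i : ℕ) + 1) * (1 / 16) * (η ^ 2 * sM R e i) := by
      have e1 : (5 / 2 * (16 : ℝ) ^ (i : ℕ) + 8) * η ^ 4 * sM R e i =
        ((5 / 2 * (16 : ℝ) ^ (i : ℕ) + 8) * η ^ 2) * (η ^ 2 * sM R e i) := by ring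
      rw [e1]
      refine mul_le_mul_of_nonneg_right ?_ (by positivity)
      exact mul_le_mul (h16 i) hη2 (by positivity) (by positivity)
    have h3 : (16 : ℝ) ^ ((i : ℕ) + 1) ≤ 16 ^ N := pow_le_pow_right₀ (by norm_num) i.2
    have h4 : (1 : ℝ) ≤ 16 ^ N := one_le_pow₀ (by norm_num)
    have h5 : η ^ 2 * sM R e i ≤ η ^ 2 * sM R e N := mul_le_mul_of_nonneg_left hMi (by positivity)
    have h6 : 0 ≤ η ^ 2 * sM R e i := by positivity
    calc _ ≤ (16 : ℝ) ^ ((i : ℕ) + 1) * (1 / 16) * (η ^ 2 * sM R e i) + η ^ 2 * sM R e i := by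
          linarith
      _ = ((16 : ℝ) ^ ((i : ℕ) + 1) * (1 / 16) + 1) * (η ^ 2 * sM R e i) := by ring
      _ ≤ (16 : ℝ) ^ (N + 1) * (η ^ 2 * sM R e i) := by
          refine mul_le_mul_of_nonneg_right ?_ h6
          rw [pow_succ (16 : ℝ) N]
          linarith
      _ ≤ (16 : ℝ) ^ (N + 1) * (η ^ 2 * sM R e N) := mul_le_mul_of_nonneg_left h5 (by positivity)
      _ = _ := by ring
  · obtain ⟨hb, ha⟩ := idf_ind R hR hU hΦ hη hη1 e z N
    have h := (idf_step R hR hU hΦ hη hη1 e z N (A := (16 : ℝ) ^ N) (c := 1)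
      (by positivity) (idf_prv R N).2 le_rfl hb ha).1
    rw [mul_one] at h
    refine h.trans ?_
    have : 0 ≤ η ^ 4 * sM R e N := by positivity
    have := mul_le_mul_of_nonneg_right (h16 N) this
    linarith
  · obtain ⟨hb, ha⟩ := idf_ind R hR hU hΦ hη hη1 e z N
    have h := (idf_step R hR hU hΦ hη hη1 e z N (A := (16 : ℝ) ^ N) (c := 1)
      (by positivity) (idf_prv R N).2 le_rfl hb ha).2
    rw [mul_one] at h
    refine h.trans ?_
    have : 0 ≤ η ^ 3 * sM R e N := by positivity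
    have := mul_le_mul_of_nonneg_right (h16 N) this
    linarith

end P347S
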