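import Vale.Agent.P347S.Kick
import Vale.Agent.P347S.InnerDiff

/-!
Module Inner: the ideal step almost preserves `phase U`, `U = lsm ε W`.

Proof: the flow preserves `phase U` exactly.  One noise kick `(y,p) ↦ (y, p - ηw err(y,X))`:
conditionally on `y` the velocity is `N(0,I)`; `X ↦ err(y,X)` is `3ε`-Lipschitz with mean
`bias y`; `absorb_lip` (with `L = 3εηw`) and `gauss_shift` (with `σ = 1`) give
`TV ≤ 72 (ηwε)² √d + ηw |bias y|`; integrate over `y` (`TVle.mix`), use `bias_le`, `grad_cmp`,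
`gibbs_grad_sq`.  Sum over the nodes (`∑ w_i = 1`), induction over the number of kicks
(`TVle.map`, `TVle.prod_right`, `TVle.trans`).  The product measure on `Fin (k+1) → E d` splits
into `Fin k → E d` and the last coordinate.
-/

open MeasureTheory ProbabilityTheory Function
open scoped ENNReal BigOperators

namespace P347S

open P347Q

variable {d : ℕ} {ε : ℝ} {W : E d → ℝ}

/-- the flow map is continuous -/
theorem phi_cont {U : E d → ℝ} {Φ : ℝ → E d × E d → E d × E d} (hΦ : IsFlow U Φ) {s : ℝ}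
    (hs : s ∈ Set.Icc (0 : ℝ) (1 / 4)) : Continuous (Φ s) :=
  hΦ.cont.comp_continuous (f := fun z : E d × E d => (s, z)) (by fun_prop)
    (fun z => ⟨hs, Set.mem_univ z⟩)

theorem gap_mem {m N : ℕ} (R : Rule m N) (hR : Monotone R.t) {η : ℝ} (hη : 0 < η)
    (hη1 : η ≤ 1 / 4) (k : ℕ) : η * (nd R k - prv R k) ∈ Set.Icc (0 : ℝ) (1 / 4) := by
  have h1 := idf_prv_nd R hR k
  have h2 := (idf_nd R k).2
  have h3 := (idf_prv R k).1
  constructor
  · exact mul_nonneg hη.le (by linarith)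
  · nlinarith

theorem gap_mem' {m N : ℕ} (R : Rule m N) {η : ℝ} (hη : 0 < η)
    (hη1 : η ≤ 1 / 4) (k : ℕ) : η * (1 - prv R k) ∈ Set.Icc (0 : ℝ) (1 / 4) := by
  have h2 := (idf_prv R k).2
  have h3 := (idf_prv R k).1
  constructor
  · exact mul_nonneg hη.le (by linarith)
  · nlinarith

theorem nk_cont (hW : KPot ε W) (h0 : 0 < ε) (h1 : ε ≤ 1 / 4) (η w : ℝ) :
    Continuous (fun p : (E d × E d) × E d => nk W ε η w p.1 p.2) := by
  have he := err_cont hW h0 (by linarith)
  have he' : Continuous (fun p : (E d × E d) × E d => err W ε p.1.1 p.2) :=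
    he.comp (f := fun p : (E d × E d) × E d => (p.1.1, p.2)) (by fun_prop)
  unfold nk
  fun_prop

theorem inn_cont {m N : ℕ} (R : Rule m N) (hR : Monotone R.t)
    (hW : KPot ε W) (h0 : 0 < ε) (h1 : ε ≤ 1 / 4) {η : ℝ} (hη : 0 < η) (hη1 : η ≤ 1 / 4)
    {Φ : ℝ → E d × E d → E d × E d} (hΦ : IsFlow (lsm ε W) Φ) (k : ℕ) :
    Continuous (fun p : (E d × E d) × (Fin k → E d) => inn R W ε η Φ k p.1 p.2) := by
  induction k with
  | zero => exact continuous_fst
  | succ k ih =>
    have e1 : Continuous (fun p : (E d × E d) × (Fin (k + 1) → E d) =>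
        (p.1, fun i : Fin k => p.2 i.castSucc)) := by fun_prop
    have e2 := ih.comp e1
    have e3 := (phi_cont hΦ (gap_mem R hR hη hη1 k)).comp e2
    have e4 : Continuous (fun p : (E d × E d) × (Fin (k + 1) → E d) => p.2 (Fin.last k)) := by
      fun_prop
    exact (nk_cont hW h0 h1 η (wt R k)).comp (e3.prodMk e4)

instance gN_prob (N d : ℕ) : IsProbabilityMeasure (gN N d) := by
  unfold gN; infer_instance

/-- the law after `k` kicks -/
theorem inn_tv {m N : ℕ} (R : Rule m N) (hR : Monotone R.t)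
    (hW : KPot ε W) (h0 : 0 < ε) (h1 : ε ≤ 1 / 4) {η : ℝ} (hη : 0 < η) (hη1 : η ≤ 1 / 4)
    {Φ : ℝ → E d × E d → E d × E d} (hΦ : IsFlow (lsm ε W) Φ) (k : ℕ) :
    TVle (((phase (lsm ε W)).prod (gN k d)).map (fun p => inn R W ε η Φ k p.1 p.2))
      (phase (lsm ε W))
      (∑ j ∈ Finset.range k, (72 * (η * wt R j * ε) ^ 2 * √d + η * wt R j * (27 * ε ^ 3 * √d))) := by
  have hU : SPot (lsm ε W) := lsm_spot hW h0 (by linarith)
  have hP : IsProbabilityMeasure (phase (lsm ε W)) := phase_prob hU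
  induction k with
  | zero =>
    have : ((phase (lsm ε W)).prod (gN 0 d)).map
        (fun p => inn R W ε η Φ 0 p.1 p.2) = phase (lsm ε W) := by
      have h : (fun p : (E d × E d) × (Fin 0 → E d) => inn R W ε η Φ 0 p.1 p.2) = Prod.fst :=
        rfl
      rw [h]
      exact measurePreserving_fst.map_eq
    rw [this]
    simpa using TVle.refl (phase (lsm ε W))
  | succ k ih =>
    have hn := (nk_cont hW h0 h1 η (wt R k)).measurable
    have hΦm : Measurable (Φ (η * (nd R k - prv R k))) :=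
      (phi_cont hΦ (gap_mem R hR hη hη1 k)).measurable
    have hr : Measurable (fun p : (E d × E d) × (Fin k → E d) => inn R W ε η Φ k p.1 p.2) :=
      (inn_cont R hR hW h0 h1 hη hη1 hΦ k).measurable
    have hs := mp_snoc (phase (lsm ε W)) (stdGaussian (E d)) k
    set τ := η * (nd R k - prv R k) with hτ
    have e1 : ((phase (lsm ε W)).prod (gN (k + 1) d)).map
        (fun p => inn R W ε η Φ (k + 1) p.1 p.2) =
        (((((phase (lsm ε W)).prod (gN k d)).map
          (fun p => inn R W ε η Φ k p.1 p.2)).map (Φ τ)).prod (stdGaussian (E d))).map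
          (fun p => nk W ε η (wt R k) p.1 p.2) := by
      have hf : (fun p : (E d × E d) × (Fin (k + 1) → E d) => inn R W ε η Φ (k + 1) p.1 p.2) =
          ((fun p : (E d × E d) × E d => nk W ε η (wt R k) p.1 p.2) ∘
            Prod.map (Φ τ ∘ fun p : (E d × E d) × (Fin k → E d) => inn R W ε η Φ k p.1 p.2) id) ∘
          (fun p : (E d × E d) × (Fin (k + 1) → E d) =>
            ((p.1, fun i : Fin k => p.2 i.castSucc), p.2 (Fin.last k))) := by
        funext p
        rfl
      have hc : Measurable (Φ τ ∘ fun p : (E d × E d) × (Fin k → E d) =>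
          inn R W ε η Φ k p.1 p.2) := hΦm.comp hr
      unfold gN
      rw [hf, ← Measure.map_map (hn.comp (hc.prodMap measurable_id)) hs.measurable, hs.map_eq,
        ← Measure.map_map hn (hc.prodMap measurable_id),
        ← Measure.map_prod_map _ _ hc measurable_id, Measure.map_id, Measure.map_map hΦm hr]
    rw [e1]
    have hp : IsProbabilityMeasure (((phase (lsm ε W)).prod (gN k d)).map
          (fun p => inn R W ε η Φ k p.1 p.2)) := Measure.isProbabilityMeasure_map hr.aemeasurable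
    have hp' : IsProbabilityMeasure ((((phase (lsm ε W)).prod (gN k d)).map
          (fun p => inn R W ε η Φ k p.1 p.2)).map (Φ τ)) :=
      Measure.isProbabilityMeasure_map hΦm.aemeasurable
    have h2 := ih.map hΦm
    rw [(hΦ.mp τ (gap_mem R hR hη hη1 k)).map_eq] at h2
    have h3 := (TVle.prod_right h2 (stdGaussian (E d))).map hn
    have h4 := kick_tv (w := wt R k) hW h0 h1 hη.le (idf_wt R k)
    have h5 := h3.trans h4
    refine h5.mono (le_of_eq ?_)
    rw [Finset.sum_range_succ]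

/-- the ideal step almost preserves `phase U` -/
theorem inner_tv {m N : ℕ} (R : Rule m N) (hm : 1 ≤ m) (hR : Monotone R.t)
    (hW : KPot ε W) (h0 : 0 < ε) (h1 : ε ≤ 1 / 4) {η : ℝ} (hη : 0 < η) (hη1 : η ≤ 1 / 4)
    {Φ : ℝ → E d × E d → E d × E d} (hΦ : IsFlow (lsm ε W) Φ) :
    TVle (((phase (lsm ε W)).prod (gN N d)).map (fun p => innF R W ε η Φ p.1 p.2))
      (phase (lsm ε W)) (72 * √d * (η ^ 2 * ε ^ 2 + η * ε ^ 3)) := by
  have hU : SPot (lsm ε W) := lsm_spot hW h0 (by linarith)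
  have hP : IsProbabilityMeasure (phase (lsm ε W)) := phase_prob hU
  have hτ := gap_mem' R hη hη1 N
  have hΦm : Measurable (Φ (η * (1 - prv R N))) := (phi_cont hΦ hτ).measurable
  have hr : Measurable (fun p : (E d × E d) × (Fin N → E d) => inn R W ε η Φ N p.1 p.2) :=
    (inn_cont R hR hW h0 h1 hη hη1 hΦ N).measurable
  have h2 := (inn_tv R hR hW h0 h1 hη hη1 hΦ N).map hΦm
  rw [(hΦ.mp _ hτ).map_eq, Measure.map_map hΦm hr] at h2
  refine TVle.mono h2 ?_
  have hs : ∑ j ∈ Finset.range N, wt R j = 1 := by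
    rw [Finset.sum_range, ← R.sum_w hm]
    refine Finset.sum_congr rfl fun j _ => ?_
    simp [wt]
  have hs2 : ∑ j ∈ Finset.range N, (wt R j) ^ 2 ≤ 1 := by
    calc ∑ j ∈ Finset.range N, (wt R j) ^ 2 ≤ (∑ j ∈ Finset.range N, wt R j) ^ 2 :=
          Finset.sum_sq_le_sq_sum_of_nonneg fun j _ => idf_wt R j
      _ = 1 := by rw [hs]; norm_num
  have hd : 0 ≤ √(d : ℝ) := Real.sqrt_nonneg _
  calc ∑ j ∈ Finset.range N, (72 * (η * wt R j * ε) ^ 2 * √d + η * wt R j * (27 * ε ^ 3 * √d))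
      = 72 * η ^ 2 * ε ^ 2 * √d * ∑ j ∈ Finset.range N, (wt R j) ^ 2 +
        27 * η * ε ^ 3 * √d * ∑ j ∈ Finset.range N, wt R j := by
        rw [Finset.mul_sum, Finset.mul_sum, ← Finset.sum_add_distrib]
        refine Finset.sum_congr rfl fun j _ => ?_
        ring
    _ ≤ 72 * η ^ 2 * ε ^ 2 * √d * 1 + 27 * η * ε ^ 3 * √d * 1 := by
        rw [hs]
        have : 0 ≤ 72 * η ^ 2 * ε ^ 2 * √(d : ℝ) := by positivity
        have := mul_le_mul_of_nonneg_left hs2 this
        linarith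
    _ ≤ 72 * √d * (η ^ 2 * ε ^ 2 + η * ε ^ 3) := by
        have : 0 ≤ η * ε ^ 3 * √(d : ℝ) := by positivity
        nlinarith

/-- joint continuity of the ideal step -/
theorem innF_cont {m N : ℕ} (R : Rule m N) (hR : Monotone R.t)
    (hW : KPot ε W) (h0 : 0 < ε) (h1 : ε ≤ 1 / 4) {η : ℝ} (hη : 0 < η) (hη1 : η ≤ 1 / 4)
    {Φ : ℝ → E d × E d → E d × E d} (hΦ : IsFlow (lsm ε W) Φ) :
    Continuous (fun p : (E d × E d) × (Fin N → E d) => innF R W ε η Φ p.1 p.2) := by
  exact (phi_cont hΦ (gap_mem' R hη hη1 N)).comp (inn_cont R hR hW h0 h1 hη hη1 hΦ N)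

end P347S
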