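import Vale.Agent.P347S.Bias

/-!
Module Kick: one noise kick almost preserves `phase U`, `U = lsm ε W`.

Proof: one noise kick is `(y,p) ↦ (y, p - ηw err(y,X))`.  Conditionally on `y` the velocity is
`N(0,I)`; `X ↦ err(y,X)` is `3ε`-Lipschitz with mean `bias y`; `absorb_lip` (with `L = 3εηw`, noise
`F(X) = -ηw (err(y,X) - bias y)`) and `gauss_shift` (with `σ = 1`) give
`TV ≤ 72 (ηwε)² √d + ηw |bias y|`; integrate over `y` (`TVle.mix`), use `bias_le`, `grad_cmp`,
`gibbs_grad_sq`: `E|∇W(y)| ≤ 2 √(2d) + 6 ε √d`.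
-/

open MeasureTheory ProbabilityTheory Function
open scoped ENNReal BigOperators

namespace P347S

open P347Q

variable {d : ℕ} {ε : ℝ} {W : E d → ℝ}

theorem err_lip (hW : KPot ε W) (h0 : 0 < ε) (h1 : ε ≤ 1 / 2) (y X X' : E d) :
    ‖err W ε y X - err W ε y X'‖ ≤ 3 * ε * ‖X - X'‖ := by
  have h := hW.grad_lip h0 h1 (y - ε ^ 2 • gradient W y + ε • X)
    (y - ε ^ 2 • gradient W y + ε • X')
  have e1 : err W ε y X - err W ε y X' = gradient W (y - ε ^ 2 • gradient W y + ε • X) -
      gradient W (y - ε ^ 2 • gradient W y + ε • X') := by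
    simp only [err, est]
    abel
  have e2 : (y - ε ^ 2 • gradient W y + ε • X) - (y - ε ^ 2 • gradient W y + ε • X') =
      ε • (X - X') := by
    rw [smul_sub]
    abel
  rw [e2, norm_smul, Real.norm_eq_abs, abs_of_pos h0] at h
  rw [e1]
  linarith

theorem kgrad_cont (hW : KPot ε W) (h0 : 0 < ε) (h1 : ε ≤ 1 / 2) : Continuous (gradient W) := by
  have : LipschitzWith 3 (gradient W) := by
    refine LipschitzWith.of_dist_le_mul fun x y => ?_
    rw [dist_eq_norm, dist_eq_norm]
    exact hW.grad_lip h0 h1 x y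
  exact this.continuous

theorem err_cont (hW : KPot ε W) (h0 : 0 < ε) (h1 : ε ≤ 1 / 2) :
    Continuous (fun p : E d × E d => err W ε p.1 p.2) := by
  have hg := kgrad_cont hW h0 h1
  have hu := spot_grad_cont (lsm_spot hW h0 h1)
  have h2 : Continuous (fun p : E d × E d => ε ^ 2 • gradient W p.1) :=
    (hg.comp continuous_fst).const_smul (ε ^ 2)
  have h3 : Continuous (fun p : E d × E d => ε • p.2) := continuous_snd.const_smul ε
  have h4 : Continuous (fun p : E d × E d => p.1 - ε ^ 2 • gradient W p.1 + ε • p.2) :=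
    (continuous_fst.sub h2).add h3
  exact (hg.comp h4).sub (hu.comp continuous_fst)

theorem gibbs_grad_l1 {U : E d → ℝ} (hU : SPot U) :
    Integrable (fun y => ‖gradient U y‖) (gibbs U) ∧
      ∫ y, ‖gradient U y‖ ∂(gibbs U) ≤ √(2 * d) := by
  have := hU.prob
  have hc := spot_grad_cont hU
  have hi2 : Integrable (fun y => ‖gradient U y‖ ^ 2) (gibbs U) :=
    gibbs_integrable hU (temp_gradient_sq hU.temp)
  have hi1 : Integrable (fun y => ‖gradient U y‖) (gibbs U) := by
    refine Integrable.mono' ((integrable_const (1 : ℝ)).add hi2) hc.norm.aestronglyMeasurable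
      (Filter.Eventually.of_forall fun y => ?_)
    rw [Real.norm_eq_abs, abs_of_nonneg (norm_nonneg _)]
    simp only [Pi.add_apply]
    nlinarith [sq_nonneg (‖gradient U y‖ - 1), norm_nonneg (gradient U y)]
  refine ⟨hi1, ?_⟩
  apply Real.le_sqrt_of_sq_le
  refine le_trans ?_ (gibbs_grad_sq hU)
  set m := ∫ y, ‖gradient U y‖ ∂(gibbs U) with hm
  have h2 : 0 ≤ ∫ y, (‖gradient U y‖ - m) ^ 2 ∂(gibbs U) := integral_nonneg fun _ => sq_nonneg _
  have e : (fun y => (‖gradient U y‖ - m) ^ 2) =
      fun y => ‖gradient U y‖ ^ 2 - 2 * m * ‖gradient U y‖ + m ^ 2 := by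
    funext y
    ring
  have hs : Integrable (fun y => ‖gradient U y‖ ^ 2 - 2 * m * ‖gradient U y‖) (gibbs U) :=
    hi2.sub (hi1.const_mul (2 * m))
  rw [e, integral_add hs (integrable_const _),
    integral_sub hi2 (hi1.const_mul (2 * m)), integral_const_mul, ← hm] at h2
  simp only [integral_const, probReal_univ, smul_eq_mul, one_mul] at h2
  nlinarith

theorem kick_ker_aux {G : E d → E d} {L : ℝ} (hL0 : 0 ≤ L) (hey : Continuous G)
    (hL : ∀ X X', ‖G X - G X'‖ ≤ L * ‖X - X'‖) {c : ℝ} (hc0 : 0 ≤ c) (y b : E d)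
    (hbias : ∫ X, G X ∂(stdGaussian (E d)) = b) :
    TVle (((stdGaussian (E d)).prod (stdGaussian (E d))).map
        (fun θ : E d × E d => (y, θ.2 - c • G θ.1)))
      ((stdGaussian (E d)).map (fun p : E d => (y, p)))
      (8 * (c * L) ^ 2 * √d + c * ‖b‖) := by
  have hei : Integrable G (stdGaussian (E d)) :=
    integrable_of_lip (ι := Fin d) (κ := Fin d) hey hL
  have hFc : Continuous (fun X => -(c • (G X - b))) := ((hey.sub continuous_const).const_smul c).neg
  have hFL : ∀ X X', ‖-(c • (G X - b)) - -(c • (G X' - b))‖ ≤ (c * L) * ‖X - X'‖ := by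
    intro X X'
    have e : -(c • (G X - b)) - -(c • (G X' - b)) = -(c • (G X - G X')) := by
      simp only [smul_sub]
      abel
    rw [e, norm_neg, norm_smul, Real.norm_eq_abs, abs_of_nonneg hc0]
    calc c * ‖G X - G X'‖ ≤ c * (L * ‖X - X'‖) :=
          mul_le_mul_of_nonneg_left (hL X X') hc0
      _ = _ := by ring
  have hF0 : ∫ X, -(c • (G X - b)) ∂(stdGaussian (E d)) = 0 := by
    rw [integral_neg, integral_smul, integral_sub hei (integrable_const _), hbias]
    simp
  have h2 := absorb_lip (ι := Fin d) (κ := Fin d) hFc (mul_nonneg hc0 hL0) hFL hF0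
  have m1 : Measurable (fun p : E d × E d => -(c • (G p.1 - b)) + p.2) := by
    have : Continuous (fun p : E d × E d => -(c • (G p.1 - b)) + p.2) :=
      (hFc.comp continuous_fst).add continuous_snd
    exact this.measurable
  have m2 : Measurable (fun z : E d => z - c • b) := by fun_prop
  have m3 : Measurable (fun z : E d => (y, z)) := by fun_prop
  have h3 := h2.map m2
  have h4 := gauss_shift (d := d) (-(c • b)) 0 (σ := 1) one_pos
  have e4 : (stdGaussian (E d)).map (fun z : E d => -(c • b) + (1 : ℝ) • z) =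
      (stdGaussian (E d)).map (fun z : E d => z - c • b) := by
    congr 1
    funext z
    rw [one_smul]
    abel
  have e5 : (stdGaussian (E d)).map (fun z : E d => (0 : E d) + (1 : ℝ) • z) =
      stdGaussian (E d) := by
    have : (fun z : E d => (0 : E d) + (1 : ℝ) • z) = id := by
      funext z
      simp
    rw [this, Measure.map_id]
  rw [e4, e5] at h4
  have h5 := (h3.trans h4).map m3
  rw [Measure.map_map m2 m1, Measure.map_map m3 (m2.comp m1)] at h5
  have e6 : ((fun z : E d => (y, z)) ∘ (fun z => z - c • b) ∘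
      fun p : E d × E d => -(c • (G p.1 - b)) + p.2) =
      fun θ : E d × E d => (y, θ.2 - c • G θ.1) := by
    funext θ
    simp only [comp_apply, smul_sub]
    congr 1
    abel
  rw [e6] at h5
  refine h5.mono ?_
  rw [Fintype.card_fin, sub_zero, norm_neg, norm_smul, Real.norm_eq_abs, abs_of_nonneg hc0,
    div_one]

theorem kick_ker (hW : KPot ε W) (h0 : 0 < ε) (h12 : ε ≤ 1 / 2) {c : ℝ} (hc0 : 0 ≤ c) (y : E d) :
    TVle (((stdGaussian (E d)).prod (stdGaussian (E d))).map
        (fun θ : E d × E d => (y, θ.2 - c • err W ε y θ.1)))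
      ((stdGaussian (E d)).map (fun p : E d => (y, p)))
      (72 * (c * ε) ^ 2 * √d + c * ‖bias W ε y‖) := by
  have hec := err_cont hW h0 h12
  have hey : Continuous (err W ε y) := Continuous.uncurry_left y hec
  have h := kick_ker_aux (G := err W ε y) (L := 3 * ε) (by positivity) hey
    (err_lip hW h0 h12 y) hc0 y (bias W ε y) rfl
  refine h.mono (add_le_add (le_of_eq ?_) le_rfl)
  ring

theorem prod_swap_assoc {X Y Z : Type*} [MeasurableSpace X] [MeasurableSpace Y] [MeasurableSpace Z]
    (μ : Measure X) (ν : Measure Y) (ρ : Measure Z) [SFinite μ] [SFinite ν] [SFinite ρ] :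
    μ.prod (ν.prod ρ) = ((μ.prod ρ).prod ν).map (fun p => (p.1.1, (p.2, p.1.2))) := by
  have h3 : ((μ.prod ρ).prod ν).map MeasurableEquiv.prodAssoc = μ.prod (ρ.prod ν) :=
    Measure.prodAssoc_prod
  have h4 : (μ.prod (ρ.prod ν)).map (Prod.map id Prod.swap) = μ.prod (ν.prod ρ) := by
    rw [← Measure.map_prod_map _ _ measurable_id measurable_swap, Measure.map_id,
      Measure.prod_swap]
  rw [← h4, ← h3, Measure.map_map (measurable_id.prodMap measurable_swap)
    MeasurableEquiv.prodAssoc.measurable]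
  rfl

/-- one noise kick -/
theorem kick_tv (hW : KPot ε W) (h0 : 0 < ε) (h1 : ε ≤ 1 / 4) {η w : ℝ} (hη : 0 ≤ η) (hw : 0 ≤ w) :
    TVle (((phase (lsm ε W)).prod (stdGaussian (E d))).map (fun p => nk W ε η w p.1 p.2))
      (phase (lsm ε W)) (72 * (η * w * ε) ^ 2 * √d + η * w * (27 * ε ^ 3 * √d)) := by
  have h12 : ε ≤ 1 / 2 := by linarith
  have hU := lsm_spot hW h0 h12
  have hprob := hU.prob
  have hbl := bias_le hW h0 h12
  have hgc := grad_cmp hW h0 h1
  have hec := err_cont hW h0 h12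
  have hk := fun c (hc0 : (0 : ℝ) ≤ c) => kick_ker hW h0 h12 hc0
  have hnk : ∀ p : (E d × E d) × E d, nk W ε η w p.1 p.2 =
      (p.1.1, p.1.2 - (η * w) • err W ε p.1.1 p.2) := fun p => rfl
  simp only [hnk]
  obtain ⟨hgi, hgl⟩ := gibbs_grad_l1 hU
  generalize lsm ε W = U at *
  have hc0 : 0 ≤ η * w := mul_nonneg hη hw
  generalize η * w = c at *
  have hk' := hk c hc0
  clear hk hnk
  generalize err W ε = e at *
  have hsd : (0 : ℝ) ≤ √d := Real.sqrt_nonneg _
  -- integrable bound
  have hδi : Integrable (fun y : E d => 72 * (c * ε) ^ 2 * √d +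
    c * (9 * (ε ^ 3 * √d + ε ^ 4 * (2 * ‖gradient U y‖ + 6 * ε * √d)))) (gibbs U) := by
    refine (integrable_const _).add (Integrable.const_mul (Integrable.const_mul
      ((integrable_const _).add (Integrable.const_mul ((hgi.const_mul 2).add
        (integrable_const _)) _)) _) _)
  have hker' : ∀ y : E d, TVle (((stdGaussian (E d)).prod (stdGaussian (E d))).map
      (fun θ : E d × E d => (y, θ.2 - c • e y θ.1)))
      ((stdGaussian (E d)).map (fun p : E d => (y, p))) (72 * (c * ε) ^ 2 * √d +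
    c * (9 * (ε ^ 3 * √d + ε ^ 4 * (2 * ‖gradient U y‖ + 6 * ε * √d)))) := by
    intro y
    refine (hk' y).mono ?_
    refine add_le_add le_rfl (mul_le_mul_of_nonneg_left ?_ hc0)
    refine (hbl y).trans ?_
    refine mul_le_mul_of_nonneg_left ?_ (by norm_num)
    refine add_le_add le_rfl (mul_le_mul_of_nonneg_left ?_ (by positivity))
    exact (hgc y).2
  have hmg : Measurable (fun q : E d × (E d × E d) => (q.1, q.2.2 - c • e q.1 q.2.1)) := by
    have h1 : Continuous (fun q : E d × (E d × E d) => e q.1 q.2.1) :=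
      hec.comp (by fun_prop : Continuous fun q : E d × (E d × E d) => (q.1, q.2.1))
    have : Continuous (fun q : E d × (E d × E d) => (q.1, q.2.2 - c • e q.1 q.2.1)) :=
      continuous_fst.prodMk ((continuous_snd.comp continuous_snd).sub (h1.const_smul c))
    exact this.measurable
  have hmix := TVle.mix (gibbs U) ((stdGaussian (E d)).prod (stdGaussian (E d)))
    (stdGaussian (E d)) hmg (g' := fun q : E d × E d => (q.1, q.2)) (by fun_prop) hδi hker'
  have e1 : ((gibbs U).prod ((stdGaussian (E d)).prod (stdGaussian (E d)))).map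
      (fun q : E d × (E d × E d) => (q.1, q.2.2 - c • e q.1 q.2.1)) =
      ((phase U).prod (stdGaussian (E d))).map
        (fun p => (p.1.1, p.1.2 - c • e p.1.1 p.2)) := by
    unfold phase
    rw [prod_swap_assoc, Measure.map_map hmg (by fun_prop)]
    rfl
  have e2 : ((gibbs U).prod (stdGaussian (E d))).map (fun q : E d × E d => (q.1, q.2)) =
      phase U := by
    have : (fun q : E d × E d => (q.1, q.2)) = id := rfl
    rw [this, Measure.map_id]
    rfl
  rw [e1, e2] at hmix
  refine hmix.mono ?_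
  have hi : ∫ y : E d, (72 * (c * ε) ^ 2 * √d +
      c * (9 * (ε ^ 3 * √d + ε ^ 4 * (2 * ‖gradient U y‖ + 6 * ε * √d)))) ∂(gibbs U) =
      72 * (c * ε) ^ 2 * √d +
      c * (9 * (ε ^ 3 * √d + ε ^ 4 * (2 * ∫ y, ‖gradient U y‖ ∂(gibbs U) + 6 * ε * √d))) := by
    have hfun : (fun y : E d => 72 * (c * ε) ^ 2 * √d +
        c * (9 * (ε ^ 3 * √d + ε ^ 4 * (2 * ‖gradient U y‖ + 6 * ε * √d)))) =
        fun y : E d => (72 * (c * ε) ^ 2 * √d + c * (9 * (ε ^ 3 * √d + ε ^ 4 * (6 * ε * √d)))) +
          (c * (9 * (ε ^ 4 * 2))) * ‖gradient U y‖ := by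
      funext y
      ring
    rw [hfun, integral_add (integrable_const _) (hgi.const_mul _), integral_const_mul]
    simp only [integral_const, probReal_univ, smul_eq_mul, one_mul]
    ring
  rw [hi]
  refine add_le_add le_rfl (mul_le_mul_of_nonneg_left ?_ hc0)
  have h5 : √(2 * d) ≤ 3 / 2 * √d := by
    rw [Real.sqrt_mul (by norm_num)]
    refine mul_le_mul_of_nonneg_right ?_ hsd
    rw [Real.sqrt_le_left (by norm_num)]
    norm_num
  have h6 : ε ^ 4 * (2 * ∫ y, ‖gradient U y‖ ∂(gibbs U) + 6 * ε * √d) ≤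
      ε ^ 4 * (3 * √d + 6 * ε * √d) := by
    refine mul_le_mul_of_nonneg_left ?_ (by positivity)
    linarith
  have h7 : ε ^ 4 * (3 * √d + 6 * ε * √d) ≤ 2 * (ε ^ 3 * √d) := by
    have h8 : ε ^ 4 * (3 * √d + 6 * ε * √d) = (ε * (3 + 6 * ε)) * (ε ^ 3 * √d) := by ring
    rw [h8]
    refine mul_le_mul_of_nonneg_right ?_ (by positivity)
    nlinarith
  linarith

end P347S
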