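import Vale.Agent.P347S.Chain

/-!
Module Level: passage from `V` (`CPot lam V`, `0 ≤ lam ≤ 1`) to `W = V (r •)`, `r = rs ε`.
`∇W(x) = r ∇V(r x) = rg ε (∇V) x`, curvature of `W` in `[r², 2r²]`, `r² = 1/(1-ε²)`;
`gibbs W` is the image of `gibbs V` under `x ↦ x/r`, so `(cv W (ε²+σ²)).map (r •) = cv V (tau2 ε σ)`.
-/

open MeasureTheory ProbabilityTheory Function
open scoped ENNReal BigOperators

namespace P347S

open P347Q

theorem lv_one_sub {ε : ℝ} (h0 : 0 < ε) (h1 : ε ≤ 1 / 2) : 3 / 4 ≤ 1 - ε ^ 2 ∧ 1 - ε ^ 2 < 1 := by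
  constructor <;> nlinarith

theorem lv_rs_pos {ε : ℝ} (h0 : 0 < ε) (h1 : ε ≤ 1 / 2) : 0 < rs ε := by
  have := (lv_one_sub h0 h1).1
  exact inv_pos.mpr (Real.sqrt_pos.mpr (by linarith))

theorem lv_rs_sq {ε : ℝ} (h0 : 0 < ε) (h1 : ε ≤ 1 / 2) : (1 - ε ^ 2) * rs ε ^ 2 = 1 := by
  have := (lv_one_sub h0 h1).1
  unfold rs
  rw [inv_pow, Real.sq_sqrt (by linarith)]
  exact mul_inv_cancel₀ (by linarith)

theorem lv_rs_le {ε : ℝ} (h0 : 0 < ε) (h1 : ε ≤ 1 / 2) : rs ε ≤ 2 := by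
  have h2 := lv_rs_sq h0 h1
  have h3 := (lv_one_sub h0 h1).1
  have h4 := lv_rs_pos h0 h1
  nlinarith

theorem kpot_scale {d : ℕ} {ε lam : ℝ} {V : E d → ℝ} (hV : CPot lam V) (hl : lam ≤ 1)
    (h0 : 0 < ε) (h1 : ε ≤ 1 / 2) :
    KPot ε (fun x => V (rs ε • x)) ∧ gradient (fun x => V (rs ε • x)) = rg ε (gradient V) := by
  have hr := lv_rs_pos h0 h1
  have hr2 := lv_rs_sq h0 h1
  obtain ⟨r, hrr⟩ : ∃ r, r = rs ε := ⟨_, rfl⟩
  rw [← hrr] at hr hr2 ⊢
  have hd1 : fderiv ℝ (fun x => V (r • x)) = fun x => r • fderiv ℝ V (r • x) := by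
    funext x
    exact fderiv_comp_smul (f := V) (x := x) r
  have hd2 : ∀ x w : E d, fderiv ℝ (fderiv ℝ (fun x => V (r • x))) x w w =
      r ^ 2 * fderiv ℝ (fderiv ℝ V) (r • x) w w := by
    intro x w
    rw [hd1]
    have hdiff : Differentiable ℝ (fderiv ℝ V) :=
      (hV.smooth.fderiv_right (m := 1) (by norm_num)).differentiable (by norm_num)
    have hdc : DifferentiableAt ℝ (fun x : E d => fderiv ℝ V (r • x)) x :=
      (hdiff (r • x)).comp x (differentiableAt_id.const_smul r)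
    rw [fderiv_fun_const_smul hdc r]
    rw [fderiv_comp_smul (f := fderiv ℝ V) (x := x) r]
    simp only [smul_apply, smul_eq_mul]
    ring
  refine ⟨⟨hV.smooth.comp (contDiff_const_smul r), fun x w => ?_, fun x w => ?_⟩, ?_⟩
  · rw [hd2, ← mul_assoc, hr2, one_mul]
    exact hV.lower _ _
  · rw [hd2, ← mul_assoc, hr2, one_mul]
    refine (hV.upper _ _).trans ?_
    have : 0 ≤ ‖w‖ ^ 2 := by positivity
    nlinarith
  · funext x
    unfold rg
    rw [← hrr]
    unfold gradient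
    rw [hd1]
    simp

/-- scaling of Gibbs measures -/
theorem lv_gibbs_scale {d : ℕ} (V : E d → ℝ) {r : ℝ} (hr : 0 < r) :
    gibbs (fun x => V (r • x)) = (gibbs V).map (fun x => r⁻¹ • x) := by
  have hr0 : r ≠ 0 := hr.ne'
  obtain ⟨K, hK⟩ : ∃ K : ℝ≥0∞, K = ENNReal.ofReal (abs (r ^ Module.finrank ℝ (E d))⁻¹) := ⟨_, rfl⟩
  have hK0 : K ≠ 0 := by
    rw [hK, ENNReal.ofReal_ne_zero_iff]
    positivity
  have hKt : K ≠ ⊤ := by
    rw [hK]
    exact ENNReal.ofReal_ne_top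
  have hlin : ∀ f : E d → ℝ≥0∞, ∫⁻ y, f (r • y) = K * ∫⁻ x, f x := by
    intro f
    have h1 := Measure.map_addHaar_smul (volume : Measure (E d)) hr0
    have h2 : ∫⁻ x, f x ∂(Measure.map (r • ·) (volume : Measure (E d))) = ∫⁻ y, f (r • y) :=
      lintegral_map_equiv f (MeasurableEquiv.smul₀ r hr0)
    rw [← h2, h1, lintegral_smul_measure, hK, smul_eq_mul]
  have hmeas : Measurable (fun x : E d => r⁻¹ • x) := measurable_const_smul _
  ext A hA
  rw [Measure.map_apply hmeas hA]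
  unfold gibbs
  simp only [Measure.smul_apply, smul_eq_mul]
  rw [withDensity_apply _ hA, withDensity_apply _ (hmeas hA)]
  rw [← lintegral_indicator hA, ← lintegral_indicator (hmeas hA)]
  have h3 : ∫⁻ x, ENNReal.ofReal (Real.exp (-V (r • x))) =
      K * ∫⁻ x, ENNReal.ofReal (Real.exp (-V x)) :=
    hlin (fun x => ENNReal.ofReal (Real.exp (-V x)))
  have h4 : ∫⁻ x, A.indicator (fun x => ENNReal.ofReal (Real.exp (-V (r • x)))) x =
      K * ∫⁻ x, ((fun x : E d => r⁻¹ • x) ⁻¹' A).indicator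
        (fun x => ENNReal.ofReal (Real.exp (-V x))) x := by
    rw [← hlin]
    refine lintegral_congr fun x => ?_
    by_cases hx : x ∈ A
    · rw [Set.indicator_of_mem hx, Set.indicator_of_mem]
      change r⁻¹ • (r • x) ∈ A
      rwa [inv_smul_smul₀ hr0]
    · rw [Set.indicator_of_notMem hx, Set.indicator_of_notMem]
      change r⁻¹ • (r • x) ∉ A
      rwa [inv_smul_smul₀ hr0]
  rw [h3, h4, ENNReal.mul_inv (Or.inl hK0) (Or.inl hKt)]
  rw [mul_mul_mul_comm, ENNReal.inv_mul_cancel hK0 hKt, one_mul]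

theorem cv_scale {d : ℕ} {ε σ lam : ℝ} {V : E d → ℝ} (hV : CPot lam V) (h0 : 0 < ε)
    (h1 : ε ≤ 1 / 2) :
    (cv (fun x => V (rs ε • x)) (ε ^ 2 + σ ^ 2)).map (fun x => rs ε • x) = cv V (tau2 ε σ) := by
  have hr := lv_rs_pos h0 h1
  have hr0 := hr.ne'
  unfold cv
  rw [lv_gibbs_scale V hr]
  have hsf : SFinite (gibbs V) := by
    unfold gibbs
    infer_instance
  have h2 : ((gibbs V).map (fun x => (rs ε)⁻¹ • x)).prod (stdGaussian (E d)) =
      ((gibbs V).prod (stdGaussian (E d))).map (Prod.map (fun x => (rs ε)⁻¹ • x) id) := by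
    have := Measure.map_prod_map (gibbs V) (stdGaussian (E d)) (f := fun x => (rs ε)⁻¹ • x)
      (g := id) (measurable_const_smul _) measurable_id
    rwa [Measure.map_id] at this
  have hm1 : Measurable (fun p : E d × E d => p.1 + √(ε ^ 2 + σ ^ 2) • p.2) := by fun_prop
  have hm2 : Measurable (fun x : E d => rs ε • x) := measurable_const_smul _
  have hm3 : Measurable (Prod.map (fun x : E d => (rs ε)⁻¹ • x) (id : E d → E d)) :=
    (measurable_const_smul _).prodMap measurable_id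
  rw [h2, Measure.map_map hm2 hm1, Measure.map_map (hm2.comp hm1) hm3]
  congr 1
  funext p
  simp only [Function.comp_apply, Prod.map_fst, Prod.map_snd, id]
  rw [smul_add, smul_inv_smul₀ hr0, smul_smul]
  unfold tau2
  rw [Real.sqrt_mul (sq_nonneg _), Real.sqrt_sq hr.le]

section meas

variable {d m N : ℕ}

theorem lv_alg_cont (R : Rule m N) {g : E d → E d} (hg : Continuous g) (ε η : ℝ) :
    Continuous (fun p : (E d × E d) × Nz N d => alg R g ε η p.1 p.2) := by
  unfold alg ou stp frc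
  fun_prop

theorem lv_run_cont (R : Rule m N) {g : E d → E d} (hg : Continuous g) (ε η : ℝ) (z : E d × E d)
    (n : ℕ) : Continuous (fun ω : Fin n → Nz N d => runS R g ε η n z ω) := by
  induction n with
  | zero => exact continuous_const
  | succ n ih =>
    have h1 : Continuous (fun ω : Fin (n + 1) → Nz N d =>
        runS R g ε η n z (fun i => ω i.castSucc)) :=
      ih.comp (continuous_pi fun i => continuous_apply _)
    exact (lv_alg_cont R hg ε η).comp (h1.prodMk (continuous_apply _))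

theorem lv_out_cont (R : Rule m N) {g : E d → E d} (hg : Continuous g) (ε η σ : ℝ)
    (n : ℕ) : Continuous (outS R g ε η σ n) := by
  unfold outS
  have h1 : Continuous (fun ω : Lz n N d => runS R g ε η n (0, 0) ω.1) :=
    (lv_run_cont R hg ε η (0, 0) n).comp continuous_fst
  exact h1.fst.add (continuous_snd.const_smul σ)

end meas

theorem level_tv {m N : ℕ} (R : Rule m N) (hm : 2 ≤ m) (hR : Monotone R.t) :
    ∃ C c0 : ℝ, 0 < C ∧ 0 < c0 ∧ c0 ≤ 1 / 4 ∧ ∀ (d : ℕ) (V : E d → ℝ) (lam ε η σ : ℝ),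
      CPot lam V → lam ≤ 1 → 0 < ε → ε ≤ c0 → 0 < η → η ≤ c0 → 0 < σ → σ ≤ 1 → ∀ n : ℕ,
      TVle ((lzM n N d).map (fun ω => rs ε • outS R (rg ε (gradient V)) ε η σ n ω))
        (cv V (tau2 ε σ))
        (C * (lvE m d ε η σ n + (1 - η / 4) ^ n / σ * ‖gradient V 0‖)) := by
  obtain ⟨C, c0, hC, hc0, hc1, h⟩ := chain_tv R hm hR
  refine ⟨2 * C, c0, by positivity, hc0, hc1, ?_⟩
  intro d V lam ε η σ hV hl hε hεc hη hηc hσ hσ1 n
  have hε2 : ε ≤ 1 / 2 := by linarith
  obtain ⟨hW, hg⟩ := kpot_scale hV hl hε hε2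
  have h1 := h d _ ε η σ hW hε hεc hη hηc hσ hσ1 n
  have hgc : Continuous (rg ε (gradient V)) := by
    have h2 : Continuous (gradient V) := by
      unfold gradient
      exact (InnerProductSpace.toDual ℝ (E d)).symm.continuous.comp
        (hV.smooth.continuous_fderiv (by norm_num))
    unfold rg
    exact (h2.comp (continuous_const_smul (rs ε))).const_smul (rs ε)
  rw [hg] at h1
  have h2 := h1.map (g := fun x => rs ε • x) (measurable_const_smul _)
  rw [cv_scale hV hε hε2, Measure.map_map (measurable_const_smul _)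
    (lv_out_cont R hgc ε η σ n).measurable] at h2
  refine TVle.mono h2 ?_
  have h3 : rg ε (gradient V) 0 = rs ε • gradient V 0 := by
    unfold rg
    rw [smul_zero]
  rw [h3, norm_smul, Real.norm_eq_abs, abs_of_pos (lv_rs_pos hε hε2)]
  have hr2 := lv_rs_le hε hε2
  have hr0 := lv_rs_pos hε hε2
  have h4 : 0 ≤ (1 - η / 4) ^ n / σ := div_nonneg (pow_nonneg (by linarith) n) hσ.le
  have h5 : 0 ≤ lvE m d ε η σ n := by
    unfold lvE locE
    have : 0 ≤ (1 - η / 4) ^ n / σ * √d := mul_nonneg h4 (Real.sqrt_nonneg _)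
    positivity
  have h6 : (1 - η / 4) ^ n / σ * (rs ε * ‖gradient V 0‖) ≤
      2 * ((1 - η / 4) ^ n / σ * ‖gradient V 0‖) := by
    have h7 : 0 ≤ ‖gradient V 0‖ := norm_nonneg _
    calc (1 - η / 4) ^ n / σ * (rs ε * ‖gradient V 0‖)
        ≤ (1 - η / 4) ^ n / σ * (2 * ‖gradient V 0‖) := by gcongr
      _ = _ := by ring
  nlinarith

end P347S
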