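import Vale.Agent.P347S.Defs

/-!
Module LiouB: `P347Q.liou_bound` for every smooth potential with the bounds `HSB B ε U`
(copy `P347Q/LiouBound.lean`; there `U = smooth ε V` is only used through `smooth_hs`).
-/

open MeasureTheory ProbabilityTheory Function
open scoped ENNReal BigOperators

namespace P347S

open P347Q P347Q.LB

section

variable {d : ℕ}

/-- the bound on the derivatives of the Hamiltonian -/
theorem lb_ham {U : E d → ℝ} {ε : ℝ} {B : ℕ → ℝ} (hU : SPot U) (hB : HSB B ε U)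
    (hB0 : ∀ n, 0 ≤ B n) (hε : 0 < ε) (hε1 : ε ≤ 1) {n : ℕ} (hn : 1 ≤ n) (w : Fin d ⊕ Fin d → ℝ) (z : E d × E d) :
    hs (dirs d ε) n (fun z' => ∑ k, w k * fderiv ℝ (ham U) z' (dirs d ε k)) z ≤
      (B n + 1) * ∑ k, w k ^ 2 := by
  obtain ⟨n, rfl⟩ : ∃ k, n = k + 1 := ⟨n - 1, by omega⟩
  set a : E d := ∑ i, w (Sum.inl i) • bas d i with ha
  have hai : ∀ i, a i = w (Sum.inl i) := by
    intro i
    have := P347Q.LB.sum_bas (WithLp.toLp 2 (fun i => w (Sum.inl i)) : E d)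
    simp only [] at this
    rw [ha, this]
  have hfun : (fun z' : E d × E d => ∑ k, w k * fderiv ℝ (ham U) z' (dirs d ε k)) =
      fun z' => ε * fderiv ℝ U z'.1 a + ∑ i, w (Sum.inr i) * z'.2 i := by
    funext z'
    rw [Fintype.sum_sum_type, ha, map_sum, Finset.mul_sum]
    congr 1
    · refine Finset.sum_congr rfl fun i _ => ?_
      rw [P347Q.LB.fderiv_ham hU]
      simp only [dirs, inner_zero_right, map_smul, smul_eq_mul]
      ring
    · refine Finset.sum_congr rfl fun i _ => ?_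
      rw [P347Q.LB.fderiv_ham hU]
      have b2 : inner ℝ z'.2 (bas d i) = z'.2 i := by
        rw [bas, EuclideanSpace.inner_single_right]
        simp
      simp only [dirs, map_zero, b2, zero_add]
  rw [hfun]
  have ht : HasTemperateGrowth (fun y => fderiv ℝ U y a) := temp_dir hU.temp a
  -- first derivative
  have hd : ∀ z' v : E d × E d,
      fderiv ℝ (fun z' : E d × E d => ε * fderiv ℝ U z'.1 a + ∑ i, w (Sum.inr i) * z'.2 i) z' v =
        ε * fderiv ℝ (fun y => fderiv ℝ U y a) z'.1 v.1 + ∑ i, w (Sum.inr i) * v.2 i := by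
    intro z' v
    have e1 : HasFDerivAt (fun z' : E d × E d => ε * fderiv ℝ U z'.1 a)
        (ε • (fderiv ℝ (fun z' : E d × E d => fderiv ℝ U z'.1 a) z')) z' :=
      ((temp_diff (fst_temp ht) z').hasFDerivAt).const_mul ε
    set L : E d × E d →L[ℝ] ℝ := ∑ i, w (Sum.inr i) •
      ((EuclideanSpace.proj i : E d →L[ℝ] ℝ).comp (ContinuousLinearMap.snd ℝ (E d) (E d)))
      with hL
    have hLa : ∀ y : E d × E d, L y = ∑ i, w (Sum.inr i) * y.2 i := by
      intro y
      rw [hL]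
      simp
    have e2 : HasFDerivAt (fun z' : E d × E d => ∑ i, w (Sum.inr i) * z'.2 i) L z' := by
      have := L.hasFDerivAt (x := z')
      refine this.congr_of_eventuallyEq (Filter.Eventually.of_forall fun y => ?_)
      exact (hLa y).symm
    have e3 := (e1.fun_add e2).fderiv
    rw [e3]
    simp only [add_apply, smul_apply, smul_eq_mul, hLa]
    rw [fderiv_fst ht]
  have hsum : ∑ k, w k ^ 2 = ‖a‖ ^ 2 + ∑ i, w (Sum.inr i) ^ 2 := by
    rw [Fintype.sum_sum_type, EuclideanSpace.norm_sq_eq]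
    simp only [hai, Real.norm_eq_abs, sq_abs]
  have hU1 := hB (n + 1) (by omega) a z.1
  have key : hs (dirs d ε) (n + 1)
      (fun z' : E d × E d => ε * fderiv ℝ U z'.1 a + ∑ i, w (Sum.inr i) * z'.2 i) z ≤
      ε ^ 2 * (ε ^ (2 * (n + 1)) * hs (bas d) (n + 1) (fun y => fderiv ℝ U y a) z.1) +
        ∑ i, w (Sum.inr i) ^ 2 := by
    rw [← hs_fst ε (n + 1) ht z, ← hs_const_mul _ _ _ (fst_temp ht)]
    simp only [hs]
    rw [Fintype.sum_sum_type, Fintype.sum_sum_type]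
    have g1 : ∀ i : Fin d, (fun z' : E d × E d => fderiv ℝ (fun z' : E d × E d =>
        ε * fderiv ℝ U z'.1 a + ∑ i, w (Sum.inr i) * z'.2 i) z' (dirs d ε (Sum.inl i))) =
        fun z' => fderiv ℝ (fun z' : E d × E d => ε * fderiv ℝ U z'.1 a) z'
          (dirs d ε (Sum.inl i)) := by
      intro i
      funext z'
      rw [hd, fderiv_const_mul (temp_diff (fst_temp ht) z')]
      simp only [smul_apply, smul_eq_mul]
      rw [fderiv_fst ht]
      simp [dirs]
    have g2 : ∀ i : Fin d, (fun z' : E d × E d => fderiv ℝ (fun z' : E d × E d =>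
        ε * fderiv ℝ U z'.1 a + ∑ i, w (Sum.inr i) * z'.2 i) z' (dirs d ε (Sum.inr i))) =
        fun z' => w (Sum.inr i) := by
      intro i
      funext z'
      rw [hd]
      simp only [dirs, map_zero, mul_zero, zero_add, bas, PiLp.ofLp_single]
      rw [Finset.sum_eq_single i]
      · simp
      · intro b _ hb
        simp [hb]
      · simp
    simp only [g1, g2]
    have g3 : ∑ i : Fin d, hs (dirs d ε) n (fun _ => w (Sum.inr i)) z ≤
        ∑ i, w (Sum.inr i) ^ 2 := Finset.sum_le_sum fun i _ => hs_const _ _ _ _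
    have g4 : 0 ≤ ∑ i : Fin d, hs (dirs d ε) n (fun z' => fderiv ℝ (fun z' : E d × E d =>
        ε * fderiv ℝ U z'.1 a) z' (dirs d ε (Sum.inr i))) z :=
      Finset.sum_nonneg fun i _ => TameAux.hs_nonneg _ _ _ _
    linarith
  refine key.trans ?_
  rw [hsum]
  have hw0 : 0 ≤ ∑ i : Fin d, w (Sum.inr i) ^ 2 := Finset.sum_nonneg fun i _ => sq_nonneg _
  have hc : (0 : ℝ) ≤ B (n + 1) := hB0 _
  have h5 : ε ^ 2 * (ε ^ (2 * (n + 1)) * hs (bas d) (n + 1) (fun y => fderiv ℝ U y a) z.1) ≤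
      B (n + 1) * ‖a‖ ^ 2 := by
    calc ε ^ 2 * (ε ^ (2 * (n + 1)) * hs (bas d) (n + 1) (fun y => fderiv ℝ U y a) z.1)
        ≤ ε ^ 2 * (ε ^ (2 * (n + 1)) * (B (n + 1) *
            (ε ^ (2 * (n + 1 - 1)))⁻¹ * ‖a‖ ^ 2)) := by
          gcongr
      _ = ε ^ 4 * (B (n + 1) * ‖a‖ ^ 2) := by
          have : ε ^ (2 * (n + 1)) = ε ^ (2 * n) * ε ^ 2 := by ring
          rw [Nat.add_sub_cancel, this]
          field_simp
      _ ≤ 1 * (B (n + 1) * ‖a‖ ^ 2) := by
          refine mul_le_mul_of_nonneg_right (pow_le_one₀ hε.le hε1) (mul_nonneg hc (by positivity))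
      _ = _ := one_mul _
  have h6 : 0 ≤ B (n + 1) * ∑ i : Fin d, w (Sum.inr i) ^ 2 :=
    mul_nonneg hc hw0
  have h7 : 0 ≤ ‖a‖ ^ 2 := by positivity
  nlinarith

/-- the bounds on the force components -/
theorem lb_force {U : E d → ℝ} {ε : ℝ} {B : ℕ → ℝ} (hU : SPot U) (hB : HSB B ε U)
    (hB0 : ∀ n, 0 ≤ B n) (hε : 0 < ε) (hε1 : ε ≤ 1) {n : ℕ} (hn : 1 ≤ n) (i : Fin d) (z : E d × E d) :
    hs (dirs d ε) n (fun z' : E d × E d => fderiv ℝ U z'.1 (bas d i)) z ≤
      B n := by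
  rw [hs_fst ε n (temp_dir hU.temp (bas d i)) z]
  have h1 := hB n hn (bas d i) z.1
  have h2 : ‖bas d i‖ = 1 := by simp [bas]
  rw [h2] at h1
  calc ε ^ (2 * n) * hs (bas d) n (fun y => fderiv ℝ U y (bas d i)) z.1
      ≤ ε ^ (2 * n) * (B n * (ε ^ (2 * (n - 1)))⁻¹ * 1 ^ 2) := by gcongr
    _ = ε ^ 2 * (B n) := by
        obtain ⟨k, rfl⟩ : ∃ k, n = k + 1 := ⟨n - 1, by omega⟩
        have : ε ^ (2 * (k + 1)) = ε ^ (2 * k) * ε ^ 2 := by ring
        rw [Nat.add_sub_cancel, this]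
        field_simp
    _ ≤ 1 * (B n) :=
        mul_le_mul_of_nonneg_right (pow_le_one₀ hε.le hε1) (hB0 n)
    _ = _ := one_mul _

end

theorem lb_main (m : ℕ) (B : ℕ → ℝ) (hB0 : ∀ n, 0 ≤ B n) : ∃ C : ℝ, 0 < C ∧
    ∀ (d : ℕ) (U : E d → ℝ) (ε : ℝ), SPot U → HSB B ε U → 0 < ε → ε ≤ 1 →
    ∫ z, ‖force U m z‖ ^ 2 ∂(phase U) ≤ C * d * (ε ^ (2 * m))⁻¹ := by
  obtain ⟨C, hC, hT⟩ := tame m (fun n => B n + 1)
  set M : ℝ := ∑ n ∈ Finset.range (2 * m + 1), B n + 2 with hM
  have hMs : 0 ≤ ∑ n ∈ Finset.range (2 * m + 1), B n := Finset.sum_nonneg fun n _ => hB0 n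
  have hM0 : 0 < M := by positivity
  refine ⟨C * M, by positivity, fun d U ε hU hB hε hε1 => ?_⟩
  have hI := phase_ibpm hU ε
  have := hI.prob
  have ht : ∀ i, HasTemperateGrowth (fun z : E d × E d => fderiv ℝ U z.1 (bas d i)) :=
    fun i => fst_temp (temp_dir hU.temp _)
  have h1 : ∀ i : Fin d, ∫ z, ((Xop (dirs d ε) (J d) (ham U))^[m]
      (fun z : E d × E d => fderiv ℝ U z.1 (bas d i)) z) ^ 2 ∂(phase U) ≤ C * M := by
    intro i
    refine hT _ _ (phase U) (dirs d ε) (ham U) hI ?_ (J d) J_anti J_contr _ (ht i) M ?_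
    · intro n hn w z
      exact lb_ham hU hB hB0 hε hε1 hn w z
    · intro n hn
      rcases Nat.eq_zero_or_pos n with rfl | hn0
      · have := force_sq hU i
        simp only [hs]
        linarith
      · have hle : ∀ z, hs (dirs d ε) n (fun z' : E d × E d => fderiv ℝ U z'.1 (bas d i)) z ≤ M := by
          intro z
          refine (lb_force hU hB hB0 hε hε1 hn0 i z).trans ?_
          have h5 : B n ≤ ∑ n ∈ Finset.range (2 * m + 1), B n :=
            Finset.single_le_sum (f := B) (fun n _ => hB0 n) (Finset.mem_range.mpr (by omega))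
          linarith
        calc _ ≤ ∫ z : E d × E d, M ∂(phase U) :=
              integral_mono (hI.int _ (TameAux.hs_temp _ _ (ht i))) (integrable_const _) hle
          _ = M := by simp
  have h2 : ∀ z, ‖force U m z‖ ^ 2 = ∑ i, ((Liou U)^[m]
      (fun z' : E d × E d => fderiv ℝ U z'.1 (bas d i)) z) ^ 2 := by
    intro z
    rw [EuclideanSpace.norm_sq_eq]
    simp only [Real.norm_eq_abs, sq_abs]
    rfl
  simp only [h2]
  rw [integral_finsetSum _ (fun i _ => ?_)]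
  · have h3 : ∀ i : Fin d, ∫ z, ((Liou U)^[m]
        (fun z' : E d × E d => fderiv ℝ U z'.1 (bas d i)) z) ^ 2 ∂(phase U) ≤
        C * M * (ε ^ (2 * m))⁻¹ := by
      intro i
      have h4 := h1 i
      rw [Xop_iter hU ε m (ht i)] at h4
      have h5 : ∀ z, (ε ^ m * (Liou U)^[m]
          (fun z' : E d × E d => fderiv ℝ U z'.1 (bas d i)) z) ^ 2 =
          ε ^ (2 * m) * ((Liou U)^[m]
          (fun z' : E d × E d => fderiv ℝ U z'.1 (bas d i)) z) ^ 2 := by
        intro z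
        ring
      simp only [h5] at h4
      rw [integral_const_mul] at h4
      rw [← div_eq_mul_inv, le_div_iff₀ (by positivity)]
      linarith
    calc _ ≤ ∑ i : Fin d, C * M * (ε ^ (2 * m))⁻¹ := Finset.sum_le_sum fun i _ => h3 i
      _ = C * M * d * (ε ^ (2 * m))⁻¹ := by
        rw [Finset.sum_const, Finset.card_univ, Fintype.card_fin, nsmul_eq_mul]
        ring
  · exact hI.int _ ((iter_temp hU m (ht i)).pow 2)


theorem liou_b (m : ℕ) (B : ℕ → ℝ) : ∃ C : ℝ, 0 < C ∧ ∀ (d : ℕ) (U : E d → ℝ) (ε : ℝ), SPot U →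
    HSB B ε U → 0 < ε → ε ≤ 1 →
    ∫ z, ‖force U m z‖ ^ 2 ∂(phase U) ≤ C * d * (ε ^ (2 * m))⁻¹ := by
  obtain ⟨C, hC, h⟩ := lb_main m (fun n => |B n|) (fun n => abs_nonneg _)
  refine ⟨C, hC, fun d U ε hU hB hε hε1 => h d U ε hU (fun n hn w x => ?_) hε hε1⟩
  refine (hB n hn w x).trans ?_
  have h1 : B n ≤ |B n| := le_abs_self _
  gcongr

end P347S
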