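import Vale.Agent.P347S.LocalPath
import Vale.Agent.P347S.LiouB

/-!
Module LocalExp: expectation of the local error (`local_path`, `liou_b` with `lsm_hsb`,
`P347Q.force_l1`, `P347Q.flow_fubini`, `gibbs_grad_sq`, `gauss_norm`).
-/

open MeasureTheory ProbabilityTheory Function
open scoped ENNReal BigOperators

namespace P347S

open P347Q

/-- size of the local error -/
noncomputable def locE (m : ℕ) (d : ℕ) (ε η : ℝ) : ℝ :=
  √d * (η * (η ^ 3 + η ^ 2 * ε + η * ε ^ 2) + ε * (η / ε) ^ m)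

theorem lx_grad_cont {d : ℕ} {W : E d → ℝ} (h : ContDiff ℝ 2 W) : Continuous (gradient W) := by
  unfold gradient
  exact (InnerProductSpace.toDual ℝ (E d)).symm.continuous.comp
    (h.continuous_fderiv (by norm_num))

theorem lx_frc_cont {m N : ℕ} (R : Rule m N) {d : ℕ} {g : E d → E d} (hg : Continuous g)
    (ε η : ℝ) (i : Fin N) :
    Continuous (fun p : (E d × E d) × (Fin N → E d) => frc R g ε η p.1 p.2 i) := by
  have h2 : Continuous (fun p : (E d × E d) × (Fin N → E d) => g p.1.1) :=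
    hg.comp (continuous_fst.comp continuous_fst)
  have h3 : Continuous (fun p : (E d × E d) × (Fin N → E d) => p.2 i) :=
    (continuous_apply i).comp continuous_snd
  have h4 : Continuous (fun p : (E d × E d) × (Fin N → E d) => p.1.1 + (η * R.t i) • p.1.2 -
      ((η * R.t i) ^ 2 / 2 + ε ^ 2) • g p.1.1 + ε • p.2 i) := by
    fun_prop
  exact hg.comp h4

theorem lx_stp_cont {m N : ℕ} (R : Rule m N) {d : ℕ} {g : E d → E d} (hg : Continuous g)
    (ε η : ℝ) : Continuous (fun p : (E d × E d) × (Fin N → E d) => stp R g ε η p.1 p.2) := by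
  have h1 := lx_frc_cont R hg ε η
  have h6 : ∀ i (c : ℝ), Continuous (fun p : (E d × E d) × (Fin N → E d) =>
      c • frc R g ε η p.1 p.2 i) := fun i c => (h1 i).const_smul c
  have h2 : Continuous (fun p : (E d × E d) × (Fin N → E d) =>
      ∑ i, (R.w i * (1 - R.t i)) • frc R g ε η p.1 p.2 i) :=
    continuous_finsetSum _ fun i _ => h6 i _
  have h3 : Continuous (fun p : (E d × E d) × (Fin N → E d) =>
      ∑ i, R.w i • frc R g ε η p.1 p.2 i) :=
    continuous_finsetSum _ fun i _ => h6 i _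
  have h4 : Continuous (fun p : (E d × E d) × (Fin N → E d) => p.1.1 + η • p.1.2 -
      η ^ 2 • ∑ i, (R.w i * (1 - R.t i)) • frc R g ε η p.1 p.2 i) := by
    fun_prop
  have h5 : Continuous (fun p : (E d × E d) × (Fin N → E d) => p.1.2 -
      η • ∑ i, R.w i • frc R g ε η p.1 p.2 i) := by
    fun_prop
  exact h4.prodMk h5

/-- first moments of the noise -/
theorem lx_noise {m N : ℕ} (R : Rule m N) (hm : 1 ≤ m) (d : ℕ) :
    Integrable (fun X : Fin N → E d => ∑ i, R.w i * ‖X i‖) (gN N d) ∧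
      ∫ X, ∑ i, R.w i * ‖X i‖ ∂(gN N d) ≤ √d := by
  have hz : Integrable (fun z : E d => ‖z‖) (stdGaussian (E d)) := by
    simpa using gauss_int_pow d 1
  have hi : ∀ i : Fin N, Integrable (fun X : Fin N → E d => ‖X i‖) (gN N d) := fun i =>
    integrable_comp_eval (μ := fun _ : Fin N => stdGaussian (E d)) (i := i) hz
  refine ⟨integrable_finsetSum _ fun i _ => (hi i).const_mul _, ?_⟩
  rw [integral_finsetSum _ fun i _ => (hi i).const_mul _]
  have h1 : ∀ i : Fin N, ∫ X, ‖X i‖ ∂(gN N d) ≤ √d := by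
    intro i
    have := integral_comp_eval (μ := fun _ : Fin N => stdGaussian (E d)) (i := i)
      (f := fun z : E d => ‖z‖) hz.aestronglyMeasurable
    unfold gN
    rw [this]
    exact gauss_norm d
  calc ∑ i, ∫ X, R.w i * ‖X i‖ ∂(gN N d) = ∑ i, R.w i * ∫ X, ‖X i‖ ∂(gN N d) := by
        refine Finset.sum_congr rfl fun i _ => ?_
        rw [integral_const_mul]
    _ ≤ ∑ i, R.w i * √d := Finset.sum_le_sum fun i _ =>
        mul_le_mul_of_nonneg_left (h1 i) (R.w_nonneg i)
    _ = √d := by rw [← Finset.sum_mul, R.sum_w hm, one_mul]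

theorem lx_grad {d : ℕ} {U : E d → ℝ} (hU : SPot U) :
    Integrable (fun x => ‖gradient U x‖) (gibbs U) ∧
      ∫ x, ‖gradient U x‖ ∂(gibbs U) ≤ √(2 * d) := by
  have := hU.prob
  have h2 : Integrable (fun x => ‖gradient U x‖ ^ 2) (gibbs U) :=
    gibbs_integrable hU (temp_gradient_sq hU.temp)
  have hc := lx_grad_cont hU.contDiff
  have h1 : Integrable (fun x => ‖gradient U x‖) (gibbs U) := by
    refine ((integrable_const (1 : ℝ)).add h2).mono' hc.norm.aestronglyMeasurable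
      (Filter.Eventually.of_forall fun x => ?_)
    rw [norm_norm]
    simp only [Pi.add_apply]
    nlinarith [sq_nonneg (‖gradient U x‖ - 1), norm_nonneg (gradient U x)]
  refine ⟨h1, ?_⟩
  refine KN.l1_le_of_l2 _ (Real.sqrt_nonneg _) h1 h2 ?_
  rw [Real.sq_sqrt (by positivity)]
  exact gibbs_grad_sq hU

instance lx_gN_prob (N d : ℕ) : IsProbabilityMeasure (gN N d) := by
  unfold gN
  infer_instance

theorem local_exp {m N : ℕ} (R : Rule m N) (hm : 2 ≤ m) (hR : Monotone R.t) :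
    ∃ C c0 : ℝ, 0 < C ∧ 0 < c0 ∧ ∀ (d : ℕ) (W : E d → ℝ) (ε η : ℝ), KPot ε W → 0 < ε → ε ≤ c0 →
    0 < η → η ≤ c0 → ∀ Φ, IsFlow (lsm ε W) Φ →
      Integrable (fun p : (E d × E d) × (Fin N → E d) =>
        2 * ‖(stp R (gradient W) ε η p.1 p.2).1 - (innF R W ε η Φ p.1 p.2).1‖ +
          ‖(stp R (gradient W) ε η p.1 p.2).2 - (innF R W ε η Φ p.1 p.2).2‖)
        ((phase (lsm ε W)).prod (gN N d)) ∧
      ∫ p, (2 * ‖(stp R (gradient W) ε η p.1 p.2).1 - (innF R W ε η Φ p.1 p.2).1‖ +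
          ‖(stp R (gradient W) ε η p.1 p.2).2 - (innF R W ε η Φ p.1 p.2).2‖)
        ∂((phase (lsm ε W)).prod (gN N d)) ≤ C * locE m d ε η := by
  obtain ⟨C1, c1, hC1, hc1, hpath⟩ := local_path R hm hR
  obtain ⟨C2, hC2, hliou⟩ := liou_b (m - 1) (fun n => 9 * ((n.factorial : ℝ)) ^ 2)
  refine ⟨3 * C1 * (5 + √C2), min c1 (1 / 4), by positivity, by positivity, ?_⟩
  intro d W ε η hW h0 hε hη hη1 Φ hΦ
  have hε1 : ε ≤ 1 / 4 := hε.trans (min_le_right _ _)
  have hη2 : η ≤ 1 / 4 := hη1.trans (min_le_right _ _)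
  have hU := lsm_spot hW h0 (by linarith)
  have hH := lsm_hsb hW h0 (by linarith)
  set U := lsm ε W with hUdef
  have := hU.prob
  have := phase_prob hU
  have hP := hpath d W ε η hW h0 (hε.trans (min_le_left _ _)) hη (hη1.trans (min_le_left _ _)) Φ hΦ
  set A : ℝ := η * (η ^ 3 + η ^ 2 * ε + η * ε ^ 2) with hA
  have hA0 : 0 ≤ A := by positivity
  set Jf : E d × E d → ℝ := fun z => ∫ s in (0 : ℝ)..η, ‖force U (m - 1) (Φ s z)‖ with hJ
  -- the dominating function
  obtain ⟨jn, bn⟩ := lx_noise R (by omega) d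
  obtain ⟨jg, bg⟩ := lx_grad hU
  have hfl := hliou d U ε hU hH h0 (by linarith)
  obtain ⟨jf, bf⟩ := force_l1 hU (m - 1) hfl
  obtain ⟨jJ, bJ⟩ := flow_fubini hU hΦ hη.le hη2 (force_cont hU (m - 1)).norm jf
  have jz : Integrable (fun z : E d => ‖z‖) (stdGaussian (E d)) := by
    simpa using gauss_int_pow d 1
  have j1 : Integrable (fun z : E d × E d => ‖z.2‖) (phase U) := jz.comp_snd (μ := gibbs U)
  have j2 : Integrable (fun z : E d × E d => ‖gradient U z.1‖) (phase U) :=
    jg.comp_fst (ν := stdGaussian (E d))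
  set G : E d × E d → ℝ := fun z => A * (‖z.2‖ + ‖gradient U z.1‖ + √d) + η ^ (m - 1) * Jf z with hG
  have jG : Integrable G (phase U) :=
    (((j1.add j2).add (integrable_const _)).const_mul _).add (jJ.const_mul _)
  have bG : ∫ z, G z ∂(phase U) ≤ A * (√d + √(2 * d) + √d) +
      η ^ (m - 1) * (η * √(C2 * d * (ε ^ (2 * (m - 1)))⁻¹)) := by
    have e1 : ∫ z, G z ∂(phase U) = A * (∫ z : E d × E d, ‖z.2‖ ∂(phase U) +
        ∫ z : E d × E d, ‖gradient U z.1‖ ∂(phase U) + √d) + η ^ (m - 1) * ∫ z, Jf z ∂(phase U) := by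
      have k1 : Integrable (fun z : E d × E d => ‖z.2‖ + ‖gradient U z.1‖) (phase U) := j1.add j2
      have k3 : Integrable (fun z : E d × E d => ‖z.2‖ + ‖gradient U z.1‖ + √d) (phase U) :=
        k1.add (integrable_const _)
      have k0 : Integrable (fun z : E d × E d => A * (‖z.2‖ + ‖gradient U z.1‖ + √d))
        (phase U) := k3.const_mul A
      have k2 : Integrable (fun z : E d × E d => η ^ (m - 1) * Jf z) (phase U) := jJ.const_mul _
      simp only [hG]
      rw [integral_add k0 k2, integral_const_mul, integral_const_mul,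
        integral_add k1 (integrable_const _), integral_add j1 j2]
      simp
    have e2 : ∫ z : E d × E d, ‖z.2‖ ∂(phase U) = ∫ z : E d, ‖z‖ ∂(stdGaussian (E d)) := by
      unfold phase
      exact (integral_fun_snd (μ := gibbs U) (ν := stdGaussian (E d)) (fun z => ‖z‖)).trans
        (by simp)
    have e3 : ∫ z : E d × E d, ‖gradient U z.1‖ ∂(phase U) = ∫ x, ‖gradient U x‖ ∂(gibbs U) := by
      unfold phase
      exact (integral_fun_fst (μ := gibbs U) (ν := stdGaussian (E d))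
        (fun x => ‖gradient U x‖)).trans (by simp)
    rw [e1, e2, e3]
    have b1 := gauss_norm d
    have b2 : ∫ z, Jf z ∂(phase U) ≤ η * √(C2 * d * (ε ^ (2 * (m - 1)))⁻¹) := by
      rw [bJ]
      exact mul_le_mul_of_nonneg_left bf hη.le
    have b3 := mul_le_mul_of_nonneg_left b2 (pow_nonneg hη.le (m - 1))
    have b4 := mul_le_mul_of_nonneg_left (add_le_add_left (add_le_add b1 bg) (√d)) hA0
    linarith
  have jdom : Integrable (fun p : (E d × E d) × (Fin N → E d) =>
      3 * C1 * (G p.1 + A * ∑ i, R.w i * ‖p.2 i‖)) ((phase U).prod (gN N d)) := by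
    refine Integrable.const_mul ?_ _
    exact (jG.comp_fst (ν := gN N d)).add ((jn.comp_snd (μ := phase U)).const_mul A)
  have hdom : ∀ p : (E d × E d) × (Fin N → E d),
      2 * ‖(stp R (gradient W) ε η p.1 p.2).1 - (innF R W ε η Φ p.1 p.2).1‖ +
          ‖(stp R (gradient W) ε η p.1 p.2).2 - (innF R W ε η Φ p.1 p.2).2‖ ≤
        3 * C1 * (G p.1 + A * ∑ i, R.w i * ‖p.2 i‖) := by
    intro p
    obtain ⟨h1, h2⟩ := hP p.1 p.2
    have e : C1 * (A * (‖p.1.2‖ + ‖gradient U p.1.1‖ + √d + ∑ i, R.w i * ‖p.2 i‖) +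
        η ^ (m - 1) * Jf p.1) = C1 * (G p.1 + A * ∑ i, R.w i * ‖p.2 i‖) := by
      simp only [hG]
      ring
    rw [e] at h1 h2
    linarith
  have hcont : Continuous (fun p : (E d × E d) × (Fin N → E d) =>
      2 * ‖(stp R (gradient W) ε η p.1 p.2).1 - (innF R W ε η Φ p.1 p.2).1‖ +
          ‖(stp R (gradient W) ε η p.1 p.2).2 - (innF R W ε η Φ p.1 p.2).2‖) := by
    have c1 := lx_stp_cont R (lx_grad_cont hW.smooth) ε η
    have c2 := innF_cont R hR hW h0 hε1 hη hη2 hΦ
    exact (((continuous_fst.comp c1).sub (continuous_fst.comp c2)).norm.const_mul 2).add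
      ((continuous_snd.comp c1).sub (continuous_snd.comp c2)).norm
  have jmain : Integrable (fun p : (E d × E d) × (Fin N → E d) =>
      2 * ‖(stp R (gradient W) ε η p.1 p.2).1 - (innF R W ε η Φ p.1 p.2).1‖ +
          ‖(stp R (gradient W) ε η p.1 p.2).2 - (innF R W ε η Φ p.1 p.2).2‖)
      ((phase U).prod (gN N d)) := by
    refine jdom.mono' hcont.aestronglyMeasurable (Filter.Eventually.of_forall fun p => ?_)
    rw [Real.norm_of_nonneg (by positivity)]
    exact hdom p
  refine ⟨jmain, ?_⟩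
  refine (integral_mono jmain jdom hdom).trans ?_
  have hsplit : ∫ p : (E d × E d) × (Fin N → E d), 3 * C1 * (G p.1 + A * ∑ i, R.w i * ‖p.2 i‖)
      ∂((phase U).prod (gN N d)) = 3 * C1 * (∫ z, G z ∂(phase U) +
        A * ∫ X, ∑ i, R.w i * ‖X i‖ ∂(gN N d)) := by
    have k1 : Integrable (fun p : (E d × E d) × (Fin N → E d) => G p.1)
      ((phase U).prod (gN N d)) := jG.comp_fst (ν := gN N d)
    have k2 : Integrable (fun p : (E d × E d) × (Fin N → E d) => A * ∑ i, R.w i * ‖p.2 i‖)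
      ((phase U).prod (gN N d)) := (jn.comp_snd (μ := phase U)).const_mul A
    have e4 : ∫ p : (E d × E d) × (Fin N → E d), G p.1 ∂((phase U).prod (gN N d)) =
        ∫ z, G z ∂(phase U) := by
      have := integral_fun_fst (μ := phase U) (ν := gN N d) G
      rw [this]
      simp
    have e5 : ∫ p : (E d × E d) × (Fin N → E d), ∑ i, R.w i * ‖p.2 i‖ ∂((phase U).prod (gN N d)) =
        ∫ X, ∑ i, R.w i * ‖X i‖ ∂(gN N d) := by
      have := integral_fun_snd (μ := phase U) (ν := gN N d)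
        (fun X : Fin N → E d => ∑ i, R.w i * ‖X i‖)
      rw [this]
      simp
    rw [integral_const_mul, integral_add k1 k2, integral_const_mul, e4, e5]
  rw [hsplit]
  -- numerical estimate
  have hd0 : (0 : ℝ) ≤ d := Nat.cast_nonneg _
  have s1 : √(2 * d) ≤ 2 * √d := by
    rw [Real.sqrt_mul (by norm_num)]
    have : √2 ≤ 2 := by rw [Real.sqrt_le_left (by norm_num)]; norm_num
    exact mul_le_mul_of_nonneg_right this (Real.sqrt_nonneg _)
  have s2 : √(C2 * d * (ε ^ (2 * (m - 1)))⁻¹) = √C2 * √d * (ε ^ (m - 1))⁻¹ := by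
    rw [Real.sqrt_mul (by positivity), Real.sqrt_mul hC2.le, Real.sqrt_inv]
    congr 2
    rw [mul_comm 2 (m - 1), pow_mul, Real.sqrt_sq (by positivity)]
  have s3 : η ^ (m - 1) * (η * (√C2 * √d * (ε ^ (m - 1))⁻¹)) = √C2 * √d * (ε * (η / ε) ^ m) := by
    obtain ⟨k, rfl⟩ : ∃ k, m = k + 1 := ⟨m - 1, by omega⟩
    rw [Nat.add_sub_cancel, div_pow]
    field_simp
    ring
  rw [s2, s3] at bG
  have hd1 := Real.sqrt_nonneg (d : ℝ)
  have hX0 : 0 ≤ ε * (η / ε) ^ m := by positivity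
  have b5 : A * ∫ X, ∑ i, R.w i * ‖X i‖ ∂(gN N d) ≤ A * √d := mul_le_mul_of_nonneg_left bn hA0
  have b6 : A * (√d + √(2 * d) + √d) ≤ A * (4 * √d) :=
    mul_le_mul_of_nonneg_left (by linarith) hA0
  have b7 : ∫ z, G z ∂(phase U) + A * ∫ X, ∑ i, R.w i * ‖X i‖ ∂(gN N d) ≤
      (5 + √C2) * locE m d ε η := by
    unfold locE
    rw [← hA]
    have p1 : 0 ≤ √C2 * (√d * A) := by positivity
    have p2 : 0 ≤ 5 * (√d * (ε * (η / ε) ^ m)) := by positivity
    nlinarith
  calc 3 * C1 * (∫ z, G z ∂(phase U) + A * ∫ X, ∑ i, R.w i * ‖X i‖ ∂(gN N d))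
      ≤ 3 * C1 * ((5 + √C2) * locE m d ε η) := mul_le_mul_of_nonneg_left b7 (by positivity)
    _ = _ := by ring

end P347S
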