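import Vale.Agent.P347S.Inner
import Vale.Agent.P347S.InnerDiff

/-!
Module LocalPath: pathwise comparison of one step of the integrator with the ideal step driven by
the same noises.

Proof.  `W`, `U = lsm ε W`, `z = (y,p)`, `y_i` the position of the ideal step at node `i`,
`e_i = err W ε y_i X_i`, `M = ∑ w_i |e_i|`, `y°(r) = (Φ r z).1`.
1. `inn = kst` with these `e_i`; so `kick_path` applies.
2. `|e_i| ≤ 3(ε|X_i| + 2ε√d + 2ε²|∇W(y_i)|)` (`est - ∇W(y_i)`, `grad_cmp`),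
   `|∇W(y_i)| ≤ |∇W(y)| + 3|y_i - y|`, `|y_i - y| ≤ |y_i - y°_i| + |y°_i - y| ≤ C η² M + 2η(|p|+η|∇U(y)|)`;
   as `ε ≤ 1/4` small and `η ≤ c0` this gives `M ≤ C ε B`, `B = |p| + |∇U(y)| + √d + ∑ w_i |X_i|`
   (`|∇W(y)| ≤ 2|∇U(y)| + 6ε√d`).
3. argument of the force: `|frc_i - est(∇W)(y_i, X_i)| ≤ 3 (|y + τp - (τ²/2)∇W(y) - y_i| + 3ε²|y - y_i|)`,
   `τ = ηt_i`, and `|y + τp - (τ²/2)∇W(y) - y_i| ≤ flow_short + (η²/2)|∇W(y)-∇U(y)| + kick_path(a)`: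
   altogether `≤ C (η³ + η²ε + ηε²) B`.
4. `stp.2 - innF.2 = -η∑w_i(frc_i - est_i) - [η∑w_i ∇U(y_i) - ∫_0^η ∇U(y°)] + (kick_path(c))`,
   `|∇U(y_i) - ∇U(y°_i)| ≤ 2 C η² M`, quadrature error along `y°` from `quad_err_a` applied to
   `g k s = ± force U k (Φ s z)` exactly as in `P347Q.local_pt`; positions similarly (`quad_err_b`).
-/

open MeasureTheory ProbabilityTheory Function
open scoped ENNReal BigOperators

namespace P347S

open P347Q

/-- noises extended to `ℕ` -/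
noncomputable def lp_X {N d : ℕ} (X : Fin N → E d) (k : ℕ) : E d := if h : k < N then X ⟨k, h⟩ else 0

/-- noise of the kick number `k` of the ideal step -/
noncomputable def lp_e {d m N : ℕ} (R : Rule m N) (W : E d → ℝ) (ε η : ℝ)
    (Φ : ℝ → E d × E d → E d × E d) (z : E d × E d) (X : Fin N → E d) (k : ℕ) : E d :=
  err W ε (Φ (η * (nd R k - prv R k)) (inn R W ε η Φ k z (fun i => lp_X X i))).1 (lp_X X k)

theorem lp_inn {d m N : ℕ} (R : Rule m N) (W : E d → ℝ) (ε η : ℝ)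
    (Φ : ℝ → E d × E d → E d × E d) (z : E d × E d) (X : Fin N → E d) (k : ℕ) :
    inn R W ε η Φ k z (fun i => lp_X X i) = kst R η Φ (lp_e R W ε η Φ z X) k z := by
  induction k with
  | zero => rfl
  | succ k ih =>
    have h1 : inn R W ε η Φ (k + 1) z (fun i => lp_X X i) =
        nk W ε η (wt R k) (Φ (η * (nd R k - prv R k)) (inn R W ε η Φ k z (fun i => lp_X X i)))
          (lp_X X k) := rfl
    have h2 : kst R η Φ (lp_e R W ε η Φ z X) (k + 1) z =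
      ((Φ (η * (nd R k - prv R k)) (kst R η Φ (lp_e R W ε η Φ z X) k z)).1,
      (Φ (η * (nd R k - prv R k)) (kst R η Φ (lp_e R W ε η Φ z X) k z)).2 -
        (η * wt R k) • lp_e R W ε η Φ z X k) := rfl
    rw [h1, h2, ← ih]
    rfl

theorem lp_innF {d m N : ℕ} (R : Rule m N) (W : E d → ℝ) (ε η : ℝ)
    (Φ : ℝ → E d × E d → E d × E d) (z : E d × E d) (X : Fin N → E d) :
    innF R W ε η Φ z X = Φ (η * (1 - prv R N)) (kst R η Φ (lp_e R W ε η Φ z X) N z) := by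
  unfold innF
  rw [← lp_inn]
  congr 2
  funext i
  unfold lp_X
  rw [dif_pos i.isLt]

theorem lp_e_eq {d m N : ℕ} (R : Rule m N) (W : E d → ℝ) (ε η : ℝ)
    (Φ : ℝ → E d × E d → E d × E d) (z : E d × E d) (X : Fin N → E d) (i : Fin N) :
    lp_e R W ε η Φ z X i = err W ε (kpos R η Φ (lp_e R W ε η Φ z X) i z) (X i) := by
  have h1 : lp_X X i = X i := by
    unfold lp_X
    rw [dif_pos i.isLt]
  conv_lhs => unfold lp_e
  unfold kpos
  rw [lp_inn, h1]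

/-- `est` against the gradient -/
theorem lp_est {d : ℕ} {W : E d → ℝ} {ε : ℝ} (hW : KPot ε W) (h0 : 0 < ε) (h1 : ε ≤ 1 / 4) (y X : E d) :
    ‖err W ε y X‖ ≤ 3 * ε * ‖X‖ + 3 * ε * √d + 6 * ε ^ 2 * ‖gradient W y‖ := by
  have a1 := (grad_cmp hW h0 h1 y).1
  have a2 := hW.grad_lip h0 (by linarith) (y - ε ^ 2 • gradient W y + ε • X) y
  have a3 : ‖y - ε ^ 2 • gradient W y + ε • X - y‖ ≤ ε ^ 2 * ‖gradient W y‖ + ε * ‖X‖ := by
    have e : y - ε ^ 2 • gradient W y + ε • X - y = -(ε ^ 2 • gradient W y) + ε • X := by abel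
    rw [e]
    refine (norm_add_le _ _).trans ?_
    rw [norm_neg, norm_smul, norm_smul, Real.norm_of_nonneg (by positivity),
      Real.norm_of_nonneg h0.le]
  have e2 : err W ε y X = (gradient W (y - ε ^ 2 • gradient W y + ε • X) - gradient W y) +
      (gradient W y - gradient (lsm ε W) y) := by
    unfold err est
    abel
  rw [e2]
  refine (norm_add_le _ _).trans ?_
  nlinarith

/-- weighted sums of norms -/
theorem lp_wsum {m N : ℕ} (R : Rule m N) (hm : 1 ≤ m) (f : Fin N → ℝ) {a : ℝ}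
    (hf : ∀ j, f j ≤ a) : ∑ j, R.w j * f j ≤ a := by
  calc ∑ j, R.w j * f j ≤ ∑ j, R.w j * a :=
        Finset.sum_le_sum fun j _ => mul_le_mul_of_nonneg_left (hf j) (R.w_nonneg j)
    _ = a := by rw [← Finset.sum_mul, sum_w R hm, one_mul]

theorem lp_num_M {K ε η P G D S Z M : ℝ} (hK1 : 1 ≤ K) (hε : 0 < ε) (hη : 0 < η)
    (hKη : K * η ≤ 1 / 40) (hε4 : ε ≤ 1 / 40) (hη4 : η ≤ 1 / 40) (hP0 : 0 ≤ P) (hG0 : 0 ≤ G)
    (hD0 : 0 ≤ D) (hS0 : 0 ≤ S) (hM0 : 0 ≤ M) (hc2 : Z ≤ 2 * G + 6 * ε * D)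
    (h2 : M ≤ 3 * ε * S + (3 * ε * D +
        6 * ε ^ 2 * (Z + 3 * (K * η ^ 2 * M + 2 * η * (P + η * G))))) :
    M ≤ 12 * ε * (P + G + D + S) := by
  have h3 : 6 * ε ^ 2 * Z ≤ 6 * ε ^ 2 * (2 * G + 6 * ε * D) :=
    mul_le_mul_of_nonneg_left hc2 (by positivity)
  have h4 : 18 * ε ^ 2 * (K * η ^ 2 * M) ≤ 1 / 2 * M := by
    have a1 : K * η ^ 2 ≤ 1 / 1600 := by
      calc K * η ^ 2 = (K * η) * η := by ring
        _ ≤ (1 / 40) * (1 / 40) := mul_le_mul hKη hη4 hη.le (by norm_num)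
        _ = 1 / 1600 := by norm_num
    have a2 : ε ^ 2 ≤ 1 := by nlinarith
    have a3 : ε ^ 2 * (K * η ^ 2) ≤ 1 * (1 / 1600) := mul_le_mul a2 a1 (by positivity) (by norm_num)
    have a4 : 18 * ε ^ 2 * (K * η ^ 2 * M) = 18 * (ε ^ 2 * (K * η ^ 2)) * M := by ring
    rw [a4]
    nlinarith
  have h5 : M ≤ 2 * (3 * ε * S + 3 * ε * D + 6 * ε ^ 2 * (2 * G + 6 * ε * D) +
      18 * ε ^ 2 * (2 * η * (P + η * G))) := by nlinarith
  have h6 : ε ^ 2 ≤ ε * (1 / 40) := by nlinarith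
  have h7 : 6 * ε ^ 2 * (2 * G + 6 * ε * D) ≤ ε * (G + D) := by
    have b1 : 6 * ε ^ 2 * (2 * G + 6 * ε * D) ≤ 6 * (ε * (1 / 40)) * (2 * G + 6 * ε * D) :=
      mul_le_mul_of_nonneg_right (by linarith) (by positivity)
    have b2 : 6 * ε * D ≤ 1 * D := mul_le_mul_of_nonneg_right (by linarith) hD0
    have b3 : 6 * (ε * (1 / 40)) * (2 * G + 6 * ε * D) ≤ 6 * (ε * (1 / 40)) * (2 * G + 1 * D) :=
      mul_le_mul_of_nonneg_left (by linarith) (by positivity)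
    have b4 : 0 ≤ ε * G := by positivity
    have b5 : 0 ≤ ε * D := by positivity
    nlinarith
  have h8 : 18 * ε ^ 2 * (2 * η * (P + η * G)) ≤ ε * (P + G) := by
    have b1 : 18 * ε ^ 2 * (2 * η * (P + η * G)) ≤ 18 * (ε * (1 / 40)) * (2 * η * (P + η * G)) :=
      mul_le_mul_of_nonneg_right (by linarith) (by positivity)
    have b2 : η * G ≤ 1 * G := mul_le_mul_of_nonneg_right (by linarith) hG0
    have b3 : 2 * η * (P + η * G) ≤ 1 * (P + G) :=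
      mul_le_mul (by linarith) (by linarith) (by positivity) (by norm_num)
    have b4 : 18 * (ε * (1 / 40)) * (2 * η * (P + η * G)) ≤ 18 * (ε * (1 / 40)) * (1 * (P + G)) :=
      mul_le_mul_of_nonneg_left b3 (by positivity)
    have b5 : 0 ≤ ε * (P + G) := by positivity
    nlinarith
  have h9 : 0 ≤ ε * S := by positivity
  have h10 : 0 ≤ ε * D := by positivity
  have h11 : 0 ≤ ε * P := by positivity
  have h12 : 0 ≤ ε * G := by positivity
  nlinarith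

theorem lp_num_frc {K ε η τ P G D S Z M : ℝ} (hK1 : 1 ≤ K) (hε : 0 < ε) (hη : 0 < η)
    (hε4 : ε ≤ 1 / 40) (hη4 : η ≤ 1 / 40) (hP0 : 0 ≤ P) (hG0 : 0 ≤ G)
    (hD0 : 0 ≤ D) (hS0 : 0 ≤ S) (hM0 : 0 ≤ M) (hZ0 : 0 ≤ Z) (hc2 : Z ≤ 2 * G + 6 * ε * D)
    (hMb : M ≤ 12 * ε * (P + G + D + S)) (t0 : 0 ≤ τ) (t1 : τ ≤ η) :
    3 * (2 * τ ^ 3 * (P + τ * G) +
        τ ^ 2 / 2 * (3 * ε * D + 3 * ε ^ 2 * Z) + K * η ^ 2 * M +
        ε ^ 2 * (3 * (3 * η * (P + G + D + S)))) ≤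
      (27 + 36 * K) * (η ^ 3 + η ^ 2 * ε + η * ε ^ 2) * (P + G + D + S) := by
  set B : ℝ := P + G + D + S with hB
  have hB0 : 0 ≤ B := by positivity
  have b1 : τ ^ 3 ≤ η ^ 3 := pow_le_pow_left₀ t0 t1 3
  have b2 : τ ^ 2 ≤ η ^ 2 := pow_le_pow_left₀ t0 t1 2
  have b3 : P + τ * G ≤ B := by
    have : τ * G ≤ 1 * G := mul_le_mul_of_nonneg_right (by linarith) hG0
    rw [hB]
    linarith
  have b4 : 2 * τ ^ 3 * (P + τ * G) ≤ 2 * η ^ 3 * B :=
    mul_le_mul (by linarith) b3 (by positivity) (by positivity)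
  have b5 : 3 * ε * D + 3 * ε ^ 2 * Z ≤ 6 * ε * B := by
    have c1 : 3 * ε ^ 2 * Z ≤ 3 * ε ^ 2 * (2 * G + 6 * ε * D) :=
      mul_le_mul_of_nonneg_left hc2 (by positivity)
    have c2 : 3 * ε ^ 2 * (2 * G + 6 * ε * D) = ε * (6 * ε * G + 18 * ε ^ 2 * D) := by ring
    have c3 : 6 * ε * G ≤ 1 * G := mul_le_mul_of_nonneg_right (by linarith) hG0
    have c4 : 18 * ε ^ 2 * D ≤ 1 * D := mul_le_mul_of_nonneg_right (by nlinarith) hD0
    have c5 : ε * (6 * ε * G + 18 * ε ^ 2 * D) ≤ ε * (G + D) :=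
      mul_le_mul_of_nonneg_left (by linarith) hε.le
    have c6 : 0 ≤ ε * S := by positivity
    have c7 : 0 ≤ ε * D := by positivity
    have c8 : 0 ≤ ε * P := by positivity
    have c9 : 0 ≤ ε * G := by positivity
    rw [hB]
    nlinarith
  have b6 : τ ^ 2 / 2 * (3 * ε * D + 3 * ε ^ 2 * Z) ≤ η ^ 2 / 2 * (6 * ε * B) :=
    mul_le_mul (by linarith) b5 (by positivity) (by positivity)
  have b7 : K * η ^ 2 * M ≤ K * η ^ 2 * (12 * ε * B) := mul_le_mul_of_nonneg_left hMb (by positivity)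
  have b8 : 0 ≤ η ^ 3 * B := by positivity
  have b9 : 0 ≤ η ^ 2 * ε * B := by positivity
  have b10 : 0 ≤ η * ε ^ 2 * B := by positivity
  have b11 : 0 ≤ K * (η ^ 3 * B) := by positivity
  have b12 : 0 ≤ K * (η * ε ^ 2 * B) := by positivity
  calc 3 * (2 * τ ^ 3 * (P + τ * G) + τ ^ 2 / 2 * (3 * ε * D + 3 * ε ^ 2 * Z) +
        K * η ^ 2 * M + ε ^ 2 * (3 * (3 * η * B)))
      ≤ 3 * (2 * η ^ 3 * B + η ^ 2 / 2 * (6 * ε * B) + K * η ^ 2 * (12 * ε * B) +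
        ε ^ 2 * (3 * (3 * η * B))) := by linarith
    _ = 6 * (η ^ 3 * B) + 9 * (η ^ 2 * ε * B) + 36 * (K * (η ^ 2 * ε * B)) +
        27 * (η * ε ^ 2 * B) := by ring
    _ ≤ 27 * (η ^ 3 * B) + 27 * (η ^ 2 * ε * B) + 27 * (η * ε ^ 2 * B) +
        36 * (K * (η ^ 3 * B)) + 36 * (K * (η ^ 2 * ε * B)) + 36 * (K * (η * ε ^ 2 * B)) := by linarith
    _ = (27 + 36 * K) * (η ^ 3 + η ^ 2 * ε + η * ε ^ 2) * B := by ring

/-- the size of the kicks -/
theorem lp_size {m N : ℕ} (R : Rule m N) (hm : 1 ≤ m) {d : ℕ} {W : E d → ℝ} {ε η K P G M : ℝ}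
    (hW : KPot ε W) (hε : 0 < ε) (hε4 : ε ≤ 1 / 4) (x : E d) (y : Fin N → E d) (e : Fin N → E d)
    (X : Fin N → E d) (he : ∀ i, e i = err W ε (y i) (X i))
    (hyz : ∀ i : Fin N, ‖y i - x‖ ≤ K * η ^ 2 * M + 2 * η * (P + η * G)) :
    ∑ j, R.w j * ‖e j‖ ≤ 3 * ε * (∑ j, R.w j * ‖X j‖) + (3 * ε * √d +
        6 * ε ^ 2 * (‖gradient W x‖ + 3 * (K * η ^ 2 * M + 2 * η * (P + η * G)))) := by
  have h1 : ∀ i : Fin N, ‖e i‖ ≤ 3 * ε * ‖X i‖ + (3 * ε * √d +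
      6 * ε ^ 2 * (‖gradient W x‖ + 3 * (K * η ^ 2 * M + 2 * η * (P + η * G)))) := by
    intro i
    rw [he]
    refine (lp_est hW hε hε4 _ _).trans ?_
    have h2 : ‖gradient W (y i)‖ ≤ ‖gradient W x‖ + 3 * (K * η ^ 2 * M + 2 * η * (P + η * G)) := by
      have h3 := hW.grad_lip hε (by linarith) (y i) x
      have h4 := norm_le_norm_add_norm_sub' (gradient W (y i)) (gradient W x)
      have h5 := hyz i
      linarith
    have h6 : 6 * ε ^ 2 * ‖gradient W (y i)‖ ≤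
        6 * ε ^ 2 * (‖gradient W x‖ + 3 * (K * η ^ 2 * M + 2 * η * (P + η * G))) :=
      mul_le_mul_of_nonneg_left h2 (by positivity)
    linarith
  refine (Finset.sum_le_sum fun j _ => mul_le_mul_of_nonneg_left (h1 j) (R.w_nonneg j)).trans
    (le_of_eq ?_)
  generalize (3 * ε * √d +
      6 * ε ^ 2 * (‖gradient W x‖ + 3 * (K * η ^ 2 * M + 2 * η * (P + η * G)))) = c
  simp only [mul_add]
  rw [Finset.sum_add_distrib, ← Finset.sum_mul, sum_w R hm, one_mul, Finset.mul_sum]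
  congr 1
  refine Finset.sum_congr rfl fun j _ => ?_
  ring

/-- argument of the force against the argument of the estimator -/
theorem lp_arg {d : ℕ} {W U : E d → ℝ} {ε η τ K P G D Z M B : ℝ}
    (x p yi yo X : E d) (hτ0 : 0 ≤ τ)
    (hlip : ∀ a b, ‖gradient W a - gradient W b‖ ≤ 3 * ‖a - b‖)
    (a1 : ‖yo - (x + τ • p - (τ ^ 2 / 2) • gradient U x)‖ ≤ 2 * τ ^ 3 * (P + τ * G))
    (hc1 : ‖gradient W x - gradient U x‖ ≤ 3 * ε * D + 3 * ε ^ 2 * Z)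
    (ka : ‖yi - yo‖ ≤ K * η ^ 2 * M) (hyz : ‖yi - x‖ ≤ 3 * η * B) :
    ‖gradient W (x + τ • p - (τ ^ 2 / 2 + ε ^ 2) • gradient W x + ε • X) -
        est (gradient W) ε yi X‖ ≤ 3 * (2 * τ ^ 3 * (P + τ * G) +
        τ ^ 2 / 2 * (3 * ε * D + 3 * ε ^ 2 * Z) + K * η ^ 2 * M + ε ^ 2 * (3 * (3 * η * B))) := by
  unfold est
  refine (hlip _ _).trans (mul_le_mul_of_nonneg_left ?_ (by norm_num))
  have e1 : x + τ • p - (τ ^ 2 / 2 + ε ^ 2) • gradient W x + ε • X -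
      (yi - ε ^ 2 • gradient W yi + ε • X) =
      -(yo - (x + τ • p - (τ ^ 2 / 2) • gradient U x)) +
      -((τ ^ 2 / 2) • (gradient W x - gradient U x)) + -(yi - yo) +
      ε ^ 2 • (gradient W yi - gradient W x) := by
    rw [add_smul, smul_sub, smul_sub]
    abel
  rw [e1]
  refine (norm_add_le _ _).trans (add_le_add ((norm_add_le _ _).trans (add_le_add
    ((norm_add_le _ _).trans (add_le_add ?_ ?_)) ?_)) ?_)
  · rw [norm_neg]
    exact a1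
  · rw [norm_neg, norm_smul, Real.norm_of_nonneg (by positivity)]
    exact mul_le_mul_of_nonneg_left hc1 (by positivity)
  · rw [norm_neg]
    exact ka
  · rw [norm_smul, Real.norm_of_nonneg (by positivity)]
    refine mul_le_mul_of_nonneg_left ?_ (by positivity)
    exact (hlip _ _).trans (mul_le_mul_of_nonneg_left hyz (by norm_num))

/-- positions of the ideal step, second bound -/
theorem lp_num_pos {K ε η P G D S M : ℝ} (hK1 : 1 ≤ K) (hε : 0 < ε) (hη : 0 < η)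
    (hKη : K * η ≤ 1 / 40) (hε4 : ε ≤ 1 / 40) (hη4 : η ≤ 1 / 40) (hP0 : 0 ≤ P) (hG0 : 0 ≤ G)
    (hD0 : 0 ≤ D) (hS0 : 0 ≤ S) (hMb : M ≤ 12 * ε * (P + G + D + S)) :
    K * η ^ 2 * M + 2 * η * (P + η * G) ≤ 3 * η * (P + G + D + S) := by
  set B : ℝ := P + G + D + S with hB
  have hB0 : 0 ≤ B := by positivity
  have a1 : K * η ^ 2 * M ≤ K * η ^ 2 * (12 * ε * B) := mul_le_mul_of_nonneg_left hMb (by positivity)
  have a2 : K * η ^ 2 * (12 * ε * B) = (K * η) * (12 * ε) * (η * B) := by ring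
  have a3 : (K * η) * (12 * ε) ≤ 1 := by
    have : (K * η) * (12 * ε) ≤ (1 / 40) * (12 * (1 / 40)) :=
      mul_le_mul hKη (by linarith) (by positivity) (by norm_num)
    linarith
  have a4 : (K * η) * (12 * ε) * (η * B) ≤ 1 * (η * B) := mul_le_mul_of_nonneg_right a3 (by positivity)
  have a5 : P + η * G ≤ B := by
    have : η * G ≤ 1 * G := mul_le_mul_of_nonneg_right (by linarith) hG0
    rw [hB]
    linarith
  have a6 : 2 * η * (P + η * G) ≤ 2 * η * B := mul_le_mul_of_nonneg_left a5 (by positivity)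
  linarith

/-- final numerical step -/
theorem lp_num_fin {K η T B M c A1 J a : ℝ} (hK1 : 1 ≤ K) (hη : 0 < η) (hη1 : η ≤ 1)
    (hT0 : 0 ≤ T) (hB0 : 0 ≤ B) (hM0 : 0 ≤ M) (hKM2 : K * η ^ 2 * M ≤ 12 * K * (T * B))
    (hA : A1 = η * (K * η ^ 2 * M)) (hc : 0 ≤ c) (hc1 : c ≤ 1) (hJ : 0 ≤ J)
    (h : a ≤ c * A1 + c * (η * ((27 + 36 * K) * T * B)) + c * (2 * J) +
      c * (η * (2 * (K * η ^ 2 * M)))) :
    a ≤ (100 + 100 * K) * (η * T * B + J) := by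
  have h1 : c * A1 + c * (η * ((27 + 36 * K) * T * B)) + c * (2 * J) +
      c * (η * (2 * (K * η ^ 2 * M))) ≤ A1 + (η * ((27 + 36 * K) * T * B)) + (2 * J) +
      (η * (2 * (K * η ^ 2 * M))) := by
    have e : c * A1 + c * (η * ((27 + 36 * K) * T * B)) + c * (2 * J) +
      c * (η * (2 * (K * η ^ 2 * M))) = c * (A1 + (η * ((27 + 36 * K) * T * B)) + (2 * J) +
      (η * (2 * (K * η ^ 2 * M)))) := by ring
    rw [e]
    refine mul_le_of_le_one_left ?_ hc1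
    rw [hA]
    positivity
  have c2 : η * (K * η ^ 2 * M) ≤ η * (12 * K * (T * B)) := mul_le_mul_of_nonneg_left hKM2 hη.le
  have c3 : 0 ≤ η * (T * B) := by positivity
  have c4 : 0 ≤ K * (η * (T * B)) := by positivity
  have c6 : 0 ≤ K * J := by positivity
  calc a ≤ A1 + (η * ((27 + 36 * K) * T * B)) + (2 * J) + (η * (2 * (K * η ^ 2 * M))) := h.trans h1
    _ ≤ 36 * (K * (η * (T * B))) + η * ((27 + 36 * K) * T * B) + 2 * J := by
        rw [hA]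
        linarith
    _ = 27 * (η * (T * B)) + 72 * (K * (η * (T * B))) + 2 * J := by ring
    _ ≤ 100 * (η * (T * B)) + 100 * (K * (η * (T * B))) + 100 * J + 100 * (K * J) := by linarith
    _ = (100 + 100 * K) * (η * T * B + J) := by ring

/-- everything about the perturbations -/
theorem lp_pert {m N : ℕ} (R : Rule m N) (hm : 2 ≤ m) (hR : Monotone R.t) {K : ℝ}
    (hK : K = 4 ^ (2 * N + 2)) (d : ℕ) (W : E d → ℝ) (ε η : ℝ) (hW : KPot ε W) (hε : 0 < ε)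
    (hε4 : ε ≤ 1 / 40) (hη : 0 < η) (hη4 : η ≤ 1 / 40) (hKη : K * η ≤ 1 / 40)
    (Φ : ℝ → E d × E d → E d × E d) (hΦ : IsFlow (lsm ε W) Φ) (z : E d × E d) (X : Fin N → E d) :
    ∃ (y e : Fin N → E d) (M : ℝ), 0 ≤ M ∧
      K * η ^ 2 * M ≤ 12 * K * ((η ^ 3 + η ^ 2 * ε + η * ε ^ 2) *
        (‖z.2‖ + ‖gradient (lsm ε W) z.1‖ + √d + ∑ i, R.w i * ‖X i‖)) ∧
      (∀ i, e i = est (gradient W) ε (y i) (X i) - gradient (lsm ε W) (y i)) ∧
      (∀ i, ‖y i - (Φ (η * R.t i) z).1‖ ≤ K * η ^ 2 * M) ∧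
      ‖(innF R W ε η Φ z X).1 - (Φ η z).1 + η ^ 2 • ∑ j : Fin N, (R.w j * (1 - R.t j)) • e j‖ ≤
        K * η ^ 4 * M ∧
      ‖(innF R W ε η Φ z X).2 - (Φ η z).2 + η • ∑ j : Fin N, R.w j • e j‖ ≤ K * η ^ 3 * M ∧
      ∀ i, ‖frc R (gradient W) ε η z X i - est (gradient W) ε (y i) (X i)‖ ≤
        (27 + 36 * K) * (η ^ 3 + η ^ 2 * ε + η * ε ^ 2) *
          (‖z.2‖ + ‖gradient (lsm ε W) z.1‖ + √d + ∑ i, R.w i * ‖X i‖) := by
  have hU : SPot (lsm ε W) := lsm_spot hW hε (by linarith)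
  have hK1 : 1 ≤ K := by
    rw [hK]
    exact one_le_pow₀ (by norm_num)
  obtain ⟨ka, kb, kc⟩ := kick_path R (by omega) hR hU hΦ hη (by linarith)
    (lp_e R W ε η Φ z X) z
  rw [← hK] at ka kb kc
  rw [← lp_innF R W ε η Φ z X] at kb kc
  have hlip := fun a b => hW.grad_lip hε (by linarith) a b
  obtain ⟨hc1, hc2⟩ := grad_cmp hW hε (by linarith) z.1
  have hei := lp_e_eq R W ε η Φ z X
  generalize lp_e R W ε η Φ z X = e at ka kb kc hei
  have hM0 : 0 ≤ ∑ j : Fin N, R.w j * ‖e j‖ :=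
    Finset.sum_nonneg fun j _ => mul_nonneg (R.w_nonneg j) (norm_nonneg _)
  have hS0 : 0 ≤ ∑ i, R.w i * ‖X i‖ :=
    Finset.sum_nonneg fun j _ => mul_nonneg (R.w_nonneg j) (norm_nonneg _)
  have hτ : ∀ i : Fin N, 0 ≤ η * R.t i ∧ η * R.t i ≤ η := fun i =>
    ⟨mul_nonneg hη.le (R.t_mem i).1, mul_le_of_le_one_right hη.le (R.t_mem i).2⟩
  have hfs : ∀ i : Fin N, ‖(Φ (η * R.t i) z).1 - z.1‖ ≤
      2 * η * (‖z.2‖ + η * ‖gradient (lsm ε W) z.1‖) := by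
    intro i
    refine (flow_short hU hΦ (hτ i).1 ((hτ i).2.trans (by linarith)) z).1.trans ?_
    have h1 := (hτ i).2
    have h2 := (hτ i).1
    have h3 : ‖z.2‖ + η * R.t i * ‖gradient (lsm ε W) z.1‖ ≤ ‖z.2‖ + η * ‖gradient (lsm ε W) z.1‖ := by
      have := mul_le_mul_of_nonneg_right h1 (norm_nonneg (gradient (lsm ε W) z.1))
      linarith
    refine mul_le_mul (by linarith) h3 (by positivity) (by positivity)
  set M : ℝ := ∑ j : Fin N, R.w j * ‖e j‖ with hM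
  have hyz : ∀ i : Fin N, ‖kpos R η Φ e i z - z.1‖ ≤
      K * η ^ 2 * M + 2 * η * (‖z.2‖ + η * ‖gradient (lsm ε W) z.1‖) := by
    intro i
    exact (norm_sub_le_norm_sub_add_norm_sub _ _ _).trans (add_le_add (ka i) (hfs i))
  have hsz := lp_size R (by omega) hW hε (by linarith) z.1 (fun i => kpos R η Φ e i z)
    (fun i => e i) X hei hyz
  rw [← hM] at hsz
  have hP0 : 0 ≤ ‖z.2‖ := norm_nonneg _
  have hG0 : 0 ≤ ‖gradient (lsm ε W) z.1‖ := norm_nonneg _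
  have hD0 : 0 ≤ √(d : ℝ) := Real.sqrt_nonneg _
  have hZ0 : 0 ≤ ‖gradient W z.1‖ := norm_nonneg _
  have hMb := lp_num_M hK1 hε hη hKη hε4 hη4 hP0 hG0 hD0 hS0 hM0 hc2 hsz
  have hyz2 := fun i => (hyz i).trans (lp_num_pos hK1 hε hη hKη hε4 hη4 hP0 hG0 hD0 hS0 hMb)
  refine ⟨fun i => kpos R η Φ e i z, fun i => e i, M, hM0, ?_, hei, ka, kb, kc, ?_⟩
  · have hB0 : 0 ≤ ‖z.2‖ + ‖gradient (lsm ε W) z.1‖ + √d + ∑ i, R.w i * ‖X i‖ := by positivity
    generalize ‖z.2‖ + ‖gradient (lsm ε W) z.1‖ + √d + ∑ i, R.w i * ‖X i‖ = B at hMb hB0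
    have h1 : K * η ^ 2 * M ≤ K * η ^ 2 * (12 * ε * B) := mul_le_mul_of_nonneg_left hMb (by positivity)
    have h2 : 0 ≤ K * (η ^ 3 * B) := by positivity
    have h3 : 0 ≤ K * (η * ε ^ 2 * B) := by positivity
    calc K * η ^ 2 * M ≤ K * η ^ 2 * (12 * ε * B) := h1
      _ = 12 * (K * (η ^ 2 * ε * B)) := by ring
      _ ≤ 12 * (K * (η ^ 3 * B)) + 12 * (K * (η ^ 2 * ε * B)) + 12 * (K * (η * ε ^ 2 * B)) := by
          linarith
      _ = _ := by ring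
  · intro i
    obtain ⟨t0, t1⟩ := hτ i
    have a1 := (flow_short hU hΦ t0 (t1.trans (by linarith)) z).2
    have a2 := lp_arg z.1 z.2 (kpos R η Φ e i z) (Φ (η * R.t i) z).1 (X i) t0 hlip a1 hc1 (ka i)
      (hyz2 i)
    exact a2.trans (lp_num_frc hK1 hε hη hε4 hη4 hP0 hG0 hD0 hS0 hM0 hZ0 hc2 hMb t0 t1)

theorem local_path {m N : ℕ} (R : Rule m N) (hm : 2 ≤ m) (hR : Monotone R.t) :
    ∃ C c0 : ℝ, 0 < C ∧ 0 < c0 ∧ ∀ (d : ℕ) (W : E d → ℝ) (ε η : ℝ), KPot ε W → 0 < ε → ε ≤ c0 →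
    0 < η → η ≤ c0 → ∀ Φ, IsFlow (lsm ε W) Φ → ∀ (z : E d × E d) (X : Fin N → E d),
      ‖(stp R (gradient W) ε η z X).2 - (innF R W ε η Φ z X).2‖ ≤
        C * (η * (η ^ 3 + η ^ 2 * ε + η * ε ^ 2) *
            (‖z.2‖ + ‖gradient (lsm ε W) z.1‖ + √d + ∑ i, R.w i * ‖X i‖) +
          η ^ (m - 1) * ∫ s in (0 : ℝ)..η, ‖force (lsm ε W) (m - 1) (Φ s z)‖) ∧
      ‖(stp R (gradient W) ε η z X).1 - (innF R W ε η Φ z X).1‖ ≤
        C * (η * (η ^ 3 + η ^ 2 * ε + η * ε ^ 2) *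
            (‖z.2‖ + ‖gradient (lsm ε W) z.1‖ + √d + ∑ i, R.w i * ‖X i‖) +
          η ^ (m - 1) * ∫ s in (0 : ℝ)..η, ‖force (lsm ε W) (m - 1) (Φ s z)‖) := by
  obtain ⟨K, hK⟩ : ∃ K : ℝ, K = 4 ^ (2 * N + 2) := ⟨_, rfl⟩
  have hK1 : 1 ≤ K := by
    rw [hK]
    exact one_le_pow₀ (by norm_num)
  refine ⟨100 + 100 * K, 1 / (40 * K), by positivity, by positivity, ?_⟩
  intro d W ε η hW hε hε1 hη hη1 Φ hΦ z X
  have hc : 1 / (40 * K) ≤ 1 / 40 := by
    apply one_div_le_one_div_of_le (by norm_num)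
    linarith
  have hε4 : ε ≤ 1 / 40 := hε1.trans hc
  have hη4 : η ≤ 1 / 40 := hη1.trans hc
  have hKη : K * η ≤ 1 / 40 := by
    calc K * η ≤ K * (1 / (40 * K)) := mul_le_mul_of_nonneg_left hη1 (by linarith)
      _ = 1 / 40 := by field_simp
  have hU : SPot (lsm ε W) := lsm_spot hW hε (by linarith)
  obtain ⟨y, e, M, hM0, hKM2, hei, ka, kb, kc, hfe⟩ :=
    lp_pert R hm hR hK d W ε η hW hε hε4 hη hη4 hKη Φ hΦ z X
  have hB0 : 0 ≤ ‖z.2‖ + ‖gradient (lsm ε W) z.1‖ + √d + ∑ i, R.w i * ‖X i‖ := by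
    have hS0 : 0 ≤ ∑ i, R.w i * ‖X i‖ :=
      Finset.sum_nonneg fun j _ => mul_nonneg (R.w_nonneg j) (norm_nonneg _)
    positivity
  generalize ‖z.2‖ + ‖gradient (lsm ε W) z.1‖ + √d + ∑ i, R.w i * ‖X i‖ = B at hKM2 hfe hB0 ⊢
  have hT0 : 0 ≤ η ^ 3 + η ^ 2 * ε + η * ε ^ 2 := by positivity
  generalize η ^ 3 + η ^ 2 * ε + η * ε ^ 2 = T at hKM2 hfe hT0 ⊢
  -- the exact flow
  have hηm : η ∈ Set.Icc (0 : ℝ) (1 / 4) := ⟨hη.le, by linarith⟩
  have hy' : ∀ s ∈ Set.Icc (0 : ℝ) (1 / 4),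
      HasDerivWithinAt (fun r => (Φ r z).1) ((Φ s z).2) (Set.Icc (0 : ℝ) (1 / 4)) s :=
    fun s hs => (hΦ.deriv z s hs).fst
  have hv : ∀ s ∈ Set.Icc (0 : ℝ) (1 / 4),
      HasDerivWithinAt (fun r => (Φ r z).2) (-force (lsm ε W) 0 (Φ s z))
        (Set.Icc (0 : ℝ) (1 / 4)) s := by
    intro s hs
    rw [force_zero hU]
    exact (hΦ.deriv z s hs).snd
  have hgc : ContinuousOn (fun r => force (lsm ε W) 0 (Φ r z)) (Set.Icc (0 : ℝ) (1 / 4)) :=
    fun s hs => (force_chain hU hΦ z 0 s hs).continuousWithinAt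
  obtain ⟨tv, ty⟩ := traj hy' hv hgc hηm
  simp only [hΦ.zero] at tv ty
  have qa := quad_err_a R hm (fun k r => force (lsm ε W) k (Φ r z))
    (fun k s hs => force_chain hU hΦ z k s hs) hηm
  have qb := quad_err_b R hm (fun k r => force (lsm ε W) k (Φ r z))
    (fun k s hs => force_chain hU hΦ z k s hs) hηm
  set I1 := ∫ s in (0 : ℝ)..η, ‖force (lsm ε W) (m - 1) (Φ s z)‖ with hI1
  have I1n : 0 ≤ I1 := intervalIntegral.integral_nonneg hη.le fun s _ => norm_nonneg _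
  have hF : ∀ i : Fin N, ‖force (lsm ε W) 0 (Φ (η * R.t i) z) - gradient (lsm ε W) (y i)‖ ≤
      2 * (K * η ^ 2 * M) := by
    intro i
    rw [force_zero hU]
    refine (spot_lip hU _ _).trans (mul_le_mul_of_nonneg_left ?_ (by norm_num))
    rw [norm_sub_rev]
    exact ka i
  have hJ : 0 ≤ η ^ (m - 1) * I1 := by positivity
  constructor
  · have e1 : (stp R (gradient W) ε η z X).2 - (innF R W ε η Φ z X).2 =
        -((innF R W ε η Φ z X).2 - (Φ η z).2 + η • ∑ j : Fin N, R.w j • e j) +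
        -(η • ∑ i, R.w i • (frc R (gradient W) ε η z X i - est (gradient W) ε (y i) (X i))) +
        ((∫ s in (0 : ℝ)..η, force (lsm ε W) 0 (Φ s z)) -
          η • ∑ i, R.w i • force (lsm ε W) 0 (Φ (η * R.t i) z)) +
        η • ∑ i, R.w i • (force (lsm ε W) 0 (Φ (η * R.t i) z) - gradient (lsm ε W) (y i)) := by
      unfold stp
      rw [tv]
      simp only [hei, smul_sub, Finset.sum_sub_distrib]
      abel
    have n1 := norm_sum_w R (by omega) _ hfe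
    have n2 := norm_sum_w R (by omega) _ hF
    have b1 : ‖(stp R (gradient W) ε η z X).2 - (innF R W ε η Φ z X).2‖ ≤
        K * η ^ 3 * M + η * ((27 + 36 * K) * T * B) + 2 * η ^ (m - 1) * I1 +
          η * (2 * (K * η ^ 2 * M)) := by
      rw [e1]
      refine (norm_add_le _ _).trans (add_le_add ((norm_add_le _ _).trans (add_le_add
          ((norm_add_le _ _).trans (add_le_add ?_ ?_)) qa)) ?_)
      · rw [norm_neg]
        exact kc
      · rw [norm_neg, norm_smul, Real.norm_of_nonneg hη.le]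
        exact mul_le_mul_of_nonneg_left n1 hη.le
      · rw [norm_smul, Real.norm_of_nonneg hη.le]
        exact mul_le_mul_of_nonneg_left n2 hη.le
    refine lp_num_fin (A1 := η * (K * η ^ 2 * M)) (c := 1) hK1 hη (by linarith) hT0 hB0 hM0 hKM2 rfl
      zero_le_one le_rfl hJ (b1.trans (le_of_eq ?_))
    ring
  · have e1 : (stp R (gradient W) ε η z X).1 - (innF R W ε η Φ z X).1 =
        -((innF R W ε η Φ z X).1 - (Φ η z).1 + η ^ 2 • ∑ j : Fin N, (R.w j * (1 - R.t j)) • e j) +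
        -(η ^ 2 • ∑ i, (R.w i * (1 - R.t i)) •
          (frc R (gradient W) ε η z X i - est (gradient W) ε (y i) (X i))) +
        ((∫ s in (0 : ℝ)..η, (η - s) • force (lsm ε W) 0 (Φ s z)) -
          η ^ 2 • ∑ i, (R.w i * (1 - R.t i)) • force (lsm ε W) 0 (Φ (η * R.t i) z)) +
        η ^ 2 • ∑ i, (R.w i * (1 - R.t i)) •
          (force (lsm ε W) 0 (Φ (η * R.t i) z) - gradient (lsm ε W) (y i)) := by
      unfold stp
      rw [ty]
      simp only [hei, smul_sub, Finset.sum_sub_distrib]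
      abel
    have hpow : η ^ m = η * η ^ (m - 1) := by
      rw [← pow_succ']
      congr 1
      omega
    rw [hpow] at qb
    have n1 := norm_sum_w' R (by omega) _ hfe
    have n2 := norm_sum_w' R (by omega) _ hF
    have hη2 : (0 : ℝ) ≤ η ^ 2 := by positivity
    have b1 : ‖(stp R (gradient W) ε η z X).1 - (innF R W ε η Φ z X).1‖ ≤
        K * η ^ 4 * M + η ^ 2 * ((27 + 36 * K) * T * B) + 2 * (η * η ^ (m - 1)) * I1 +
          η ^ 2 * (2 * (K * η ^ 2 * M)) := by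
      rw [e1]
      refine (norm_add_le _ _).trans (add_le_add ((norm_add_le _ _).trans (add_le_add
          ((norm_add_le _ _).trans (add_le_add ?_ ?_)) qb)) ?_)
      · rw [norm_neg]
        exact kb
      · rw [norm_neg, norm_smul, Real.norm_of_nonneg hη2]
        exact mul_le_mul_of_nonneg_left n1 hη2
      · rw [norm_smul, Real.norm_of_nonneg hη2]
        exact mul_le_mul_of_nonneg_left n2 hη2
    refine lp_num_fin (A1 := η * (K * η ^ 2 * M)) (c := η) hK1 hη (by linarith) hT0 hB0 hM0 hKM2 rfl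
      hη.le (by linarith) hJ (b1.trans (le_of_eq ?_))
    ring

end P347S
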