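import Vale.Agent.P347S.Appell

/-!
Module LogConv: `U = lsm ε W = -log ∫ e^{-W(y+εz)} γ(dz)`.

* `fderiv_lsm`: `∂_h U(y) = E_y[∂_h W]` (differentiate under the integral, `w = y + εz`).
* `lsm_spot`: temperate: `∂_h U = pe ε W (∂_h W)` is temperate (`pe_temp`).  Curvature:
  `∂_h U(y) = -s^{-1} E_y⟨w - y, h⟩` (IBP under `q_y`), hence by `pe_fderiv`
  `D²U(h,h) = s^{-1}(|h|² - s^{-1} Var_y⟨w,h⟩)`; lower bound from `LPot.poincare` (constant
  `s(1-s)`), upper bound from `LPot.cramer_rao` (curvature of `pot` at most `1/s + 2/(1-s)`):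
  `D²U(h,h) ≤ 2/(1+s) |h|²`.
* `lsm_hsb`: `pe_hs` with `F = ∂_w W` (`3|w|`-Lipschitz, so `Var_y F ≤ 9 s |w|²` by `var_lip`).
* `gibbs_lsm`: change of variables / Fubini.
* `grad_cmp`: `|∇W(y) - ∇U(y)| ≤ 3 E_y|w-y|`, `post_moment`.
-/

open MeasureTheory ProbabilityTheory Function
open scoped ENNReal BigOperators

namespace P347S

open P347Q

variable {d : ℕ} {ε : ℝ} {W : E d → ℝ}

theorem lc_sq (h0 : 0 < ε) (h1 : ε ≤ 1 / 2) : 0 < 1 - ε ^ 2 ∧ 3 / 4 ≤ 1 - ε ^ 2 ∧ 0 < ε ^ 2 := by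
  have : ε ^ 2 ≤ (1 / 2) ^ 2 := pow_le_pow_left₀ h0.le h1 2
  refine ⟨by linarith, by linarith, by positivity⟩

theorem lc_lower (hW : KPot ε W) (h0 : 0 < ε) (h1 : ε ≤ 1 / 2) (x w : E d) :
    ‖w‖ ^ 2 ≤ fderiv ℝ (fderiv ℝ W) x w w := by
  obtain ⟨ha, hb, hc⟩ := lc_sq h0 h1
  have h2 := hW.lower x w
  have h3 : 0 ≤ fderiv ℝ (fderiv ℝ W) x w w := by
    by_contra hn
    push Not at hn
    have h5 : (1 - ε ^ 2) * fderiv ℝ (fderiv ℝ W) x w w < 0 := mul_neg_of_pos_of_neg ha hn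
    have h6 := sq_nonneg ‖w‖
    linarith
  have h4 : (1 - ε ^ 2) * fderiv ℝ (fderiv ℝ W) x w w ≤ 1 * fderiv ℝ (fderiv ℝ W) x w w :=
    mul_le_mul_of_nonneg_right (by linarith) h3
  linarith

theorem lc_cont (hW : KPot ε W) : Continuous W := hW.smooth.continuous

theorem lc_diff (hW : KPot ε W) : Differentiable ℝ W := hW.smooth.differentiable (by norm_num)

theorem lc_cont_fd (hW : KPot ε W) : Continuous (fderiv ℝ W) :=
  hW.smooth.continuous_fderiv (by norm_num)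

theorem lc_cont_dir (hW : KPot ε W) (h : E d) : Continuous (fun w => fderiv ℝ W w h) :=
  (lc_cont_fd hW).clm_apply continuous_const

theorem lc_low (hW : KPot ε W) (h0 : 0 < ε) (h1 : ε ≤ 1 / 2) :
    ∃ c : ℝ, ∀ x, c + ‖x‖ ^ 2 / 4 ≤ W x := by
  refine ⟨W 0 - ‖fderiv ℝ W 0‖ ^ 2, fun x => ?_⟩
  have h := second_order_lower hW.smooth 0 x (‖x‖ ^ 2) (fun t _ => lc_lower hW h0 h1 _ _)
  rw [zero_add] at h
  have h1 : -(‖fderiv ℝ W 0‖ * ‖x‖) ≤ fderiv ℝ W 0 x := by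
    have := (fderiv ℝ W 0).le_opNorm x
    rw [Real.norm_eq_abs] at this
    exact (abs_le.1 this).1
  have h2 : ‖fderiv ℝ W 0‖ * ‖x‖ ≤ ‖fderiv ℝ W 0‖ ^ 2 + ‖x‖ ^ 2 / 4 := by
    have := sq_nonneg (‖fderiv ℝ W 0‖ - ‖x‖ / 2)
    linarith [this, sub_sq ‖fderiv ℝ W 0‖ (‖x‖ / 2)]
  linarith

theorem lc_low_pot (hW : KPot ε W) (h0 : 0 < ε) (h1 : ε ≤ 1 / 2) (y : E d) :
    ∃ c : ℝ, ∀ x, c + ‖x‖ ^ 2 / 4 ≤ pot ε W y x := by
  obtain ⟨c, hc⟩ := lc_low hW h0 h1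
  refine ⟨c, fun x => (hc x).trans ?_⟩
  unfold pot
  have : 0 ≤ ‖x - y‖ ^ 2 / (2 * ε ^ 2) := by positivity
  linarith

theorem lc_cont_pot (hW : KPot ε W) (y : E d) : Continuous (pot ε W y) := by
  unfold pot
  exact (lc_cont hW).add (((continuous_id.sub continuous_const).norm.pow 2).div_const _)

theorem lc_fd_norm (hW : KPot ε W) (h0 : 0 < ε) (h1 : ε ≤ 1 / 2) :
    ∃ C : ℝ, 0 ≤ C ∧ ∀ x, ‖fderiv ℝ W x‖ ≤ C * (1 + ‖x‖) ^ 1 := by
  refine ⟨3 + ‖fderiv ℝ W 0‖, by positivity, fun x => ?_⟩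
  have h2 := hW.grad_lip h0 h1 x 0
  rw [norm_gradient_sub, sub_zero] at h2
  have h3 : ‖fderiv ℝ W x‖ ≤ ‖fderiv ℝ W x - fderiv ℝ W 0‖ + ‖fderiv ℝ W 0‖ := by
    have := norm_add_le (fderiv ℝ W x - fderiv ℝ W 0) (fderiv ℝ W 0)
    rwa [sub_add_cancel] at this
  have h4 : 0 ≤ ‖fderiv ℝ W 0‖ * ‖x‖ := by positivity
  have h5 := norm_nonneg x
  calc ‖fderiv ℝ W x‖ ≤ 3 * ‖x‖ + ‖fderiv ℝ W 0‖ := by linarith
    _ ≤ 3 * ‖x‖ + ‖fderiv ℝ W 0‖ + (3 + ‖fderiv ℝ W 0‖ * ‖x‖) := by linarith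
    _ = _ := by ring

theorem lc_pgr_dir (hW : KPot ε W) (h0 : 0 < ε) (h1 : ε ≤ 1 / 2) (h : E d) :
    Pgr (fun w => fderiv ℝ W w h) := by
  obtain ⟨C, hC, hb⟩ := lc_fd_norm hW h0 h1
  refine ⟨1, C * ‖h‖, fun x => ?_⟩
  calc ‖fderiv ℝ W x h‖ ≤ ‖fderiv ℝ W x‖ * ‖h‖ := (fderiv ℝ W x).le_opNorm h
    _ ≤ (C * (1 + ‖x‖) ^ 1) * ‖h‖ := mul_le_mul_of_nonneg_right (hb x) (norm_nonneg _)
    _ = _ := by ring

theorem lc_exp_bound (hW : KPot ε W) (h0 : 0 < ε) (h1 : ε ≤ 1 / 2) :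
    ∃ B : ℝ, 0 < B ∧ ∀ x, Real.exp (-W x) ≤ B := by
  obtain ⟨c, hc⟩ := lc_low hW h0 h1
  refine ⟨Real.exp (-c), Real.exp_pos _, fun x => Real.exp_le_exp.2 ?_⟩
  have := hc x
  have h2 : 0 ≤ ‖x‖ ^ 2 / 4 := by positivity
  linarith

theorem lc_pgr_nonneg {F : Type*} [NormedAddCommGroup F] {f : E d → F} (hp : Pgr f) :
    ∃ (k : ℕ) (C : ℝ), 0 ≤ C ∧ ∀ x, ‖f x‖ ≤ C * (1 + ‖x‖) ^ k := by
  obtain ⟨k, C, h⟩ := hp
  refine ⟨k, |C|, abs_nonneg _, fun x => (h x).trans ?_⟩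
  exact mul_le_mul_of_nonneg_right (le_abs_self C) (by positivity)

theorem lc_polyB (hW : KPot ε W) (h0 : 0 < ε) (h1 : ε ≤ 1 / 2) {F : E d → ℝ}
    (hF : Continuous F) (hp : Pgr F) : PolyB (fun w => Real.exp (-W w) * F w) := by
  obtain ⟨k, C, hC, hb⟩ := lc_pgr_nonneg hp
  obtain ⟨B, hB, hb'⟩ := lc_exp_bound hW h0 h1
  refine ⟨(Real.continuous_exp.comp (lc_cont hW).neg).mul hF, k, B * C, fun x => ?_⟩
  rw [abs_mul, abs_of_pos (Real.exp_pos _)]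
  calc Real.exp (-W x) * |F x| ≤ B * (C * (1 + ‖x‖) ^ k) :=
        mul_le_mul (hb' x) (hb x) (abs_nonneg _) hB.le
    _ = _ := by ring

theorem lc_polyB_one (hW : KPot ε W) (h0 : 0 < ε) (h1 : ε ≤ 1 / 2) :
    PolyB (fun w => Real.exp (-W w)) := by
  have := lc_polyB hW h0 h1 (F := fun _ => 1) continuous_const ⟨0, 1, fun x => by simp⟩
  simpa using this

/-- `N(y) = ∫ e^{-W(y+εz)} γ(dz)` -/
theorem lc_kernel (h0 : 0 < ε) (F : E d → ℝ) (y : E d) :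
    smooth ε (fun w => Real.exp (-W w) * F w) y =
      (sr_gz d * |ε ^ d|⁻¹) * ∫ w, Real.exp (-pot ε W y w) * F w := by
  rw [sr_smooth_eq_Tq, sr_Tq_eq h0, smul_eq_mul]
  refine congrArg _ (integral_congr_ae (Filter.Eventually.of_forall fun w => ?_))
  simp only [sr_Kq, smul_eq_mul, mul_one, pot]
  have e1 : ‖ε⁻¹ • (w - y)‖ ^ 2 / 2 = ‖w - y‖ ^ 2 / (2 * ε ^ 2) := by
    rw [norm_smul, mul_pow, norm_inv, Real.norm_eq_abs, inv_pow, sq_abs]
    field_simp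
  rw [e1, neg_add, Real.exp_add]
  ring

theorem lc_kernel_one (h0 : 0 < ε) (y : E d) :
    smooth ε (fun w => Real.exp (-W w)) y =
      (sr_gz d * |ε ^ d|⁻¹) * ∫ w, Real.exp (-pot ε W y w) := by
  have := lc_kernel (W := W) h0 (fun _ => 1) y
  simpa using this

theorem lc_alg {a : ℝ} (ha : a ≠ 0) (b c : ℝ) : b⁻¹ * c = (a * b)⁻¹ * (a * c) := by
  rw [mul_inv]
  field_simp

theorem lc_gz_pos (d : ℕ) : 0 < sr_gz d := by
  have h1 : (1 : ℝ) = sr_gz d * ∫ z : E d, Real.exp (-(‖z‖ ^ 2 / 2)) := by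
    have := sr_gauss_integral (d := d) (fun _ => (1 : ℝ))
    simpa using this
  have h2 : 0 ≤ ∫ z : E d, Real.exp (-(‖z‖ ^ 2 / 2)) := integral_nonneg fun z => Real.exp_nonneg _
  by_contra hn
  push Not at hn
  have := mul_nonpos_of_nonpos_of_nonneg hn h2
  linarith

theorem lc_N_pos (hW : KPot ε W) (h0 : 0 < ε) (h1 : ε ≤ 1 / 2) (y : E d) :
    0 < smooth ε (fun w => Real.exp (-W w)) y := by
  obtain ⟨c, hc⟩ := lc_low_pot hW h0 h1 y
  rw [lc_kernel_one h0]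
  have h2 := Z_pos (lc_cont_pot hW y) hc
  have h3 := lc_gz_pos d
  positivity

/-- posterior expectations as quotients of Gaussian smoothings -/
theorem lc_pe (hW : KPot ε W) (h0 : 0 < ε) (h1 : ε ≤ 1 / 2) (F : E d → ℝ) (y : E d) :
    pe ε W F y = (smooth ε (fun w => Real.exp (-W w)) y)⁻¹ *
      smooth ε (fun w => Real.exp (-W w) * F w) y := by
  obtain ⟨c, hc⟩ := lc_low_pot hW h0 h1 y
  rw [lc_kernel h0, lc_kernel_one h0, pe, post, integral_gibbs (lc_cont_pot hW y) hc]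
  have h3 := lc_gz_pos d
  exact lc_alg (by positivity) _ _

theorem lc_N_contDiff (hW : KPot ε W) (h0 : 0 < ε) (h1 : ε ≤ 1 / 2) :
    HasTemperateGrowth (smooth ε (fun w => Real.exp (-W w))) :=
  smooth_temp (lc_polyB_one hW h0 h1) h0

theorem lc_lsm_eq (y : E d) : lsm ε W y = -Real.log (smooth ε (fun w => Real.exp (-W w)) y) := rfl

theorem lc_fd_exp (hW : KPot ε W) (y : E d) :
    fderiv ℝ (fun w => Real.exp (-W w)) y = -(Real.exp (-W y) • fderiv ℝ W y) := by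
  have h1 : HasFDerivAt (fun w => -W w) (-fderiv ℝ W y) y := (lc_diff hW y).hasFDerivAt.neg
  rw [h1.exp.fderiv, smul_neg]

theorem lc_fd_exp_bound (hW : KPot ε W) (h0 : 0 < ε) (h1 : ε ≤ 1 / 2) :
    ∃ C : ℝ, ∀ y, ‖fderiv ℝ (fun w => Real.exp (-W w)) y‖ ≤ C * (1 + ‖y‖) ^ 1 := by
  obtain ⟨C, hC, hb⟩ := lc_fd_norm hW h0 h1
  obtain ⟨B, hB, hb'⟩ := lc_exp_bound hW h0 h1
  refine ⟨B * C, fun y => ?_⟩
  rw [lc_fd_exp hW, norm_neg, norm_smul, Real.norm_of_nonneg (Real.exp_nonneg _), mul_assoc]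
  exact mul_le_mul (hb' y) (hb y) (norm_nonneg _) hB.le

theorem lc_exp_contDiff (hW : KPot ε W) : ContDiff ℝ 1 (fun w => Real.exp (-W w)) :=
  (hW.smooth.of_le (by norm_num)).neg.exp

theorem lc_N_fderiv (hW : KPot ε W) (h0 : 0 < ε) (h1 : ε ≤ 1 / 2) (y h : E d) :
    fderiv ℝ (smooth ε (fun w => Real.exp (-W w))) y h =
      -smooth ε (fun w => Real.exp (-W w) * fderiv ℝ W w h) y := by
  obtain ⟨B, hB, hb'⟩ := lc_exp_bound hW h0 h1
  obtain ⟨C, hC⟩ := lc_fd_exp_bound hW h0 h1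
  have h2 : HasFDerivAt (smooth ε (fun w => Real.exp (-W w))) _ y :=
    SmAux.hasFDerivAt_shift (lc_exp_contDiff hW) (k := 0) (C := B)
      (fun w => by rw [Real.norm_of_nonneg (Real.exp_nonneg _)]; simpa using hb' w) hC y ε
  rw [h2.fderiv, (SmAux.int_fderiv_apply (lc_exp_contDiff hW) hC y ε h).2, smooth,
    ← integral_neg]
  refine integral_congr_ae (Filter.Eventually.of_forall fun z => ?_)
  simp only [lc_fd_exp hW]
  rfl

theorem fderiv_lsm (hW : KPot ε W) (h0 : 0 < ε) (h1 : ε ≤ 1 / 2) (y h : E d) :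
    fderiv ℝ (lsm ε W) y h = pe ε W (fun w => fderiv ℝ W w h) y := by
  have h2 : HasFDerivAt (smooth ε (fun w => Real.exp (-W w)))
      (fderiv ℝ (smooth ε (fun w => Real.exp (-W w))) y) y :=
    (temp_diff (lc_N_contDiff hW h0 h1) y).hasFDerivAt
  have h3 : HasFDerivAt (lsm ε W) _ y := (h2.log (lc_N_pos hW h0 h1 y).ne').neg
  rw [h3.fderiv, lc_pe hW h0 h1, neg_apply, smul_apply, lc_N_fderiv hW h0 h1, smul_eq_mul]
  ring

theorem lc_lsm_diff (hW : KPot ε W) (h0 : 0 < ε) (h1 : ε ≤ 1 / 2) : Differentiable ℝ (lsm ε W) := by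
  intro y
  have h2 : HasFDerivAt (smooth ε (fun w => Real.exp (-W w)))
      (fderiv ℝ (smooth ε (fun w => Real.exp (-W w))) y) y :=
    (temp_diff (lc_N_contDiff hW h0 h1) y).hasFDerivAt
  have h3 : HasFDerivAt (lsm ε W) _ y := (h2.log (lc_N_pos hW h0 h1 y).ne').neg
  exact h3.differentiableAt

theorem lc_clm_sum (L : E d →L[ℝ] ℝ) : L = ∑ i, L (bas d i) • innerSL ℝ (bas d i) := by
  ext x
  rw [sum_apply]
  simp only [smul_apply, smul_eq_mul, innerSL_apply_apply]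
  conv_lhs => rw [← sum_bas x, map_sum]
  refine Finset.sum_congr rfl fun i _ => ?_
  rw [map_smul, smul_eq_mul, real_inner_comm, inner_bas, mul_comm]

theorem lc_fd_temp (hW : KPot ε W) (h0 : 0 < ε) (h1 : ε ≤ 1 / 2) :
    HasTemperateGrowth (fderiv ℝ (lsm ε W)) := by
  have e1 : fderiv ℝ (lsm ε W) = fun y => ∑ i, pe ε W (fun w => fderiv ℝ W w (bas d i)) y •
      innerSL ℝ (bas d i) := by
    funext y
    rw [lc_clm_sum (fderiv ℝ (lsm ε W) y)]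
    refine Finset.sum_congr rfl fun i _ => ?_
    rw [fderiv_lsm hW h0 h1]
  rw [e1]
  refine HasTemperateGrowth.sum fun i _ => ?_
  exact (pe_temp hW h0 h1 (lc_cont_dir hW _) (lc_pgr_dir hW h0 h1 _)).smul
    (HasTemperateGrowth.const _)

theorem lc_lsm_temp (hW : KPot ε W) (h0 : 0 < ε) (h1 : ε ≤ 1 / 2) :
    HasTemperateGrowth (lsm ε W) := by
  obtain ⟨k, C, hC, hb⟩ := sr_tg_bound (lc_fd_temp hW h0 h1)
  refine HasTemperateGrowth.of_fderiv (lc_fd_temp hW h0 h1) (lc_lsm_diff hW h0 h1)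
    (k := k + 1) (C := C + ‖lsm ε W 0‖) fun x => ?_
  have h2 : ‖lsm ε W x - lsm ε W 0‖ ≤ C * (1 + ‖x‖) ^ k * ‖x - 0‖ := by
    refine (convex_closedBall (0 : E d) ‖x‖).norm_image_sub_le_of_norm_fderiv_le
      (fun y _ => lc_lsm_diff hW h0 h1 y) (fun y hy => ?_) (by simp) (by simp)
    refine (hb y).trans (mul_le_mul_of_nonneg_left (pow_le_pow_left₀ (by positivity) ?_ k) hC)
    have : ‖y‖ ≤ ‖x‖ := by simpa using hy
    linarith
  have h3 : ‖lsm ε W x‖ ≤ ‖lsm ε W x - lsm ε W 0‖ + ‖lsm ε W 0‖ := by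
    have := norm_add_le (lsm ε W x - lsm ε W 0) (lsm ε W 0)
    rwa [sub_add_cancel] at this
  have h4 : ‖x‖ ≤ 1 + ‖x‖ := by linarith
  have h5 : 1 ≤ (1 + ‖x‖) ^ (k + 1) := one_le_pow₀ (by linarith [norm_nonneg x])
  rw [sub_zero] at h2
  calc ‖lsm ε W x‖ ≤ C * (1 + ‖x‖) ^ k * ‖x‖ + ‖lsm ε W 0‖ := by linarith
    _ ≤ C * (1 + ‖x‖) ^ k * (1 + ‖x‖) + ‖lsm ε W 0‖ * (1 + ‖x‖) ^ (k + 1) := by
        refine add_le_add (mul_le_mul_of_nonneg_left h4 (by positivity)) ?_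
        exact le_mul_of_one_le_right (norm_nonneg _) h5
    _ = _ := by ring

theorem lc_fd_pot (hW : KPot ε W) (y u w : E d) :
    fderiv ℝ (pot ε W y) u w = fderiv ℝ W u w + (ε ^ 2)⁻¹ * inner ℝ (u - y) w := by
  have h1 : HasFDerivAt W (fderiv ℝ W u) u := (lc_diff hW u).hasFDerivAt
  have h2 : HasFDerivAt (fun u : E d => u - y) (ContinuousLinearMap.id ℝ (E d)) u :=
    (hasFDerivAt_id u).sub_const y
  have h3 : HasFDerivAt (fun u : E d => ‖u - y‖ ^ 2) _ u := h2.norm_sq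
  have h4 : HasFDerivAt (fun u : E d => W u + ‖u - y‖ ^ 2 * (2 * ε ^ 2)⁻¹) _ u :=
    h1.add (h3.mul_const (2 * ε ^ 2)⁻¹)
  have e1 : pot ε W y = fun u : E d => W u + ‖u - y‖ ^ 2 * (2 * ε ^ 2)⁻¹ := by
    funext u
    rw [pot, div_eq_mul_inv]
  rw [e1, h4.fderiv]
  simp only [add_apply, smul_apply, smul_eq_mul, ContinuousLinearMap.comp_apply,
    ContinuousLinearMap.id_apply, innerSL_apply_apply, mul_inv]
  ring

theorem lc_pgr_inner (w : E d) : Pgr (fun u : E d => inner ℝ u w) := by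
  refine ⟨1, ‖w‖, fun x => ?_⟩
  have h1 : ‖(inner ℝ x w : ℝ)‖ ≤ ‖x‖ * ‖w‖ := norm_inner_le_norm x w
  have h2 : 0 ≤ ‖w‖ := norm_nonneg w
  rw [pow_one, mul_add, mul_one, mul_comm ‖w‖ ‖x‖]
  linarith

theorem lc_cont_inner (w : E d) : Continuous (fun u : E d => (inner ℝ u w : ℝ)) :=
  continuous_id.inner continuous_const

theorem lc_pgr_mul {f g : E d → ℝ} (hf : Pgr f) (hg : Pgr g) : Pgr (fun x => f x * g x) := by
  obtain ⟨k, C, hC, h⟩ := lc_pgr_nonneg hf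
  obtain ⟨m, D, hD, h'⟩ := lc_pgr_nonneg hg
  refine ⟨k + m, C * D, fun x => ?_⟩
  rw [norm_mul, pow_add]
  calc ‖f x‖ * ‖g x‖ ≤ (C * (1 + ‖x‖) ^ k) * (D * (1 + ‖x‖) ^ m) :=
        mul_le_mul (h x) (h' x) (norm_nonneg _) (by positivity)
    _ = _ := by ring

theorem lc_pgr_const (c : ℝ) : Pgr (fun _ : E d => c) := ⟨0, ‖c‖, fun x => by simp⟩

theorem lc_pgr_sub {f g : E d → ℝ} (hf : Pgr f) (hg : Pgr g) : Pgr (fun x => f x - g x) := by
  obtain ⟨k, C, hC, h⟩ := lc_pgr_nonneg hf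
  obtain ⟨m, D, hD, h'⟩ := lc_pgr_nonneg hg
  refine ⟨k + m, C + D, fun x => ?_⟩
  have hx : 1 ≤ 1 + ‖x‖ := by linarith [norm_nonneg x]
  have e1 : (1 + ‖x‖) ^ k ≤ (1 + ‖x‖) ^ (k + m) := pow_le_pow_right₀ hx (by omega)
  have e2 : (1 + ‖x‖) ^ m ≤ (1 + ‖x‖) ^ (k + m) := pow_le_pow_right₀ hx (by omega)
  calc ‖f x - g x‖ ≤ ‖f x‖ + ‖g x‖ := norm_sub_le _ _
    _ ≤ C * (1 + ‖x‖) ^ k + D * (1 + ‖x‖) ^ m := add_le_add (h x) (h' x)
    _ ≤ C * (1 + ‖x‖) ^ (k + m) + D * (1 + ‖x‖) ^ (k + m) :=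
        add_le_add (mul_le_mul_of_nonneg_left e1 hC) (mul_le_mul_of_nonneg_left e2 hD)
    _ = _ := by ring

theorem lc_kap (h0 : 0 < ε) (h1 : ε ≤ 1 / 2) : 0 < (ε ^ 2 * (1 - ε ^ 2))⁻¹ := by
  obtain ⟨ha, hb, hc⟩ := lc_sq h0 h1
  positivity

/-- integrability with respect to the posterior -/
theorem lc_int (hW : KPot ε W) (h0 : 0 < ε) (h1 : ε ≤ 1 / 2) (y : E d) {F : Type*}
    [NormedAddCommGroup F] {f : E d → F} (hf : Continuous f) (hp : Pgr f) :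
    Integrable f (post ε W y) :=
  (hW.lpot_pot h0 h1 y).integrable (lc_kap h0 h1) hf hp

theorem lc_fd_inner (u w v : E d) : fderiv ℝ (fun u : E d => (inner ℝ u w : ℝ)) u v = inner ℝ v w := by
  have h1 : HasFDerivAt (fun u : E d => (inner ℝ u w : ℝ)) _ u :=
    (hasFDerivAt_id u).inner ℝ (hasFDerivAt_const w u)
  rw [h1.fderiv]
  simp

/-- first IBP -/
theorem lc_ibp_one (hW : KPot ε W) (h0 : 0 < ε) (h1 : ε ≤ 1 / 2) (y w : E d) :
    pe ε W (fun u => fderiv ℝ W u w) y =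
      -((ε ^ 2)⁻¹ * (pe ε W (fun u => inner ℝ u w) y - inner ℝ y w)) := by
  have := post_prob hW h0 h1 y
  have h2 := (hW.lpot_pot h0 h1 y).ibp (lc_kap h0 h1) (hW.pgr_pot h0 h1 y) (f := fun _ => (1 : ℝ))
    contDiff_const (lc_pgr_const 1) ⟨0, 0, fun x => by simp⟩ w
  simp only [lc_fd_pot hW, one_mul, fderiv_fun_const, Pi.zero_apply, zero_apply, integral_zero] at h2
  have i1 : Integrable (fun u => fderiv ℝ W u w) (post ε W y) :=
    lc_int hW h0 h1 y (lc_cont_dir hW w) (lc_pgr_dir hW h0 h1 w)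
  have i2 : Integrable (fun u : E d => (inner ℝ u w : ℝ)) (post ε W y) :=
    lc_int hW h0 h1 y (lc_cont_inner w) (lc_pgr_inner w)
  have e1 : ∫ u, (fderiv ℝ W u w + (ε ^ 2)⁻¹ * inner ℝ (u - y) w) ∂(post ε W y) =
      pe ε W (fun u => fderiv ℝ W u w) y +
        (ε ^ 2)⁻¹ * (pe ε W (fun u => inner ℝ u w) y - inner ℝ y w) := by
    simp only [inner_sub_left]
    have i3 : Integrable (fun u : E d => (inner ℝ u w : ℝ) - inner ℝ y w) (post ε W y) :=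
      i2.sub (integrable_const _)
    rw [integral_add i1 (i3.const_mul _), integral_const_mul, integral_sub i2 (integrable_const _),
      integral_const]
    simp [pe]
  have e2 : 0 = ∫ u, (fderiv ℝ W u w + (ε ^ 2)⁻¹ * inner ℝ (u - y) w) ∂(post ε W y) := h2
  rw [e1] at e2
  linarith

/-- second IBP -/
theorem lc_ibp_two (hW : KPot ε W) (h0 : 0 < ε) (h1 : ε ≤ 1 / 2) (y w : E d) :
    pe ε W (fun u => fderiv ℝ W u w * inner ℝ u w) y =
      ‖w‖ ^ 2 - (ε ^ 2)⁻¹ * (pe ε W (fun u => inner ℝ u w * inner ℝ u w) y -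
        inner ℝ y w * pe ε W (fun u => inner ℝ u w) y) := by
  have := post_prob hW h0 h1 y
  have c1 : ContDiff ℝ 1 (fun u : E d => (inner ℝ u w : ℝ)) := contDiff_id.inner ℝ contDiff_const
  have h2 := (hW.lpot_pot h0 h1 y).ibp (lc_kap h0 h1) (hW.pgr_pot h0 h1 y)
    (f := fun u => (inner ℝ u w : ℝ)) c1 (lc_pgr_inner w) ⟨0, ‖w‖, fun x => by
      rw [pow_zero, mul_one]
      refine ContinuousLinearMap.opNorm_le_bound _ (norm_nonneg _) fun v => ?_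
      rw [lc_fd_inner, mul_comm]
      exact norm_inner_le_norm v w⟩ w
  simp only [lc_fd_pot hW, lc_fd_inner] at h2
  have i1 : Integrable (fun u => fderiv ℝ W u w * inner ℝ u w) (post ε W y) :=
    lc_int hW h0 h1 y ((lc_cont_dir hW w).mul (lc_cont_inner w))
      (lc_pgr_mul (lc_pgr_dir hW h0 h1 w) (lc_pgr_inner w))
  have i2 : Integrable (fun u : E d => (inner ℝ u w : ℝ)) (post ε W y) :=
    lc_int hW h0 h1 y (lc_cont_inner w) (lc_pgr_inner w)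
  have i4 : Integrable (fun u : E d => (inner ℝ u w : ℝ) * inner ℝ u w) (post ε W y) :=
    lc_int hW h0 h1 y ((lc_cont_inner w).mul (lc_cont_inner w))
      (lc_pgr_mul (lc_pgr_inner w) (lc_pgr_inner w))
  have e1 : ∫ u, (inner ℝ u w * (fderiv ℝ W u w + (ε ^ 2)⁻¹ * inner ℝ (u - y) w)) ∂(post ε W y) =
      pe ε W (fun u => fderiv ℝ W u w * inner ℝ u w) y +
        (ε ^ 2)⁻¹ * (pe ε W (fun u => inner ℝ u w * inner ℝ u w) y -
          inner ℝ y w * pe ε W (fun u => inner ℝ u w) y) := by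
    have e3 : ∀ u : E d, inner ℝ u w * (fderiv ℝ W u w + (ε ^ 2)⁻¹ * inner ℝ (u - y) w) =
        fderiv ℝ W u w * inner ℝ u w +
          (ε ^ 2)⁻¹ * (inner ℝ u w * inner ℝ u w - inner ℝ y w * inner ℝ u w) := by
      intro u
      rw [inner_sub_left]
      ring
    simp only [e3]
    have i3 : Integrable (fun u : E d => (inner ℝ u w : ℝ) * inner ℝ u w -
        inner ℝ y w * inner ℝ u w) (post ε W y) := i4.sub (i2.const_mul _)
    rw [integral_add i1 (i3.const_mul _), integral_const_mul, integral_sub i4 (i2.const_mul _),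
      integral_const_mul]
    rfl
  have e4 : ∫ _u : E d, (inner ℝ w w : ℝ) ∂(post ε W y) = ‖w‖ ^ 2 := by
    rw [integral_const, real_inner_self_eq_norm_sq]
    simp
  have e2 : ∫ _u : E d, (inner ℝ w w : ℝ) ∂(post ε W y) =
      ∫ u, (inner ℝ u w * (fderiv ℝ W u w + (ε ^ 2)⁻¹ * inner ℝ (u - y) w)) ∂(post ε W y) := h2
  rw [e1, e4] at e2
  linarith

/-- the posterior variance -/
theorem lc_var (hW : KPot ε W) (h0 : 0 < ε) (h1 : ε ≤ 1 / 2) (y w : E d) :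
    ∫ u, (inner ℝ u w - ∫ u', inner ℝ u' w ∂(post ε W y)) ^ 2 ∂(post ε W y) =
      pe ε W (fun u => inner ℝ u w * inner ℝ u w) y - pe ε W (fun u => inner ℝ u w) y ^ 2 := by
  have := post_prob hW h0 h1 y
  have i2 : Integrable (fun u : E d => (inner ℝ u w : ℝ)) (post ε W y) :=
    lc_int hW h0 h1 y (lc_cont_inner w) (lc_pgr_inner w)
  have i4 : Integrable (fun u : E d => (inner ℝ u w : ℝ) * inner ℝ u w) (post ε W y) :=
    lc_int hW h0 h1 y ((lc_cont_inner w).mul (lc_cont_inner w))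
      (lc_pgr_mul (lc_pgr_inner w) (lc_pgr_inner w))
  have e0 : (∫ u', inner ℝ u' w ∂(post ε W y)) = pe ε W (fun u => inner ℝ u w) y := rfl
  rw [e0]
  generalize hM : pe ε W (fun u => inner ℝ u w) y = M at *
  have e3 : ∀ u : E d, (inner ℝ u w - M) ^ 2 =
      inner ℝ u w * inner ℝ u w - 2 * M * inner ℝ u w + M ^ 2 := by
    intro u
    ring
  simp only [e3]
  have i5 : Integrable (fun u : E d => (inner ℝ u w : ℝ) * inner ℝ u w -
        2 * M * inner ℝ u w) (post ε W y) := i4.sub (i2.const_mul _)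
  rw [integral_add i5 (integrable_const _), integral_sub i4 (i2.const_mul _),
    integral_const_mul, integral_const, e0]
  simp only [probReal_univ, smul_eq_mul, one_mul, pe]
  ring

theorem lc_hess (hW : KPot ε W) (h0 : 0 < ε) (h1 : ε ≤ 1 / 2) (y w : E d) :
    fderiv ℝ (fderiv ℝ (lsm ε W)) y w w = (ε ^ 2)⁻¹ * (‖w‖ ^ 2 - (ε ^ 2)⁻¹ *
      ∫ u, (inner ℝ u w - ∫ u', inner ℝ u' w ∂(post ε W y)) ^ 2 ∂(post ε W y)) := by
  rw [← fderiv_dir (lc_lsm_temp hW h0 h1)]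
  have e1 : (fun y => fderiv ℝ (lsm ε W) y w) = pe ε W (fun u => fderiv ℝ W u w) := by
    funext y
    exact fderiv_lsm hW h0 h1 y w
  rw [e1, pe_fderiv hW h0 h1 (lc_cont_dir hW w) (lc_pgr_dir hW h0 h1 w), lc_ibp_two hW h0 h1,
    lc_ibp_one hW h0 h1, lc_var hW h0 h1]
  ring

theorem lc_var_upper (hW : KPot ε W) (h0 : 0 < ε) (h1 : ε ≤ 1 / 2) (y w : E d) :
    ∫ u, (inner ℝ u w - ∫ u', inner ℝ u' w ∂(post ε W y)) ^ 2 ∂(post ε W y) ≤
      ε ^ 2 * (1 - ε ^ 2) * ‖w‖ ^ 2 := by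
  have h2 := (hW.lpot_pot h0 h1 y).var_lip (lc_kap h0 h1) (f := fun u => (inner ℝ u w : ℝ))
    (L := ‖w‖) (fun a b => by
      rw [← inner_sub_left, mul_comm]
      exact abs_real_inner_le_norm _ _)
  rw [inv_inv] at h2
  exact h2

theorem lc_hess_pot (hW : KPot ε W) (y x w : E d) :
    fderiv ℝ (fderiv ℝ (pot ε W y)) x w w =
      fderiv ℝ (fderiv ℝ W) x w w + (ε ^ 2)⁻¹ * ‖w‖ ^ 2 := by
  have e1 : fderiv ℝ (pot ε W y) = fun u => fderiv ℝ W u + (ε ^ 2)⁻¹ • innerSL ℝ (u - y) := by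
    funext u
    ext v
    rw [lc_fd_pot hW, add_apply, smul_apply, innerSL_apply_apply, smul_eq_mul]
  have h1 : HasFDerivAt (fderiv ℝ W) (fderiv ℝ (fderiv ℝ W) x) x :=
    (PotAux.fderiv_diff hW.smooth x).hasFDerivAt
  have h2 : HasFDerivAt (fun u : E d => u - y) (ContinuousLinearMap.id ℝ (E d)) x :=
    (hasFDerivAt_id x).sub_const y
  have h3 : HasFDerivAt (fun u : E d => innerSL ℝ (u - y)) _ x :=
    (innerSL ℝ : E d →L[ℝ] E d →L[ℝ] ℝ).hasFDerivAt.comp x h2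
  have h4 : HasFDerivAt (fun u => fderiv ℝ W u + (ε ^ 2)⁻¹ • innerSL ℝ (u - y)) _ x :=
    h1.add (h3.const_smul (ε ^ 2)⁻¹)
  rw [e1, h4.fderiv]
  simp only [add_apply, smul_apply, smul_eq_mul, ContinuousLinearMap.comp_apply,
    ContinuousLinearMap.id_apply]
  have e5 : (innerSL ℝ w) w = ‖w‖ ^ 2 := by
    rw [innerSL_apply_apply, real_inner_self_eq_norm_sq]
  exact congrArg (fun t => fderiv ℝ (fderiv ℝ W) x w w + (ε ^ 2)⁻¹ * t) e5

theorem lc_var_lower (hW : KPot ε W) (h0 : 0 < ε) (h1 : ε ≤ 1 / 2) (y w : E d) :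
    ‖w‖ ^ 2 ≤ ((1 + ε ^ 2) * (ε ^ 2 * (1 - ε ^ 2))⁻¹) *
      ∫ u, (inner ℝ u w - ∫ u', inner ℝ u' w ∂(post ε W y)) ^ 2 ∂(post ε W y) := by
  obtain ⟨ha, hb, hc⟩ := lc_sq h0 h1
  refine (hW.lpot_pot h0 h1 y).cramer_rao (lc_kap h0 h1) (fun x w => ?_) w
  rw [lc_hess_pot hW]
  have h2 := hW.upper x w
  have h3 : fderiv ℝ (fderiv ℝ W) x w w ≤ (1 - ε ^ 2)⁻¹ * (2 * ‖w‖ ^ 2) := by
    rw [inv_mul_eq_div, le_div_iff₀ ha]
    linarith
  have h4 : (1 + ε ^ 2) * (ε ^ 2 * (1 - ε ^ 2))⁻¹ * ‖w‖ ^ 2 =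
      (1 - ε ^ 2)⁻¹ * (2 * ‖w‖ ^ 2) + (ε ^ 2)⁻¹ * ‖w‖ ^ 2 := by
    field_simp
    ring
  rw [h4]
  linarith

theorem lsm_spot (hW : KPot ε W) (h0 : 0 < ε) (h1 : ε ≤ 1 / 2) : SPot (lsm ε W) := by
  obtain ⟨ha, hb, hc⟩ := lc_sq h0 h1
  refine ⟨lc_lsm_temp hW h0 h1, fun x w => ?_, fun x w => ?_⟩
  · rw [lc_hess hW h0 h1]
    have h2 := lc_var_upper hW h0 h1 x w
    generalize (∫ u, (inner ℝ u w - ∫ u', inner ℝ u' w ∂(post ε W x)) ^ 2 ∂(post ε W x)) = v at *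
    have h3 : (ε ^ 2)⁻¹ * v ≤ (ε ^ 2)⁻¹ * (ε ^ 2 * (1 - ε ^ 2) * ‖w‖ ^ 2) :=
      mul_le_mul_of_nonneg_left h2 (by positivity)
    have h4 : (ε ^ 2)⁻¹ * (ε ^ 2 * (1 - ε ^ 2) * ‖w‖ ^ 2) = (1 - ε ^ 2) * ‖w‖ ^ 2 := by
      field_simp
    have h5 : ε ^ 2 * ‖w‖ ^ 2 ≤ ‖w‖ ^ 2 - (ε ^ 2)⁻¹ * v := by linarith
    have h6 := mul_le_mul_of_nonneg_left h5 (inv_nonneg.2 hc.le)
    have h7 : (ε ^ 2)⁻¹ * (ε ^ 2 * ‖w‖ ^ 2) = ‖w‖ ^ 2 := by field_simp
    linarith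
  · rw [lc_hess hW h0 h1]
    have h2 := lc_var_lower hW h0 h1 x w
    generalize (∫ u, (inner ℝ u w - ∫ u', inner ℝ u' w ∂(post ε W x)) ^ 2 ∂(post ε W x)) = v at *
    have hd : 0 < 1 + ε ^ 2 := by positivity
    have h3 : (1 - ε ^ 2) * (1 + ε ^ 2)⁻¹ * ‖w‖ ^ 2 ≤ (ε ^ 2)⁻¹ * v := by
      have h8 : (1 - ε ^ 2) * (1 + ε ^ 2)⁻¹ * ‖w‖ ^ 2 ≤ (1 - ε ^ 2) * (1 + ε ^ 2)⁻¹ *
          (((1 + ε ^ 2) * (ε ^ 2 * (1 - ε ^ 2))⁻¹) * v) :=
        mul_le_mul_of_nonneg_left h2 (by positivity)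
      have h9 : (1 - ε ^ 2) * (1 + ε ^ 2)⁻¹ *
          (((1 + ε ^ 2) * (ε ^ 2 * (1 - ε ^ 2))⁻¹) * v) = (ε ^ 2)⁻¹ * v := by
        field_simp
      linarith
    have h10 : (1 - ε ^ 2) * (1 + ε ^ 2)⁻¹ * ‖w‖ ^ 2 = ‖w‖ ^ 2 - 2 * ε ^ 2 * (1 + ε ^ 2)⁻¹ * ‖w‖ ^ 2 := by
      field_simp
      ring
    have h11 : (1 + ε ^ 2)⁻¹ ≤ 1 := inv_le_one_of_one_le₀ (by linarith)
    have h12 : ‖w‖ ^ 2 - (ε ^ 2)⁻¹ * v ≤ ε ^ 2 * (2 * ‖w‖ ^ 2) := by
      have h13 : 2 * ε ^ 2 * ‖w‖ ^ 2 * (1 + ε ^ 2)⁻¹ ≤ 2 * ε ^ 2 * ‖w‖ ^ 2 * 1 :=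
        mul_le_mul_of_nonneg_left h11 (by positivity)
      linarith
    have h6 := mul_le_mul_of_nonneg_left h12 (inv_nonneg.2 hc.le)
    have h7 : (ε ^ 2)⁻¹ * (ε ^ 2 * (2 * ‖w‖ ^ 2)) = 2 * ‖w‖ ^ 2 := by field_simp
    linarith

theorem lc_dir_lip (hW : KPot ε W) (h0 : 0 < ε) (h1 : ε ≤ 1 / 2) (w a b : E d) :
    |fderiv ℝ W a w - fderiv ℝ W b w| ≤ (3 * ‖w‖) * ‖a - b‖ := by
  have h2 := hW.grad_lip h0 h1 a b
  rw [← inner_gradient, ← inner_gradient, ← inner_sub_left]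
  calc |inner ℝ (gradient W a - gradient W b) w| ≤ ‖gradient W a - gradient W b‖ * ‖w‖ :=
        abs_real_inner_le_norm _ _
    _ ≤ (3 * ‖a - b‖) * ‖w‖ := mul_le_mul_of_nonneg_right h2 (norm_nonneg _)
    _ = _ := by ring

theorem lsm_hsb (hW : KPot ε W) (h0 : 0 < ε) (h1 : ε ≤ 1 / 2) :
    HSB (fun n => 9 * ((n.factorial : ℝ)) ^ 2) ε (lsm ε W) := by
  obtain ⟨ha, hb, hc⟩ := lc_sq h0 h1
  intro n hn w x
  have e1 : (fun y => fderiv ℝ (lsm ε W) y w) = pe ε W (fun u => fderiv ℝ W u w) := by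
    funext y
    exact fderiv_lsm hW h0 h1 y w
  rw [e1]
  have h2 := pe_hs hW h0 h1 (lc_cont_dir hW w) (lc_pgr_dir hW h0 h1 w) hn x
  have h3 := (hW.lpot_pot h0 h1 x).var_lip (lc_kap h0 h1) (f := fun u => fderiv ℝ W u w)
    (L := 3 * ‖w‖) (fun a b => lc_dir_lip hW h0 h1 w a b)
  rw [inv_inv] at h3
  have h4 : ∫ u, (fderiv ℝ W u w - pe ε W (fun u => fderiv ℝ W u w) x) ^ 2 ∂(post ε W x) ≤
      ε ^ 2 * (1 - ε ^ 2) * (3 * ‖w‖) ^ 2 := h3
  have h5 : ε ^ 2 * (1 - ε ^ 2) * (3 * ‖w‖) ^ 2 ≤ ε ^ 2 * 1 * (3 * ‖w‖) ^ 2 := by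
    have : 1 - ε ^ 2 ≤ 1 := by linarith
    gcongr
  obtain ⟨m, rfl⟩ : ∃ m, n = m + 1 := ⟨n - 1, by omega⟩
  have h6 : ((((m + 1).factorial : ℝ)) ^ 2 * (ε ^ (2 * (m + 1)))⁻¹) *
      ∫ u, (fderiv ℝ W u w - pe ε W (fun u => fderiv ℝ W u w) x) ^ 2 ∂(post ε W x) ≤
      ((((m + 1).factorial : ℝ)) ^ 2 * (ε ^ (2 * (m + 1)))⁻¹) * (ε ^ 2 * 1 * (3 * ‖w‖) ^ 2) :=
    mul_le_mul_of_nonneg_left (h4.trans h5) (by positivity)
  refine (h2.trans h6).trans (le_of_eq ?_)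
  rw [Nat.add_sub_cancel, mul_add, mul_one, pow_add]
  field_simp
  ring

/-- comparison of the posterior expectation of the gradient -/
theorem lc_abs_first (hW : KPot ε W) (h0 : 0 < ε) (h1 : ε ≤ 1 / 2) (y : E d) :
    ∫ w, ‖w - y‖ ∂(post ε W y) ≤ ε * √d + ε ^ 2 * ‖gradient W y‖ := by
  have := post_prob hW h0 h1 y
  have h2 := post_moment hW h0 h1 y
  have c1 : Continuous (fun w : E d => ‖w - y‖) := (continuous_id.sub continuous_const).norm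
  have g1 : ∀ w : E d, ‖w - y‖ ≤ (1 + ‖y‖) * (1 + ‖w‖) := by
    intro w
    have := norm_sub_le w y
    have h3 : 0 ≤ ‖y‖ * ‖w‖ := by positivity
    linarith
  have p1 : Pgr (fun w : E d => ‖w - y‖) := ⟨1, 1 + ‖y‖, fun w => by
    rw [norm_norm, pow_one]
    exact g1 w⟩
  have i1 : Integrable (fun w : E d => ‖w - y‖) (post ε W y) := lc_int hW h0 h1 y c1 p1
  have i2 : Integrable (fun w : E d => ‖w - y‖ ^ 2) (post ε W y) := by
    have : Integrable (fun w : E d => ‖w - y‖ * ‖w - y‖) (post ε W y) :=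
      lc_int hW h0 h1 y (c1.mul c1) (lc_pgr_mul p1 p1)
    simpa only [sq] using this
  have h3 : (∫ w, ‖w - y‖ ∂(post ε W y)) ^ 2 ≤ ∫ w, ‖w - y‖ ^ 2 ∂(post ε W y) := by
    generalize hM : (∫ w, ‖w - y‖ ∂(post ε W y)) = M at *
    have h4 : 0 ≤ ∫ w, (‖w - y‖ - M) ^ 2 ∂(post ε W y) :=
      integral_nonneg fun w => sq_nonneg _
    have e3 : ∀ w : E d, (‖w - y‖ - M) ^ 2 = ‖w - y‖ ^ 2 - 2 * M * ‖w - y‖ + M ^ 2 := by
      intro w
      ring
    simp only [e3] at h4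
    have i5 : Integrable (fun w : E d => ‖w - y‖ ^ 2 - 2 * M * ‖w - y‖) (post ε W y) :=
      i2.sub (i1.const_mul _)
    rw [integral_add i5 (integrable_const _), integral_sub i2 (i1.const_mul _),
      integral_const_mul, integral_const, hM] at h4
    simp only [probReal_univ, smul_eq_mul, one_mul] at h4
    linarith
  exact abs_le_of_sq_le_sq' (h3.trans h2) (by positivity) |>.2

theorem lc_grad_inner (hW : KPot ε W) (h0 : 0 < ε) (h1 : ε ≤ 1 / 2) (y h : E d) :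
    inner ℝ (gradient W y - gradient (lsm ε W) y) h ≤
      3 * ‖h‖ * (ε * √d + ε ^ 2 * ‖gradient W y‖) := by
  have := post_prob hW h0 h1 y
  rw [inner_sub_left, inner_gradient, inner_gradient, fderiv_lsm hW h0 h1, pe]
  have i1 : Integrable (fun w => fderiv ℝ W w h) (post ε W y) :=
    lc_int hW h0 h1 y (lc_cont_dir hW h) (lc_pgr_dir hW h0 h1 h)
  have c1 : Continuous (fun w : E d => ‖w - y‖) := (continuous_id.sub continuous_const).norm
  have p1 : Pgr (fun w : E d => ‖w - y‖) := ⟨1, 1 + ‖y‖, fun w => by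
    rw [norm_norm, pow_one]
    have := norm_sub_le w y
    have h3 : 0 ≤ ‖y‖ * ‖w‖ := by positivity
    linarith⟩
  have i2 : Integrable (fun w : E d => ‖w - y‖) (post ε W y) := lc_int hW h0 h1 y c1 p1
  have e1 : fderiv ℝ W y h - ∫ w, fderiv ℝ W w h ∂(post ε W y) =
      ∫ w, (fderiv ℝ W y h - fderiv ℝ W w h) ∂(post ε W y) := by
    rw [integral_sub (integrable_const _) i1, integral_const]
    simp
  rw [e1]
  calc ∫ w, (fderiv ℝ W y h - fderiv ℝ W w h) ∂(post ε W y)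
      ≤ ∫ w, (3 * ‖h‖) * ‖w - y‖ ∂(post ε W y) := by
        refine integral_mono ((integrable_const _).sub i1) (i2.const_mul _) fun w => ?_
        have h3 := lc_dir_lip hW h0 h1 h y w
        rw [norm_sub_rev y w] at h3
        exact (le_abs_self _).trans h3
    _ = (3 * ‖h‖) * ∫ w, ‖w - y‖ ∂(post ε W y) := integral_const_mul _ _
    _ ≤ _ := mul_le_mul_of_nonneg_left (lc_abs_first hW h0 h1 y) (by positivity)

theorem grad_cmp (hW : KPot ε W) (h0 : 0 < ε) (h1 : ε ≤ 1 / 4) (y : E d) :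
    ‖gradient W y - gradient (lsm ε W) y‖ ≤ 3 * ε * √d + 3 * ε ^ 2 * ‖gradient W y‖ ∧
    ‖gradient W y‖ ≤ 2 * ‖gradient (lsm ε W) y‖ + 6 * ε * √d := by
  have h1' : ε ≤ 1 / 2 := by linarith
  have key : ‖gradient W y - gradient (lsm ε W) y‖ ≤
      3 * ε * √d + 3 * ε ^ 2 * ‖gradient W y‖ := by
    have h2 := lc_grad_inner hW h0 h1' y (gradient W y - gradient (lsm ε W) y)
    rw [real_inner_self_eq_norm_sq] at h2
    generalize ‖gradient W y - gradient (lsm ε W) y‖ = a at *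
    have h3 : 0 ≤ ε * √d + ε ^ 2 * ‖gradient W y‖ := by positivity
    by_contra hn
    push Not at hn
    have ha : 0 < a := by
      refine lt_of_le_of_lt ?_ hn
      positivity
    have h4 : a * (3 * ε * √d + 3 * ε ^ 2 * ‖gradient W y‖) < a * a := mul_lt_mul_of_pos_left hn ha
    have h5 : a * (3 * ε * √d + 3 * ε ^ 2 * ‖gradient W y‖) =
        3 * a * (ε * √d + ε ^ 2 * ‖gradient W y‖) := by ring
    rw [sq] at h2
    linarith
  refine ⟨key, ?_⟩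
  have h3 : ‖gradient W y‖ ≤ ‖gradient W y - gradient (lsm ε W) y‖ + ‖gradient (lsm ε W) y‖ := by
    have := norm_add_le (gradient W y - gradient (lsm ε W) y) (gradient (lsm ε W) y)
    rwa [sub_add_cancel] at this
  have h4 : 3 * ε ^ 2 * ‖gradient W y‖ ≤ 1 / 2 * ‖gradient W y‖ := by
    refine mul_le_mul_of_nonneg_right ?_ (norm_nonneg _)
    have : ε ^ 2 ≤ (1 / 4) ^ 2 := pow_le_pow_left₀ h0.le h1 2
    linarith
  linarith

/-- the law of `-z` -/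
theorem lc_neg (d : ℕ) : (stdGaussian (E d)).map (fun z => -z) = stdGaussian (E d) :=
  stdGaussian_map (LinearIsometryEquiv.neg ℝ (E := E d))

theorem lc_gw_lint (hW : KPot ε W) {f : E d → ℝ≥0∞} (hf : Measurable f) :
    ∫⁻ x, f x ∂(gibbs W) = (∫⁻ x, ENNReal.ofReal (Real.exp (-W x)))⁻¹ *
      ∫⁻ x, ENNReal.ofReal (Real.exp (-W x)) * f x := by
  have hm : Measurable (fun x : E d => ENNReal.ofReal (Real.exp (-W x))) := by
    have := (lc_cont hW).measurable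
    fun_prop
  rw [gibbs, lintegral_smul_measure, lintegral_withDensity_eq_lintegral_mul _ hm hf]
  rfl

theorem lc_lintN (hW : KPot ε W) (h0 : 0 < ε) (h1 : ε ≤ 1 / 2) (y : E d) :
    ∫⁻ z, ENNReal.ofReal (Real.exp (-W (y - ε • z))) ∂(stdGaussian (E d)) =
      ENNReal.ofReal (Real.exp (-lsm ε W y)) := by
  have hm : Measurable (fun x : E d => ENNReal.ofReal (Real.exp (-W x))) := by
    have := (lc_cont hW).measurable
    fun_prop
  have hm2 : Measurable (fun z : E d => ENNReal.ofReal (Real.exp (-W (y + ε • z)))) :=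
    hm.comp (by fun_prop)
  have e1 : ∫⁻ z, ENNReal.ofReal (Real.exp (-W (y - ε • z))) ∂(stdGaussian (E d)) =
      ∫⁻ z, ENNReal.ofReal (Real.exp (-W (y + ε • z))) ∂(stdGaussian (E d)) := by
    conv_rhs => rw [← lc_neg d]
    rw [lintegral_map hm2 measurable_neg]
    refine lintegral_congr fun z => ?_
    rw [smul_neg, sub_eq_add_neg]
  have e2 : Real.exp (-lsm ε W y) = ∫ z, Real.exp (-W (y + ε • z)) ∂(stdGaussian (E d)) := by
    rw [lc_lsm_eq, neg_neg, Real.exp_log (lc_N_pos hW h0 h1 y)]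
    rfl
  rw [e1, e2, ofReal_integral_eq_lintegral_ofReal]
  · exact ((lc_polyB_one hW h0 h1).comp_shift ε y).int
  · exact Filter.Eventually.of_forall fun z => Real.exp_nonneg _

theorem lc_cv_lint (hW : KPot ε W) (h0 : 0 < ε) (h1 : ε ≤ 1 / 2) {f : E d → ℝ≥0∞}
    (hf : Measurable f) :
    ∫⁻ y, f y ∂(cv W (ε ^ 2)) = (∫⁻ x, ENNReal.ofReal (Real.exp (-W x)))⁻¹ *
      ∫⁻ y, ENNReal.ofReal (Real.exp (-lsm ε W y)) * f y := by
  have hm : Measurable (fun x : E d => ENNReal.ofReal (Real.exp (-W x))) := by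
    have := (lc_cont hW).measurable
    fun_prop
  have hp : Measurable (fun p : E d × E d => p.1 + ε • p.2) := by fun_prop
  have hp' : Measurable (fun p : E d × E d => f (p.1 + ε • p.2)) := hf.comp hp
  have e0 : √(ε ^ 2) = ε := Real.sqrt_sq h0.le
  obtain ⟨c, hc⟩ := lc_low hW h0 h1
  have := gibbs_prob_of_lower (lc_cont hW) hc
  rw [cv, e0, lintegral_map hf hp, lintegral_prod_symm' _ hp']
  have e1 : ∀ z : E d, ∫⁻ x, f (x + ε • z) ∂(gibbs W) =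
      (∫⁻ x, ENNReal.ofReal (Real.exp (-W x)))⁻¹ *
        ∫⁻ y, ENNReal.ofReal (Real.exp (-W (y - ε • z))) * f y := by
    intro z
    rw [lc_gw_lint (f := fun x => f (x + ε • z)) hW
      (hf.comp (by fun_prop : Measurable fun x : E d => x + ε • z))]
    congr 1
    rw [← lintegral_add_right_eq_self (fun y => ENNReal.ofReal (Real.exp (-W (y - ε • z))) * f y)
      (ε • z)]
    refine lintegral_congr fun x => ?_
    rw [add_sub_cancel_right]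
  simp only [e1]
  have hq : Measurable (fun p : E d × E d =>
      ENNReal.ofReal (Real.exp (-W (p.2 - ε • p.1))) * f p.2) :=
    (hm.comp (by fun_prop : Measurable fun p : E d × E d => p.2 - ε • p.1)).mul
      (hf.comp measurable_snd)
  have hq' : Measurable (fun p : E d × E d =>
      ENNReal.ofReal (Real.exp (-W (p.1 - ε • p.2))) * f p.1) :=
    (hm.comp (by fun_prop : Measurable fun p : E d × E d => p.1 - ε • p.2)).mul
      (hf.comp measurable_fst)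
  rw [lintegral_const_mul _ hq.lintegral_prod_right', lintegral_lintegral_swap hq.aemeasurable]
  congr 1
  refine lintegral_congr fun y => ?_
  have hr : Measurable (fun z : E d => ENNReal.ofReal (Real.exp (-W (y - ε • z)))) :=
    hm.comp (by fun_prop : Measurable fun z : E d => y - ε • z)
  rw [← lc_lintN hW h0 h1, ← lintegral_mul_const _ hr]

/-- the law of `w + ε z`, `w ∼ gibbs W` -/
theorem gibbs_lsm (hW : KPot ε W) (h0 : 0 < ε) (h1 : ε ≤ 1 / 2) :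
    gibbs (lsm ε W) = cv W (ε ^ 2) := by
  obtain ⟨c, hc⟩ := lc_low hW h0 h1
  have := gibbs_prob_of_lower (lc_cont hW) hc
  have hp : Measurable (fun p : E d × E d => p.1 + √(ε ^ 2) • p.2) := by fun_prop
  have hpr : IsProbabilityMeasure (cv W (ε ^ 2)) := by
    rw [cv]
    exact Measure.isProbabilityMeasure_map hp.aemeasurable
  have hm : Measurable (fun x : E d => ENNReal.ofReal (Real.exp (-lsm ε W x))) := by
    have := (lc_lsm_diff hW h0 h1).continuous.measurable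
    fun_prop
  have h2 := lc_cv_lint hW h0 h1 (f := fun _ => (1 : ℝ≥0∞)) measurable_const
  rw [lintegral_const, measure_univ, mul_one] at h2
  simp only [mul_one] at h2
  have h3 : (∫⁻ x, ENNReal.ofReal (Real.exp (-W x)))⁻¹ =
      (∫⁻ x, ENNReal.ofReal (Real.exp (-lsm ε W x)))⁻¹ := by
    exact ENNReal.eq_inv_of_mul_eq_one_left h2.symm
  ext s hs
  have h4 := lc_cv_lint hW h0 h1 (f := s.indicator 1) (measurable_one.indicator hs)
  rw [lintegral_indicator_one hs] at h4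
  rw [h4, h3, gibbs, Measure.smul_apply, withDensity_apply _ hs, smul_eq_mul]
  congr 1
  rw [← lintegral_indicator hs]
  refine lintegral_congr fun x => ?_
  by_cases hx : x ∈ s
  · simp [hx]
  · simp [hx]

end P347S
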