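import Vale.Agent.P347S.Defs

/-!
Module Poinc: strongly log-concave measures with `C²` potentials (`LPot κ Φ`).

Proofs: everything is as in `P347Q.Gibbs` and `P347Q.Poincare` (copy and generalise; there the
potential is smooth and temperate, but only `C²` and the lower curvature bound are used; rescale by
`√κ` or redo the Prekopa-Leindler step with `κ`).
* `var_lip`: Prekopa-Leindler with `F = e^{δ f}`, `G = e^{-δ f}`, `H = e^{δ² L²/(2κ)}` gives
  `(∫ e^{δ f}) (∫ e^{-δ f}) ≤ e^{δ² L²/κ}`; expand at `δ → 0` (truncate `f` first if convenient).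
* `moment`: `E⟨w - y, ∇Φ(w)⟩ = d` and `⟨w - y, ∇Φ(w) - ∇Φ(y)⟩ ≥ κ |w-y|²`, so with
  `A² = E|w-y|²`: `κ A² ≤ d + |∇Φ(y)| A`.
* `cramer_rao`: `|h|² = E[⟨w̃,h⟩ ∂_hΦ] ≤ (Var⟨w,h⟩)^{1/2} (E (∂_hΦ)²)^{1/2}`,
  `E(∂_hΦ)² = E ∂_h²Φ ≤ κ' |h|²`.
-/

open MeasureTheory ProbabilityTheory Function
open scoped ENNReal BigOperators

namespace P347S

open P347Q

variable {d : ℕ} {κ : ℝ} {Φ : E d → ℝ}

namespace PoincAux

/-! ### general facts for potentials bounded below by a quadratic -/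

theorem exp_int {V : E d → ℝ} (hc : Continuous V) {b c : ℝ} (hb0 : 0 < b)
    (hl : ∀ x, c + b * ‖x‖ ^ 2 ≤ V x) {f : E d → ℝ} (hf : Continuous f) {k : ℕ} {C : ℝ}
    (hb : ∀ x, |f x| ≤ C * (1 + ‖x‖) ^ k) :
    Integrable (fun x => Real.exp (-V x) * f x) := by
  have h := (integrable_poly_exp (d := d) (b := b) hb0 k).const_mul (Real.exp (-c) * C)
  refine h.mono' (by fun_prop) ?_
  filter_upwards with x
  rw [norm_mul, Real.norm_of_nonneg (Real.exp_nonneg _), Real.norm_eq_abs]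
  have h1 : Real.exp (-V x) ≤ Real.exp (-c) * Real.exp (-b * ‖x‖ ^ 2) := by
    rw [← Real.exp_add]
    apply Real.exp_le_exp.2
    have := hl x
    linarith
  calc Real.exp (-V x) * |f x| ≤ (Real.exp (-c) * Real.exp (-b * ‖x‖ ^ 2)) *
        (C * (1 + ‖x‖) ^ k) := by
        apply mul_le_mul h1 (hb x) (abs_nonneg _) (by positivity)
    _ = _ := by ring

theorem exp_int' {V : E d → ℝ} (hc : Continuous V) {b c : ℝ} (hb0 : 0 < b)
    (hl : ∀ x, c + b * ‖x‖ ^ 2 ≤ V x) : Integrable (fun x => Real.exp (-V x)) := by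
  have := exp_int hc hb0 hl (f := fun _ => 1) continuous_const (k := 0) (C := 1)
    (fun x => by simp)
  simpa using this

theorem lint_eq {V : E d → ℝ} (hi : Integrable (fun x => Real.exp (-V x))) :
    ∫⁻ x, ENNReal.ofReal (Real.exp (-V x)) = ENNReal.ofReal (∫ x, Real.exp (-V x)) := by
  rw [ofReal_integral_eq_lintegral_ofReal hi]
  filter_upwards with x
  exact Real.exp_nonneg _

theorem Zpos {V : E d → ℝ} (hi : Integrable (fun x => Real.exp (-V x))) :
    0 < ∫ x, Real.exp (-V x) := by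
  rw [integral_pos_iff_support_of_nonneg (fun x => Real.exp_nonneg _) hi]
  have : Function.support (fun x : E d => Real.exp (-V x)) = Set.univ := by
    ext x
    simp [Real.exp_ne_zero]
  rw [this]
  exact Measure.measure_univ_pos.2 (NeZero.ne _)

theorem gibbs_prob {V : E d → ℝ} (hi : Integrable (fun x => Real.exp (-V x))) :
    IsProbabilityMeasure (gibbs V) := by
  constructor
  rw [gibbs, Measure.smul_apply, withDensity_apply _ MeasurableSet.univ, Measure.restrict_univ,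
    smul_eq_mul]
  have h := lint_eq hi
  have hZ := Zpos hi
  refine ENNReal.inv_mul_cancel ?_ ?_
  · rw [h]
    simpa using hZ
  · rw [h]
    exact ENNReal.ofReal_ne_top

theorem int_gibbs {V : E d → ℝ} (hc : Continuous V)
    (hi : Integrable (fun x => Real.exp (-V x))) (f : E d → ℝ) :
    ∫ x, f x ∂(gibbs V) = (∫ x, Real.exp (-V x))⁻¹ * ∫ x, Real.exp (-V x) * f x := by
  have hm : Measurable (fun x : E d => ENNReal.ofReal (Real.exp (-V x))) := by
    have := hc.measurable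
    fun_prop
  rw [gibbs, integral_smul_measure, integral_withDensity_eq_integral_toReal_smul hm
    (by filter_upwards with x; exact ENNReal.ofReal_lt_top), lint_eq hi]
  rw [ENNReal.toReal_inv, ENNReal.toReal_ofReal (Zpos hi).le, smul_eq_mul]
  congr 1
  apply integral_congr_ae
  filter_upwards with x
  rw [ENNReal.toReal_ofReal (Real.exp_nonneg _), smul_eq_mul]

theorem integrable_gibbs' {V : E d → ℝ} (hc : Continuous V)
    (hi : Integrable (fun x => Real.exp (-V x))) {f : E d → ℝ}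
    (hf : Integrable (fun x => Real.exp (-V x) * f x)) : Integrable f (gibbs V) := by
  have hm : Measurable (fun x : E d => ENNReal.ofReal (Real.exp (-V x))) := by
    have := hc.measurable
    fun_prop
  rw [gibbs]
  apply Integrable.smul_measure
  · rw [integrable_withDensity_iff_integrable_smul' hm
      (by filter_upwards with x; exact ENNReal.ofReal_lt_top)]
    refine hf.congr ?_
    filter_upwards with x
    rw [ENNReal.toReal_ofReal (Real.exp_nonneg _), smul_eq_mul]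
  · rw [lint_eq hi]
    simpa using Zpos hi

theorem lowerQ (h : LPot κ Φ) (hκ : 0 < κ) (x : E d) :
    (Φ 0 - ‖fderiv ℝ Φ 0‖ ^ 2 / κ) + κ / 4 * ‖x‖ ^ 2 ≤ Φ x := by
  have h0 := second_order_lower h.smooth 0 x (κ * ‖x‖ ^ 2) (fun t _ => h.lower _ _)
  rw [zero_add] at h0
  have h1 : -(‖fderiv ℝ Φ 0‖ * ‖x‖) ≤ fderiv ℝ Φ 0 x := by
    have := (fderiv ℝ Φ 0).le_opNorm x
    rw [Real.norm_eq_abs] at this
    exact (abs_le.1 this).1
  have h2 : ‖fderiv ℝ Φ 0‖ * ‖x‖ ≤ ‖fderiv ℝ Φ 0‖ ^ 2 / κ + κ / 4 * ‖x‖ ^ 2 := by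
    have h3 : ‖fderiv ℝ Φ 0‖ ^ 2 / κ + κ / 4 * ‖x‖ ^ 2 - ‖fderiv ℝ Φ 0‖ * ‖x‖ =
        (‖fderiv ℝ Φ 0‖ - κ / 2 * ‖x‖) ^ 2 / κ := by
      field_simp
      ring
    have h4 : 0 ≤ (‖fderiv ℝ Φ 0‖ - κ / 2 * ‖x‖) ^ 2 / κ := by positivity
    linarith
  linarith

theorem exp_integrable (h : LPot κ Φ) (hκ : 0 < κ) :
    Integrable (fun x => Real.exp (-Φ x)) :=
  exp_int' h.smooth.continuous (by positivity) (lowerQ h hκ)

/-- strong monotonicity of the gradient -/
theorem strong_mono (h : LPot κ Φ) (y w : E d) :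
    κ * ‖w - y‖ ^ 2 ≤ fderiv ℝ Φ w (w - y) - fderiv ℝ Φ y (w - y) := by
  have a1 := second_order_lower h.smooth y (w - y) (κ * ‖w - y‖ ^ 2) (fun t _ => h.lower _ _)
  have a2 := second_order_lower h.smooth w (-(w - y)) (κ * ‖w - y‖ ^ 2) (fun t _ => by
    have := h.lower (w + t • -(w - y)) (-(w - y))
    rwa [norm_neg] at this)
  have e1 : y + (w - y) = w := by abel
  have e2 : w + -(w - y) = y := by abel
  rw [e1] at a1
  rw [e2, map_neg] at a2
  linarith

theorem pgr_coord (y : E d) (i : Fin d) : Pgr (fun x : E d => (x - y) i) := by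
  refine ⟨1, 1 + ‖y‖, fun x => ?_⟩
  have h1 : ‖(x - y) i‖ ≤ ‖x - y‖ := PiLp.norm_apply_le _ i
  have h2 : ‖x - y‖ ≤ ‖x‖ + ‖y‖ := norm_sub_le _ _
  have h3 : 0 ≤ ‖x‖ := norm_nonneg _
  have h4 : 0 ≤ ‖y‖ := norm_nonneg _
  rw [pow_one]
  nlinarith

end PoincAux

open PoincAux

theorem LPot.prob (h : LPot κ Φ) (hκ : 0 < κ) : IsProbabilityMeasure (gibbs Φ) :=
  gibbs_prob (exp_integrable h hκ)

theorem LPot.integrable {F : Type*} [NormedAddCommGroup F] (h : LPot κ Φ)
    (hκ : 0 < κ) {f : E d → F} (hf : Continuous f) (hp : Pgr f) : Integrable f (gibbs Φ) := by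
  obtain ⟨k, C, hC⟩ := hp
  have h1 : Integrable (fun x => ‖f x‖) (gibbs Φ) := by
    refine integrable_gibbs' h.smooth.continuous (exp_integrable h hκ) ?_
    exact exp_int h.smooth.continuous (b := κ / 4) (by positivity) (lowerQ h hκ) hf.norm
      (k := k) (C := C) (fun x => by rw [abs_norm]; exact hC x)
  exact h1.mono' hf.aestronglyMeasurable (Filter.Eventually.of_forall fun x => le_rfl)

theorem LPot.ibp (h : LPot κ Φ) (hκ : 0 < κ) (hΦ : Pgr (fderiv ℝ Φ)) {f : E d → ℝ}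
    (hf : ContDiff ℝ 1 f) (h0 : Pgr f) (h1 : Pgr (fderiv ℝ f)) (w : E d) :
    ∫ x, fderiv ℝ f x w ∂(gibbs Φ) = ∫ x, f x * fderiv ℝ Φ x w ∂(gibbs Φ) := by
  have hΦc : Continuous Φ := h.smooth.continuous
  have hi := exp_integrable h hκ
  rw [int_gibbs hΦc hi, int_gibbs hΦc hi]
  congr 1
  have hd : Differentiable ℝ Φ := h.smooth.differentiable (by norm_num)
  have hfd : Differentiable ℝ f := hf.differentiable (by norm_num)
  have hfc : Continuous f := hf.continuous
  have hfc1 : Continuous (fun x => fderiv ℝ f x w) :=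
    (hf.continuous_fderiv (by norm_num)).clm_apply continuous_const
  have hΦc1 : Continuous (fun x => fderiv ℝ Φ x w) :=
    (h.smooth.continuous_fderiv (by norm_num)).clm_apply continuous_const
  have hg : ∀ x, fderiv ℝ (fun x => Real.exp (-Φ x)) x w = -(Real.exp (-Φ x) * fderiv ℝ Φ x w) := by
    intro x
    have h1 : HasFDerivAt (fun x => Real.exp (-Φ x)) (Real.exp (-Φ x) • -fderiv ℝ Φ x) x :=
      ((hd x).hasFDerivAt.neg).exp
    rw [h1.fderiv]
    simp
  obtain ⟨k0, C0, b0⟩ := h0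
  obtain ⟨k1, C1, b1⟩ := h1
  obtain ⟨k2, C2, b2⟩ := hΦ
  have i0 : Integrable (fun x => Real.exp (-Φ x) * f x) :=
    exp_int hΦc (b := κ / 4) (by positivity) (lowerQ h hκ) hfc b0
  have i1 : Integrable (fun x => Real.exp (-Φ x) * fderiv ℝ f x w) := by
    refine exp_int hΦc (b := κ / 4) (by positivity) (lowerQ h hκ) hfc1 (k := k1) (C := C1 * ‖w‖)
      fun x => ?_
    have h3 := (fderiv ℝ f x).le_opNorm w
    rw [Real.norm_eq_abs] at h3
    refine h3.trans ?_
    have := mul_le_mul_of_nonneg_right (b1 x) (norm_nonneg w)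
    linarith [this, mul_right_comm C1 ((1 + ‖x‖) ^ k1) ‖w‖]
  have i2 : Integrable (fun x => Real.exp (-Φ x) * (f x * fderiv ℝ Φ x w)) := by
    refine exp_int hΦc (b := κ / 4) (by positivity) (lowerQ h hκ) (hfc.mul hΦc1) (k := k0 + k2)
      (C := C0 * C2 * ‖w‖) fun x => ?_
    rw [abs_mul]
    have h3 := (fderiv ℝ Φ x).le_opNorm w
    rw [Real.norm_eq_abs] at h3
    have h4 := mul_le_mul_of_nonneg_right (b2 x) (norm_nonneg w)
    have h5 : |fderiv ℝ Φ x w| ≤ C2 * (1 + ‖x‖) ^ k2 * ‖w‖ := h3.trans h4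
    have h6 := mul_le_mul (b0 x) h5 (abs_nonneg _) ((abs_nonneg _).trans (b0 x))
    refine (le_of_eq ?_).trans (h6.trans (le_of_eq ?_))
    · rfl
    · rw [pow_add]; ring
  have hh := integral_mul_fderiv_eq_neg_fderiv_mul_of_integrable (μ := (volume : Measure (E d)))
    (f := fun x => Real.exp (-Φ x)) (g := f) (v := w)
    (by
      refine i2.neg.congr ?_
      filter_upwards with x
      rw [hg]
      simp only [Pi.neg_apply]
      ring) i1 i0
    (fun x _ => ((hd x).neg).exp) (fun x _ => hfd x)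
  rw [hh, ← integral_neg]
  apply integral_congr_ae
  filter_upwards with x
  rw [hg]
  ring

theorem LPot.moment (h : LPot κ Φ) (hκ : 0 < κ) (hΦ : Pgr (fderiv ℝ Φ)) (y : E d) :
    ∫ w, ‖w - y‖ ^ 2 ∂(gibbs Φ) ≤ (√(d / κ) + ‖gradient Φ y‖ / κ) ^ 2 := by
  have hp := h.prob hκ
  have hΦc1 : Continuous (fderiv ℝ Φ) := h.smooth.continuous_fderiv (by norm_num)
  -- coordinates
  have hcoord : ∀ i : Fin d, ∀ x : E d,
      fderiv ℝ (fun x : E d => (x - y) i) x = (EuclideanSpace.proj i : E d →L[ℝ] ℝ) := by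
    intro i x
    have h1 : (fun x : E d => (x - y) i) =
        fun x => (EuclideanSpace.proj i : E d →L[ℝ] ℝ) x - y i := by
      funext x; simp
    rw [h1, fderiv_sub_const, ContinuousLinearMap.fderiv]
  have hcd : ∀ i : Fin d, ContDiff ℝ 1 (fun x : E d => (x - y) i) := by
    intro i
    have h1 : (fun x : E d => (x - y) i) =
        fun x => (EuclideanSpace.proj i : E d →L[ℝ] ℝ) x - y i := by
      funext x; simp
    rw [h1]
    exact (ContinuousLinearMap.contDiff _).sub contDiff_const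
  have hone : ∀ i : Fin d,
      ∫ x, (x - y) i * fderiv ℝ Φ x (bas d i) ∂(gibbs Φ) = 1 := by
    intro i
    rw [← h.ibp hκ hΦ (hcd i) (pgr_coord y i) ?_ (bas d i)]
    · simp only [hcoord]
      simp [bas]
    · refine ⟨0, ‖(EuclideanSpace.proj i : E d →L[ℝ] ℝ)‖, fun x => ?_⟩
      rw [hcoord]; simp
  have hint : ∀ i : Fin d,
      Integrable (fun x => (x - y) i * fderiv ℝ Φ x (bas d i)) (gibbs Φ) := by
    intro i
    refine h.integrable hκ ((hcd i).continuous.mul (hΦc1.clm_apply continuous_const)) ?_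
    obtain ⟨k0, C0, b0⟩ := pgr_coord y i
    obtain ⟨k2, C2, b2⟩ := hΦ
    refine ⟨k0 + k2, C0 * C2, fun x => ?_⟩
    rw [norm_mul]
    have h3 := (fderiv ℝ Φ x).le_opNorm (bas d i)
    rw [norm_bas, mul_one] at h3
    have h6 := mul_le_mul (b0 x) (h3.trans (b2 x)) (norm_nonneg _) ((norm_nonneg _).trans (b0 x))
    refine h6.trans (le_of_eq ?_)
    rw [pow_add]; ring
  have hsum : ∫ x, ∑ i, (x - y) i * fderiv ℝ Φ x (bas d i) ∂(gibbs Φ) = d := by
    rw [integral_finsetSum _ (fun i _ => hint i)]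
    rw [Finset.sum_congr rfl fun i _ => hone i]
    simp
  have hpt : ∀ x : E d, ∑ i, (x - y) i * fderiv ℝ Φ x (bas d i) = fderiv ℝ Φ x (x - y) := by
    intro x
    conv_rhs => rw [← sum_bas (x - y), map_sum]
    refine Finset.sum_congr rfl fun i _ => ?_
    rw [map_smul, smul_eq_mul]
  -- integrability of the norms
  have hn1 : Integrable (fun x : E d => ‖x - y‖) (gibbs Φ) := by
    refine h.integrable hκ (by fun_prop) ⟨1, 1 + ‖y‖, fun x => ?_⟩
    rw [norm_norm, pow_one]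
    have := norm_sub_le x y
    nlinarith [norm_nonneg x, norm_nonneg y]
  have hn2 : Integrable (fun x : E d => ‖x - y‖ ^ 2) (gibbs Φ) := by
    refine h.integrable hκ (by fun_prop) ⟨2, (1 + ‖y‖) ^ 2, fun x => ?_⟩
    rw [norm_pow, norm_norm, ← mul_pow]
    refine pow_le_pow_left₀ (norm_nonneg _) ?_ 2
    have := norm_sub_le x y
    nlinarith [norm_nonneg x, norm_nonneg y]
  set A2 := ∫ w, ‖w - y‖ ^ 2 ∂(gibbs Φ) with hA2
  set A1 := ∫ w, ‖w - y‖ ∂(gibbs Φ) with hA1
  set gr := ‖gradient Φ y‖ with hgr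
  have hA2n : 0 ≤ A2 := integral_nonneg fun _ => by positivity
  have hgr0 : 0 ≤ gr := norm_nonneg _
  -- Jensen
  have hjen : A1 ≤ √A2 := by
    apply Real.le_sqrt_of_sq_le
    have h3 : 0 ≤ ∫ w, (‖w - y‖ - A1) ^ 2 ∂(gibbs Φ) := integral_nonneg fun _ => sq_nonneg _
    have h4 : ∫ w, (‖w - y‖ - A1) ^ 2 ∂(gibbs Φ) = A2 - A1 ^ 2 := by
      have e : ∀ w : E d, (‖w - y‖ - A1) ^ 2 = ‖w - y‖ ^ 2 - (2 * A1) * ‖w - y‖ + A1 ^ 2 :=
        fun w => by ring
      simp only [e]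
      have i3 : Integrable (fun w : E d => ‖w - y‖ ^ 2 - (2 * A1) * ‖w - y‖) (gibbs Φ) :=
        hn2.sub (hn1.const_mul _)
      rw [integral_add i3 (integrable_const _),
        integral_sub hn2 (hn1.const_mul _), integral_const_mul]
      simp only [integral_const, probReal_univ, smul_eq_mul, one_mul]
      rw [← hA1, ← hA2]
      ring
    linarith
  -- the main inequality
  have hmain : κ * A2 ≤ d + gr * A1 := by
    have h3 : ∀ w : E d, κ * ‖w - y‖ ^ 2 ≤
        ∑ i, (w - y) i * fderiv ℝ Φ w (bas d i) + gr * ‖w - y‖ := by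
      intro w
      rw [hpt]
      have a1 := strong_mono h y w
      have a2 : -(gr * ‖w - y‖) ≤ fderiv ℝ Φ y (w - y) := by
        have := (fderiv ℝ Φ y).le_opNorm (w - y)
        rw [Real.norm_eq_abs, ← norm_gradient] at this
        exact (abs_le.1 this).1
      linarith
    have h4 := integral_mono (hn2.const_mul κ)
      ((integrable_finsetSum _ (fun i _ => hint i)).add (hn1.const_mul gr)) h3
    simp only [Pi.add_apply] at h4
    rw [integral_const_mul, integral_add (integrable_finsetSum _ (fun i _ => hint i))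
      (hn1.const_mul gr), hsum, integral_const_mul] at h4
    exact h4
  have h5 : κ * (√A2) ^ 2 ≤ d + gr * √A2 := by
    rw [Real.sq_sqrt hA2n]
    have := mul_le_mul_of_nonneg_left hjen hgr0
    linarith
  have hA : √A2 ≤ √(d / κ) + gr / κ := by
    by_contra hcon
    push Not at hcon
    set a := √A2 with ha
    set s := √(d / κ) with hs
    have hs0 : 0 ≤ s := Real.sqrt_nonneg _
    have hs2 : s ^ 2 = d / κ := Real.sq_sqrt (by positivity)
    have h6 : κ * s ^ 2 = d := by rw [hs2]; field_simp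
    have h7 : gr < κ * (a - s) := by
      have : gr / κ < a - s := by linarith
      rw [div_lt_iff₀ hκ] at this
      linarith
    have h8 : s < a := by
      have : 0 ≤ gr / κ := by positivity
      linarith
    have h9 : gr * a ≤ κ * (a - s) * a :=
      mul_le_mul_of_nonneg_right h7.le (hs0.trans h8.le)
    have h10 : κ * s ^ 2 ≤ κ * (s * a) := by
      apply mul_le_mul_of_nonneg_left _ hκ.le
      nlinarith
    -- κ a² ≤ κ s² + gr a < κ s² + κ (a - s) a
    rcases hs0.eq_or_lt with h11 | h11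
    · -- s = 0
      have h12 : gr * a < κ * (a - s) * a := mul_lt_mul_of_pos_right h7 (by linarith)
      rw [← h6, ← h11] at h5
      rw [← h11] at h12
      nlinarith
    · have h12 : κ * s ^ 2 < κ * (s * a) := by
        apply mul_lt_mul_of_pos_left _ hκ
        nlinarith
      nlinarith
  calc A2 = (√A2) ^ 2 := (Real.sq_sqrt hA2n).symm
    _ ≤ _ := pow_le_pow_left₀ (Real.sqrt_nonneg _) hA 2

theorem LPot.cramer_rao (h : LPot κ Φ) (hκ : 0 < κ) {κ' : ℝ}
    (hu : ∀ x w : E d, fderiv ℝ (fderiv ℝ Φ) x w w ≤ κ' * ‖w‖ ^ 2) (v : E d) :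
    ‖v‖ ^ 2 ≤ κ' * ∫ w, (inner ℝ w v - ∫ w', inner ℝ w' v ∂(gibbs Φ)) ^ 2 ∂(gibbs Φ) := by
  have hp := h.prob hκ
  by_cases hv : v = 0
  · subst hv
    simp
  have hv0 : 0 < ‖v‖ := norm_pos_iff.2 hv
  have hκ' : 0 < κ' := by
    have h1 := h.lower 0 v
    have h2 := hu 0 v
    have h3 : κ * ‖v‖ ^ 2 ≤ κ' * ‖v‖ ^ 2 := h1.trans h2
    have h4 : κ ≤ κ' := le_of_mul_le_mul_right h3 (by positivity)
    linarith
  have hc1 : ContDiff ℝ 1 (fderiv ℝ Φ) := h.smooth.fderiv_right (by norm_num)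
  have hd1 : Differentiable ℝ (fderiv ℝ Φ) := hc1.differentiable (by norm_num)
  -- norm of the Hessian
  have hbil : ∀ x u w : E d, |fderiv ℝ (fderiv ℝ Φ) x u w| ≤ κ' * ‖u‖ * ‖w‖ := by
    intro x u w
    set A := fderiv ℝ (fderiv ℝ Φ) x with hA
    have hs : A w u = A u w := hess_symm h.smooth x w u
    have hl : ∀ w, 0 ≤ A w w := fun w => (by positivity : 0 ≤ κ * ‖w‖ ^ 2).trans (h.lower x w)
    have h1 : ∀ t : ℝ, 0 ≤ A w w * (t * t) + (2 * A u w) * t + A u u := by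
      intro t
      have h2 := hl (u + t • w)
      have h3 : A (u + t • w) (u + t • w) = A w w * (t * t) + (2 * A u w) * t + A u u := by
        simp only [map_add, map_smul, add_apply, smul_apply, smul_eq_mul]
        rw [hs]
        ring
      linarith
    have h4 := discrim_le_zero h1
    unfold discrim at h4
    have h5 : (A u w) ^ 2 ≤ (κ' * ‖u‖ * ‖w‖) ^ 2 := by
      have h6 : A w w * A u u ≤ (κ' * ‖w‖ ^ 2) * (κ' * ‖u‖ ^ 2) :=
        mul_le_mul (hu x w) (hu x u) (hl u) (by positivity)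
      nlinarith
    exact abs_le_of_sq_le_sq h5 (by positivity)
  have hnorm : ∀ x : E d, ‖fderiv ℝ (fderiv ℝ Φ) x‖ ≤ κ' := by
    intro x
    refine ContinuousLinearMap.opNorm_le_bound _ hκ'.le fun u => ?_
    refine ContinuousLinearMap.opNorm_le_bound _ (by positivity) fun w => ?_
    rw [Real.norm_eq_abs]
    exact hbil x u w
  have hlip : ∀ x : E d, ‖fderiv ℝ Φ x‖ ≤ ‖fderiv ℝ Φ 0‖ + κ' * ‖x‖ := by
    intro x
    have h1 : ‖fderiv ℝ Φ x - fderiv ℝ Φ 0‖ ≤ κ' * ‖x - 0‖ :=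
      Convex.norm_image_sub_le_of_norm_fderiv_le (𝕜 := ℝ) (fun z _ => hd1 z)
        (fun z _ => hnorm z) convex_univ (Set.mem_univ _) (Set.mem_univ _)
    rw [sub_zero] at h1
    have h2 := norm_sub_norm_le (fderiv ℝ Φ x) (fderiv ℝ Φ 0)
    linarith
  have hΦ : Pgr (fderiv ℝ Φ) := by
    refine ⟨1, ‖fderiv ℝ Φ 0‖ + κ', fun x => ?_⟩
    rw [pow_one]
    have := hlip x
    nlinarith [norm_nonneg x, norm_nonneg (fderiv ℝ Φ 0)]
  -- the directional derivative
  have hgc : ContDiff ℝ 1 (fun x => fderiv ℝ Φ x v) := hc1.clm_apply contDiff_const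
  have hgd : ∀ x, fderiv ℝ (fun x => fderiv ℝ Φ x v) x =
      (fderiv ℝ (fderiv ℝ Φ) x).flip v := by
    intro x
    have h1 := (hd1 x).hasFDerivAt.clm_apply (hasFDerivAt_const v x)
    rw [h1.fderiv]
    ext w
    simp
  have hgp : Pgr (fun x => fderiv ℝ Φ x v) := by
    obtain ⟨k, C, hC⟩ := hΦ
    refine ⟨k, C * ‖v‖, fun x => ?_⟩
    refine ((fderiv ℝ Φ x).le_opNorm v).trans ?_
    have := mul_le_mul_of_nonneg_right (hC x) (norm_nonneg v)
    linarith [this, mul_right_comm C ((1 + ‖x‖) ^ k) ‖v‖]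
  have hgp1 : Pgr (fderiv ℝ (fun x => fderiv ℝ Φ x v)) := by
    refine ⟨0, κ' * ‖v‖, fun x => ?_⟩
    rw [hgd, pow_zero, mul_one]
    refine ContinuousLinearMap.opNorm_le_bound _ (by positivity) fun w => ?_
    rw [ContinuousLinearMap.flip_apply, Real.norm_eq_abs]
    have := hbil x w v
    linarith [this, mul_right_comm κ' ‖w‖ ‖v‖]
  -- second moment of the directional derivative
  have hfish : ∫ x, fderiv ℝ Φ x v * fderiv ℝ Φ x v ∂(gibbs Φ) ≤ κ' * ‖v‖ ^ 2 := by
    rw [← h.ibp hκ hΦ hgc hgp hgp1 v]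
    have h1 : ∀ x, fderiv ℝ (fun x => fderiv ℝ Φ x v) x v ≤ κ' * ‖v‖ ^ 2 := by
      intro x
      rw [hgd, ContinuousLinearMap.flip_apply]
      exact hu x v
    have h2 : Integrable (fun x => fderiv ℝ (fun x => fderiv ℝ Φ x v) x v) (gibbs Φ) := by
      refine h.integrable hκ ((hgc.continuous_fderiv (by norm_num)).clm_apply continuous_const) ?_
      obtain ⟨k, C, hC⟩ := hgp1
      refine ⟨k, C * ‖v‖, fun x => ?_⟩
      refine ((fderiv ℝ (fun x => fderiv ℝ Φ x v) x).le_opNorm v).trans ?_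
      have := mul_le_mul_of_nonneg_right (hC x) (norm_nonneg v)
      linarith [this, mul_right_comm C ((1 + ‖x‖) ^ k) ‖v‖]
    calc _ ≤ ∫ _, κ' * ‖v‖ ^ 2 ∂(gibbs Φ) := integral_mono h2 (integrable_const _) h1
      _ = κ' * ‖v‖ ^ 2 := by simp
  -- the linear functional
  set mu := ∫ w', inner ℝ w' v ∂(gibbs Φ) with hmu
  have hlc : ContDiff ℝ 1 (fun x : E d => inner ℝ x v - mu) :=
    (contDiff_id.inner ℝ contDiff_const).sub contDiff_const
  have hlp : Pgr (fun x : E d => inner ℝ x v - mu) := by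
    refine ⟨1, ‖v‖ + |mu|, fun x => ?_⟩
    rw [pow_one]
    have h1 := norm_sub_le (inner ℝ x v : ℝ) mu
    have h2 : ‖(inner ℝ x v : ℝ)‖ ≤ ‖x‖ * ‖v‖ := norm_inner_le_norm x v
    rw [Real.norm_eq_abs mu] at h1
    nlinarith [norm_nonneg x, norm_nonneg v, abs_nonneg mu]
  have hld : ∀ x : E d, fderiv ℝ (fun x : E d => inner ℝ x v - mu) x = innerSL ℝ v := by
    intro x
    have e : (fun x : E d => inner ℝ x v - mu) = fun x => (innerSL ℝ v) x - mu := by
      funext x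
      rw [innerSL_apply_apply, real_inner_comm]
    rw [e, fderiv_sub_const, ContinuousLinearMap.fderiv]
  have hlp1 : Pgr (fderiv ℝ (fun x : E d => inner ℝ x v - mu)) := by
    refine ⟨0, ‖innerSL ℝ v‖, fun x => ?_⟩
    rw [hld, pow_zero, mul_one]
  have hcr : ‖v‖ ^ 2 = ∫ x, (inner ℝ x v - mu) * fderiv ℝ Φ x v ∂(gibbs Φ) := by
    rw [← h.ibp hκ hΦ hlc hlp hlp1 v]
    simp only [hld]
    rw [innerSL_apply_apply, real_inner_self_eq_norm_sq]
    simp
  -- Cauchy-Schwarz through a square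
  have hintS : Integrable (fun x : E d => (inner ℝ x v - mu) ^ 2) (gibbs Φ) := by
    obtain ⟨k, C, hC⟩ := hlp
    refine h.integrable hκ (hlc.continuous.pow 2) ⟨k * 2, C ^ 2, fun x => ?_⟩
    rw [norm_pow, pow_mul, ← mul_pow]
    exact pow_le_pow_left₀ (norm_nonneg _) (hC x) 2
  have hintG : Integrable (fun x : E d => fderiv ℝ Φ x v * fderiv ℝ Φ x v) (gibbs Φ) := by
    obtain ⟨k, C, hC⟩ := hgp
    refine h.integrable hκ (hgc.continuous.mul hgc.continuous) ⟨k + k, C * C, fun x => ?_⟩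
    rw [norm_mul, pow_add]
    have := mul_le_mul (hC x) (hC x) (norm_nonneg _) ((norm_nonneg _).trans (hC x))
    refine this.trans (le_of_eq ?_)
    ring
  have hintM : Integrable (fun x : E d => (inner ℝ x v - mu) * fderiv ℝ Φ x v) (gibbs Φ) := by
    obtain ⟨k, C, hC⟩ := hlp
    obtain ⟨k', C', hC'⟩ := hgp
    refine h.integrable hκ (hlc.continuous.mul hgc.continuous) ⟨k + k', C * C', fun x => ?_⟩
    rw [norm_mul, pow_add]
    have := mul_le_mul (hC x) (hC' x) (norm_nonneg _) ((norm_nonneg _).trans (hC x))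
    refine this.trans (le_of_eq ?_)
    ring
  set Vr := ∫ w, (inner ℝ w v - mu) ^ 2 ∂(gibbs Φ) with hVr
  -- 0 ≤ E (κ' (⟨x,v⟩ - mu) - ∂_v Φ)²
  have hsq : 0 ≤ ∫ x, (κ' * (inner ℝ x v - mu) - fderiv ℝ Φ x v) ^ 2 ∂(gibbs Φ) :=
    integral_nonneg fun _ => sq_nonneg _
  have hex : ∫ x, (κ' * (inner ℝ x v - mu) - fderiv ℝ Φ x v) ^ 2 ∂(gibbs Φ) =
      κ' ^ 2 * Vr - 2 * κ' * ‖v‖ ^ 2 + ∫ x, fderiv ℝ Φ x v * fderiv ℝ Φ x v ∂(gibbs Φ) := by
    have e : ∀ x : E d, (κ' * (inner ℝ x v - mu) - fderiv ℝ Φ x v) ^ 2 =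
        κ' ^ 2 * (inner ℝ x v - mu) ^ 2 - 2 * κ' * ((inner ℝ x v - mu) * fderiv ℝ Φ x v) +
          fderiv ℝ Φ x v * fderiv ℝ Φ x v := fun x => by ring
    simp only [e]
    have i3 : Integrable (fun x : E d => κ' ^ 2 * (inner ℝ x v - mu) ^ 2 -
        2 * κ' * ((inner ℝ x v - mu) * fderiv ℝ Φ x v)) (gibbs Φ) :=
      (hintS.const_mul _).sub (hintM.const_mul _)
    rw [integral_add i3 hintG,
      integral_sub (hintS.const_mul _) (hintM.const_mul _), integral_const_mul,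
      integral_const_mul, ← hcr]
  rw [hex] at hsq
  have hfin : κ' * ‖v‖ ^ 2 ≤ κ' * (κ' * Vr) := by
    have : κ' * (κ' * Vr) = κ' ^ 2 * Vr := by ring
    linarith
  exact le_of_mul_le_mul_left hfin hκ'

end P347S
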