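import Vale.Agent.P347S.Poinc

/-!
Module Post: elementary facts on the posterior laws `q_y ∝ exp (-W(w) - |w-y|²/(2ε²))`:
curvature of `pot ε W y` is at least `1/(1-s) + 1/s = 1/(s(1-s))`, `∇W` is `3`-Lipschitz
(curvature at most `2/(1-s) ≤ 8/3`), `post_moment` from `LPot.moment` (gradient of `pot` at `y` is
`∇W(y)`).
-/

open MeasureTheory ProbabilityTheory Function
open scoped ENNReal BigOperators

namespace P347S

open P347Q

variable {d : ℕ} {ε : ℝ} {W : E d → ℝ}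

namespace PostAux

/-- Cauchy-Schwarz for symmetric bilinear forms between `0` and `M` -/
theorem bil_le {X : Type*} [NormedAddCommGroup X] [NormedSpace ℝ X] (A : X →L[ℝ] X →L[ℝ] ℝ)
    {M : ℝ} (hM : 0 ≤ M)
    (hs : ∀ u w, A u w = A w u) (hl : ∀ w, 0 ≤ A w w) (hu : ∀ w, A w w ≤ M * ‖w‖ ^ 2) (u w : X) :
    |A u w| ≤ M * ‖u‖ * ‖w‖ := by
  have h1 : ∀ t : ℝ, 0 ≤ A w w * (t * t) + (2 * A u w) * t + A u u := by
    intro t
    have h2 := hl (u + t • w)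
    have h3 : A (u + t • w) (u + t • w) = A w w * (t * t) + (2 * A u w) * t + A u u := by
      simp only [map_add, map_smul, add_apply, smul_apply, smul_eq_mul]
      rw [hs w u]
      ring
    linarith
  have h4 := discrim_le_zero h1
  unfold discrim at h4
  have h5 : (A u w) ^ 2 ≤ (M * ‖u‖ * ‖w‖) ^ 2 := by
    have h6 : A w w * A u u ≤ (M * ‖w‖ ^ 2) * (M * ‖u‖ ^ 2) :=
      mul_le_mul (hu w) (hu u) (hl u) (by positivity)
    nlinarith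
  exact abs_le_of_sq_le_sq h5 (by positivity)

theorem fderiv_lip {V : E d → ℝ} (hV : ContDiff ℝ 2 V) {M : ℝ} (hM : 0 ≤ M)
    (hl : ∀ x w : E d, 0 ≤ fderiv ℝ (fderiv ℝ V) x w w)
    (hu : ∀ x w : E d, fderiv ℝ (fderiv ℝ V) x w w ≤ M * ‖w‖ ^ 2) (x y : E d) :
    ‖fderiv ℝ V x - fderiv ℝ V y‖ ≤ M * ‖x - y‖ := by
  have hn : ∀ x, ‖fderiv ℝ (fderiv ℝ V) x‖ ≤ M := by
    intro x
    have hs : ∀ u w : E d, fderiv ℝ (fderiv ℝ V) x u w = fderiv ℝ (fderiv ℝ V) x w u := by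
      intro u w
      have := (hV.contDiffAt (x := x)).isSymmSndFDerivAt
        (by rw [minSmoothness_of_isRCLikeNormedField])
      exact this u w
    refine ContinuousLinearMap.opNorm_le_bound _ hM fun u => ?_
    refine ContinuousLinearMap.opNorm_le_bound _ (by positivity) fun w => ?_
    rw [Real.norm_eq_abs]
    exact bil_le _ hM hs (fun w => hl x w) (hu x) u w
  exact convex_univ.norm_image_sub_le_of_norm_fderiv_le
    (fun z _ => PotAux.fderiv_diff hV z)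
    (fun z _ => hn z) (Set.mem_univ y) (Set.mem_univ x)

/-- derivative of the quadratic term -/
theorem quad_hasFDerivAt (y : E d) (s : ℝ) (hs : s ≠ 0) (w : E d) :
    HasFDerivAt (fun w : E d => ‖w - y‖ ^ 2 / (2 * s)) (s⁻¹ • innerSL ℝ (w - y)) w := by
  have h1 : HasFDerivAt (fun w : E d => w - y) (ContinuousLinearMap.id ℝ (E d)) w :=
    (hasFDerivAt_id w).sub_const y
  have h2 := h1.norm_sq
  have h3 := h2.mul_const (2 * s)⁻¹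
  have h4 : (fun w : E d => ‖w - y‖ ^ 2 / (2 * s)) = fun w => ‖w - y‖ ^ 2 * (2 * s)⁻¹ := by
    funext w; rw [div_eq_mul_inv]
  rw [h4]
  refine h3.congr_fderiv ?_
  ext v
  simp
  field_simp

theorem pot_contDiff (hW : ContDiff ℝ 2 W) (y : E d) : ContDiff ℝ 2 (pot ε W y) := by
  unfold pot
  exact hW.add (((contDiff_id.sub contDiff_const).norm_sq ℝ).div_const _)

theorem pot_fderiv (hW : ContDiff ℝ 2 W) (h0 : 0 < ε) (y : E d) :
    fderiv ℝ (pot ε W y) = fun w => fderiv ℝ W w + (ε ^ 2)⁻¹ • innerSL ℝ (w - y) := by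
  funext w
  have h1 : HasFDerivAt W (fderiv ℝ W w) w := (hW.differentiable (by norm_num) w).hasFDerivAt
  exact (h1.add (quad_hasFDerivAt y (ε ^ 2) (by positivity) w)).fderiv

theorem pot_fderiv2 (hW : ContDiff ℝ 2 W) (h0 : 0 < ε) (y w v : E d) :
    fderiv ℝ (fderiv ℝ (pot ε W y)) w v v =
      fderiv ℝ (fderiv ℝ W) w v v + (ε ^ 2)⁻¹ * ‖v‖ ^ 2 := by
  rw [pot_fderiv hW h0]
  have h1 : HasFDerivAt (fderiv ℝ W) (fderiv ℝ (fderiv ℝ W) w) w :=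
    (PotAux.fderiv_diff hW w).hasFDerivAt
  have h2 : HasFDerivAt (fun w : E d => w - y) (ContinuousLinearMap.id ℝ (E d)) w :=
    (hasFDerivAt_id w).sub_const y
  have h3 : HasFDerivAt (fun w : E d => innerSL ℝ (w - y))
      ((innerSL ℝ : E d →L[ℝ] E d →L[ℝ] ℝ).comp (ContinuousLinearMap.id ℝ (E d))) w :=
    (innerSL ℝ : E d →L[ℝ] E d →L[ℝ] ℝ).hasFDerivAt.comp w h2
  have h4 := h1.add (h3.const_smul (ε ^ 2)⁻¹)
  have h5 : fderiv ℝ (fun w => fderiv ℝ W w + (ε ^ 2)⁻¹ • innerSL ℝ (w - y)) w = _ := h4.fderiv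
  rw [h5]
  simp only [add_apply, smul_apply, ContinuousLinearMap.comp_id, smul_eq_mul]
  have h6 : (innerSL ℝ : E d →L[ℝ] E d →L[ℝ] ℝ) v v = ‖v‖ ^ 2 := real_inner_self_eq_norm_sq v
  exact congrArg (fun t => fderiv ℝ (fderiv ℝ W) w v v + (ε ^ 2)⁻¹ * t) h6

theorem one_sub_pos (h0 : 0 < ε) (h1 : ε ≤ 1 / 2) : 0 < 1 - ε ^ 2 := by nlinarith

theorem kappa_pos (h0 : 0 < ε) (h1 : ε ≤ 1 / 2) : 0 < (ε ^ 2 * (1 - ε ^ 2))⁻¹ := by
  have := one_sub_pos h0 h1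
  positivity

theorem upper3 (hW : KPot ε W) (h0 : 0 < ε) (h1 : ε ≤ 1 / 2) (x w : E d) :
    fderiv ℝ (fderiv ℝ W) x w w ≤ 3 * ‖w‖ ^ 2 := by
  have h2 := one_sub_pos h0 h1
  have h3 := hW.upper x w
  have h4 : 3 / 4 ≤ 1 - ε ^ 2 := by nlinarith
  have h5 : 0 ≤ fderiv ℝ (fderiv ℝ W) x w w := by
    by_contra hn
    have h6 := hW.lower x w
    have : (1 - ε ^ 2) * fderiv ℝ (fderiv ℝ W) x w w < 0 :=
      mul_neg_of_pos_of_neg h2 (not_le.1 hn)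
    nlinarith [sq_nonneg ‖w‖]
  nlinarith [sq_nonneg ‖w‖]

theorem lower0 (hW : KPot ε W) (h0 : 0 < ε) (h1 : ε ≤ 1 / 2) (x w : E d) :
    0 ≤ fderiv ℝ (fderiv ℝ W) x w w := by
  have h2 := one_sub_pos h0 h1
  by_contra hn
  have h6 := hW.lower x w
  have : (1 - ε ^ 2) * fderiv ℝ (fderiv ℝ W) x w w < 0 :=
    mul_neg_of_pos_of_neg h2 (not_le.1 hn)
  nlinarith [sq_nonneg ‖w‖]

end PostAux

theorem KPot.lpot_pot (hW : KPot ε W) (h0 : 0 < ε) (h1 : ε ≤ 1 / 2) (y : E d) :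
    LPot (ε ^ 2 * (1 - ε ^ 2))⁻¹ (pot ε W y) := by
  refine ⟨PostAux.pot_contDiff hW.smooth y, fun x w => ?_⟩
  rw [PostAux.pot_fderiv2 hW.smooth h0]
  have h2 := PostAux.one_sub_pos h0 h1
  have h3 : (ε ^ 2 * (1 - ε ^ 2))⁻¹ = (1 - ε ^ 2)⁻¹ + (ε ^ 2)⁻¹ := by
    field_simp
    ring
  have h4 : (1 - ε ^ 2)⁻¹ * ‖w‖ ^ 2 ≤ fderiv ℝ (fderiv ℝ W) x w w := by
    rw [inv_mul_le_iff₀ h2]
    exact hW.lower x w
  rw [h3, add_mul]
  linarith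

/-- `∇W` is `3`-Lipschitz -/
theorem KPot.fderiv_lip (hW : KPot ε W) (h0 : 0 < ε) (h1 : ε ≤ 1 / 2) (x y : E d) :
    ‖fderiv ℝ W x - fderiv ℝ W y‖ ≤ 3 * ‖x - y‖ :=
  PostAux.fderiv_lip hW.smooth (by norm_num) (PostAux.lower0 hW h0 h1) (PostAux.upper3 hW h0 h1)
    x y

theorem KPot.pgr_pot (hW : KPot ε W) (h0 : 0 < ε) (h1 : ε ≤ 1 / 2) (y : E d) :
    Pgr (fderiv ℝ (pot ε W y)) := by
  refine ⟨1, ‖fderiv ℝ W 0‖ + 3 + (ε ^ 2)⁻¹ * (1 + ‖y‖), fun x => ?_⟩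
  rw [PostAux.pot_fderiv hW.smooth h0]
  have h2 : ‖fderiv ℝ W x‖ ≤ ‖fderiv ℝ W 0‖ + 3 * ‖x‖ := by
    have h3 := hW.fderiv_lip h0 h1 x 0
    rw [sub_zero] at h3
    have h4 := norm_sub_norm_le (fderiv ℝ W x) (fderiv ℝ W 0)
    linarith
  have h3 : ‖(ε ^ 2)⁻¹ • innerSL ℝ (x - y)‖ ≤ (ε ^ 2)⁻¹ * (‖x‖ + ‖y‖) := by
    rw [norm_smul, innerSL_apply_norm, Real.norm_of_nonneg (by positivity)]
    exact mul_le_mul_of_nonneg_left (norm_sub_le _ _) (by positivity)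
  refine (norm_add_le _ _).trans ?_
  have h5 : 0 ≤ ‖fderiv ℝ W 0‖ := norm_nonneg _
  have h6 : 0 ≤ ‖x‖ := norm_nonneg _
  have h7 : 0 ≤ ‖y‖ := norm_nonneg _
  have h8 : 0 < (ε ^ 2)⁻¹ := by positivity
  have h9 : (ε ^ 2)⁻¹ * (‖x‖ + ‖y‖) ≤ (ε ^ 2)⁻¹ * (1 + ‖y‖) * (1 + ‖x‖) := by
    rw [mul_assoc]
    refine mul_le_mul_of_nonneg_left ?_ h8.le
    nlinarith
  rw [pow_one]
  nlinarith

/-- `∇W` is `3`-Lipschitz -/
theorem KPot.grad_lip (hW : KPot ε W) (h0 : 0 < ε) (h1 : ε ≤ 1 / 2) (x y : E d) :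
    ‖gradient W x - gradient W y‖ ≤ 3 * ‖x - y‖ := by
  rw [PotAux.grad_sub]
  exact hW.fderiv_lip h0 h1 x y

theorem post_prob (hW : KPot ε W) (h0 : 0 < ε) (h1 : ε ≤ 1 / 2) (y : E d) :
    IsProbabilityMeasure (post ε W y) :=
  (hW.lpot_pot h0 h1 y).prob (PostAux.kappa_pos h0 h1)

/-- the second moment of `w - y` under the posterior -/
theorem post_moment (hW : KPot ε W) (h0 : 0 < ε) (h1 : ε ≤ 1 / 2) (y : E d) :
    ∫ w, ‖w - y‖ ^ 2 ∂(post ε W y) ≤ (ε * √d + ε ^ 2 * ‖gradient W y‖) ^ 2 := by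
  have h2 := PostAux.one_sub_pos h0 h1
  have h3 := (hW.lpot_pot h0 h1 y).moment (PostAux.kappa_pos h0 h1) (hW.pgr_pot h0 h1 y) y
  refine h3.trans ?_
  have hg : ‖gradient (pot ε W y) y‖ = ‖gradient W y‖ := by
    rw [PotAux.norm_grad, PotAux.norm_grad, PostAux.pot_fderiv hW.smooth h0]
    simp
  rw [hg, div_inv_eq_mul, div_inv_eq_mul]
  have h4 : √((d : ℝ) * (ε ^ 2 * (1 - ε ^ 2))) ≤ ε * √d := by
    rw [show ε * √(d : ℝ) = √((d : ℝ) * ε ^ 2) by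
      rw [Real.sqrt_mul (by positivity), Real.sqrt_sq h0.le, mul_comm]]
    refine Real.sqrt_le_sqrt ?_
    refine mul_le_mul_of_nonneg_left ?_ (by positivity)
    nlinarith [sq_nonneg ε]
  have h5 : ‖gradient W y‖ * (ε ^ 2 * (1 - ε ^ 2)) ≤ ε ^ 2 * ‖gradient W y‖ := by
    rw [mul_comm]
    refine mul_le_mul_of_nonneg_right ?_ (norm_nonneg _)
    nlinarith [sq_nonneg ε]
  have h6 : 0 ≤ √((d : ℝ) * (ε ^ 2 * (1 - ε ^ 2))) + ‖gradient W y‖ * (ε ^ 2 * (1 - ε ^ 2)) := by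
    positivity
  exact pow_le_pow_left₀ h6 (add_le_add h4 h5) 2

end P347S
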