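import Vale.Agent.P347S.Post
import Vale.Agent.P347S.Poinc2
import Vale.Agent.P347Q.SmoothReg

/-!
Module Post2: smoothness in `y` of posterior expectations `pe ε W F y = E_{q_y} F`,
`q_y ∝ exp (-W(w) - |w-y|²/(2ε²))`.

Proofs: `pe ε W F y = N_F(y) / N_1(y)`, `N_F(y) = ∫ F(y+εz) e^{-W(y+εz)} γ(dz)`; `e^{-W} F` is
`PolyB`, so `N_F` is `C^∞` (`P347Q.sr_Tq_temp_aux`, `smooth_temp`, `smooth_fderiv_gauss`).
Temperate growth of the quotient: `|pe ε W F| ≤ C (1+|y|)^k` (moments of `q_y`, via the Poincare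
inequality for `|w-y|^{2p}`), and by `pe_fderiv` every
derivative of `pe F` is a polynomial in functions of the same kind (induction over the order, for
all `F` simultaneously).
-/

open MeasureTheory ProbabilityTheory Function
open scoped ENNReal BigOperators ContDiff

namespace P347S

open P347Q

variable {d : ℕ} {ε : ℝ} {W : E d → ℝ}

/-! ### The quotient formula -/

theorem p2_D2_lower (hW : KPot ε W) (h1 : ε ≤ 1 / 2) (h0 : 0 < ε) (x w : E d) :
    ‖w‖ ^ 2 ≤ fderiv ℝ (fderiv ℝ W) x w w := by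
  have h := hW.lower x w
  have h2 : 0 < 1 - ε ^ 2 := by nlinarith
  have h3 : 1 - ε ^ 2 ≤ 1 := by nlinarith
  have h4 : 0 ≤ ‖w‖ ^ 2 := by positivity
  have h5 : 0 ≤ fderiv ℝ (fderiv ℝ W) x w w := by
    by_contra hc
    push Not at hc
    nlinarith
  nlinarith

theorem p2_W_lower (hW : KPot ε W) (h0 : 0 < ε) (h1 : ε ≤ 1 / 2) :
    ∃ c : ℝ, ∀ x, c + ‖x‖ ^ 2 / 4 ≤ W x := by
  refine ⟨W 0 - ‖fderiv ℝ W 0‖ ^ 2, fun x => ?_⟩
  have h := second_order_lower hW.smooth 0 x (‖x‖ ^ 2) (fun t _ => p2_D2_lower hW h1 h0 _ _)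
  rw [zero_add] at h
  have h2 : |fderiv ℝ W 0 x| ≤ ‖fderiv ℝ W 0‖ * ‖x‖ := (fderiv ℝ W 0).le_opNorm x
  have h3 := neg_le_of_abs_le h2
  nlinarith [sq_nonneg (‖fderiv ℝ W 0‖ - ‖x‖ / 2)]

theorem p2_pot_lower (hW : KPot ε W) (h0 : 0 < ε) (h1 : ε ≤ 1 / 2) :
    ∃ c : ℝ, ∀ y x, c + ‖x‖ ^ 2 / 4 ≤ pot ε W y x := by
  obtain ⟨c, h⟩ := p2_W_lower hW h0 h1
  refine ⟨c, fun y x => (h x).trans ?_⟩
  unfold pot
  have : 0 ≤ ‖x - y‖ ^ 2 / (2 * ε ^ 2) := by positivity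
  linarith

theorem p2_pot_cont (hW : KPot ε W) (y : E d) : Continuous (pot ε W y) := by
  unfold pot
  have := hW.smooth.continuous
  fun_prop

theorem p2_polyB (hW : KPot ε W) (h0 : 0 < ε) (h1 : ε ≤ 1 / 2) {F : E d → ℝ}
    (hF : Continuous F) (hp : Pgr F) : PolyB (fun w => Real.exp (-W w) * F w) := by
  obtain ⟨c, h⟩ := p2_W_lower hW h0 h1
  obtain ⟨k, C, hC⟩ := hp
  have hc := hW.smooth.continuous
  refine ⟨by fun_prop, k, Real.exp (-c) * |C|, fun x => ?_⟩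
  rw [abs_mul, abs_of_nonneg (Real.exp_nonneg _), mul_assoc]
  refine mul_le_mul ?_ ?_ (abs_nonneg _) (Real.exp_nonneg _)
  · apply Real.exp_le_exp.2
    have := h x
    have : 0 ≤ ‖x‖ ^ 2 := by positivity
    linarith
  · exact (hC x).trans (mul_le_mul_of_nonneg_right (le_abs_self C) (by positivity))

theorem p2_one_polyB (hW : KPot ε W) (h0 : 0 < ε) (h1 : ε ≤ 1 / 2) :
    PolyB (fun w => Real.exp (-W w)) := by
  have := p2_polyB hW h0 h1 (F := fun _ => (1 : ℝ)) continuous_const ⟨0, 1, fun x => by simp⟩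
  simpa using this

theorem p2_N_pos (hW : KPot ε W) (h0 : 0 < ε) (h1 : ε ≤ 1 / 2) (y : E d) :
    0 < smooth ε (fun w => Real.exp (-W w)) y := by
  unfold smooth
  exact integral_exp_pos ((p2_one_polyB hW h0 h1).integrable ε y)

/-- `smooth` as an integral with respect to the Lebesgue measure -/
theorem p2_smooth_eq (h0 : 0 < ε) (F : E d → ℝ) (y : E d) :
    smooth ε (fun w => Real.exp (-W w) * F w) y =
      (sr_gz d * |ε ^ d|⁻¹) * ∫ w, Real.exp (-pot ε W y w) * F w := by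
  rw [sr_smooth_eq_Tq, sr_Tq_eq h0, smul_eq_mul]
  congr 1
  refine integral_congr_ae (Filter.Eventually.of_forall fun w => ?_)
  simp only [sr_Kq, smul_eq_mul, mul_one]
  have e : -pot ε W y w = -W w + -(‖ε⁻¹ • (w - y)‖ ^ 2 / 2) := by
    unfold pot
    rw [norm_smul, norm_inv, Real.norm_eq_abs, abs_of_pos h0]
    field_simp
    ring
  rw [e, Real.exp_add]
  ring

/-- the quotient formula -/
theorem p2_pe_eq (hW : KPot ε W) (h0 : 0 < ε) (h1 : ε ≤ 1 / 2) (F : E d → ℝ) (y : E d) :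
    pe ε W F y = smooth ε (fun w => Real.exp (-W w) * F w) y /
      smooth ε (fun w => Real.exp (-W w)) y := by
  obtain ⟨c, hc⟩ := p2_pot_lower hW h0 h1
  have hN := p2_N_pos hW h0 h1 y
  have e1 := p2_smooth_eq (W := W) h0 F y
  have e2 := p2_smooth_eq (W := W) h0 (fun _ => (1 : ℝ)) y
  simp only [mul_one] at e2
  rw [pe, post, integral_gibbs (p2_pot_cont hW y) (hc y), e1, e2]
  rw [e2] at hN
  have hne : sr_gz d * |ε ^ d|⁻¹ ≠ 0 := by
    intro h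
    rw [h, zero_mul] at hN
    exact lt_irrefl _ hN
  rw [mul_div_mul_left _ _ hne, div_eq_inv_mul]

theorem p2_inner_cont (h : E d) : Continuous (fun w : E d => (inner ℝ w h : ℝ)) := by fun_prop

theorem p2_pgr_inner (h : E d) : Pgr (fun w : E d => (inner ℝ w h : ℝ)) := by
  refine ⟨1, ‖h‖, fun w => ?_⟩
  rw [Real.norm_eq_abs, pow_one]
  refine (abs_real_inner_le_norm w h).trans ?_
  nlinarith [norm_nonneg w, norm_nonneg h]

theorem p2_pgr_mul {F G : E d → ℝ} (hF : Pgr F) (hG : Pgr G) : Pgr (fun w => F w * G w) := by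
  obtain ⟨k, C, h⟩ := hF
  obtain ⟨l, D, h'⟩ := hG
  refine ⟨k + l, |C| * |D|, fun x => ?_⟩
  rw [norm_mul, pow_add]
  have a1 := (h x).trans (mul_le_mul_of_nonneg_right (le_abs_self C)
    (by positivity : (0 : ℝ) ≤ (1 + ‖x‖) ^ k))
  have a2 := (h' x).trans (mul_le_mul_of_nonneg_right (le_abs_self D)
    (by positivity : (0 : ℝ) ≤ (1 + ‖x‖) ^ l))
  calc ‖F x‖ * ‖G x‖ ≤ (|C| * (1 + ‖x‖) ^ k) * (|D| * (1 + ‖x‖) ^ l) :=
        mul_le_mul a1 a2 (norm_nonneg _) (by positivity)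
    _ = _ := by ring

/-- derivative of the numerators -/
theorem p2_N_fderiv (hW : KPot ε W) (h0 : 0 < ε) (h1 : ε ≤ 1 / 2) {F : E d → ℝ}
    (hF : Continuous F) (hp : Pgr F) (y h : E d) :
    fderiv ℝ (smooth ε (fun w => Real.exp (-W w) * F w)) y h = (ε ^ 2)⁻¹ *
      (smooth ε (fun w => Real.exp (-W w) * (F w * inner ℝ w h)) y -
        inner ℝ y h * smooth ε (fun w => Real.exp (-W w) * F w) y) := by
  have hB := p2_polyB hW h0 h1 hF hp
  have hB2 := p2_polyB hW h0 h1 (F := fun w => F w * inner ℝ w h) (by fun_prop)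
    (p2_pgr_mul hp (p2_pgr_inner h))
  rw [smooth_fderiv_gauss hB h0]
  have e : ∀ z : E d, inner ℝ z h * (Real.exp (-W (y + ε • z)) * F (y + ε • z)) =
      ε⁻¹ * (Real.exp (-W (y + ε • z)) * (F (y + ε • z) * inner ℝ (y + ε • z) h)) -
      ε⁻¹ * (inner ℝ y h * (Real.exp (-W (y + ε • z)) * F (y + ε • z))) := by
    intro z
    rw [inner_add_left, inner_smul_left]
    simp only [conj_trivial]
    field_simp
    ring
  simp only [e]
  rw [integral_sub ((hB2.integrable ε y).const_mul _) (((hB.integrable ε y).const_mul _).const_mul _),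
    integral_const_mul, integral_const_mul, integral_const_mul]
  unfold smooth
  field_simp

theorem p2_pe_contDiff (hW : KPot ε W) (h0 : 0 < ε) (h1 : ε ≤ 1 / 2) {F : E d → ℝ}
    (hF : Continuous F) (hp : Pgr F) : ContDiff ℝ ∞ (pe ε W F) := by
  have e : pe ε W F = fun y => smooth ε (fun w => Real.exp (-W w) * F w) y /
      smooth ε (fun w => Real.exp (-W w)) y := by
    funext y
    exact p2_pe_eq hW h0 h1 F y
  rw [e]
  exact (smooth_temp (p2_polyB hW h0 h1 hF hp) h0).1.div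
    (smooth_temp (p2_one_polyB hW h0 h1) h0).1 (fun y => (p2_N_pos hW h0 h1 y).ne')

theorem pe_fderiv (hW : KPot ε W) (h0 : 0 < ε) (h1 : ε ≤ 1 / 2) {F : E d → ℝ}
    (hF : Continuous F) (hp : Pgr F) (y h : E d) :
    fderiv ℝ (pe ε W F) y h = (ε ^ 2)⁻¹ *
      (pe ε W (fun w => F w * inner ℝ w h) y - pe ε W F y * pe ε W (fun w => inner ℝ w h) y) := by
  have hN := p2_N_pos hW h0 h1 y
  have e : smooth ε (fun w => Real.exp (-W w) * F w) = fun y => pe ε W F y *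
      (smooth ε (fun w => Real.exp (-W w)) y) := by
    funext y
    have := p2_N_pos hW h0 h1 y
    rw [p2_pe_eq hW h0 h1 F y, div_mul_cancel₀ _ this.ne']
  have hd1 : DifferentiableAt ℝ (pe ε W F) y :=
    (p2_pe_contDiff hW h0 h1 hF hp).differentiable (by simp) y
  have hd2 : DifferentiableAt ℝ (smooth ε (fun w => Real.exp (-W w))) y :=
    P347Q.temp_diff (smooth_temp (p2_one_polyB hW h0 h1) h0) y
  have f1 := p2_N_fderiv hW h0 h1 hF hp y h
  have f2 := p2_N_fderiv hW h0 h1 (F := fun _ => (1 : ℝ)) continuous_const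
    ⟨0, 1, fun x => by simp⟩ y h
  simp only [mul_one, one_mul] at f2
  have g1 := p2_pe_eq hW h0 h1 F y
  have g2 := p2_pe_eq hW h0 h1 (fun w => inner ℝ w h) y
  have g3 := p2_pe_eq hW h0 h1 (fun w => F w * inner ℝ w h) y
  have hd3 : fderiv ℝ (smooth ε (fun w => Real.exp (-W w) * F w)) y h =
      pe ε W F y * fderiv ℝ (smooth ε (fun w => Real.exp (-W w))) y h +
        smooth ε (fun w => Real.exp (-W w)) y * fderiv ℝ (pe ε W F) y h := by
    rw [e, fderiv_fun_mul hd1 hd2]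
    simp
  rw [f1, f2] at hd3
  rw [g3, g2]
  rw [eq_div_iff hN.ne'] at g1
  set N1 := smooth ε (fun w => Real.exp (-W w)) y
  set NF := smooth ε (fun w => Real.exp (-W w) * F w) y
  set p := pe ε W F y
  have hs : (ε ^ 2) ≠ 0 := by positivity
  have hN' := hN.ne'
  rw [← g1] at hd3
  field_simp at hd3 ⊢
  linear_combination -hd3

/-! ### Moments -/

theorem p2_post_int (hW : KPot ε W) (h0 : 0 < ε) (h1 : ε ≤ 1 / 2) (y : E d) {f : E d → ℝ}
    (hf : Continuous f) (hp : Pgr f) : Integrable f (post ε W y) := by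
  obtain ⟨c, hc⟩ := p2_pot_lower hW h0 h1
  obtain ⟨k, C, h⟩ := hp
  exact integrable_gibbs_poly (p2_pot_cont hW y) (hc y) hf h

theorem p2_rho_le (y w : E d) : ‖w - y‖ ^ 2 ≤ ((1 + ‖y‖) * (1 + ‖w‖)) ^ 2 := by
  have h1 : ‖w - y‖ ≤ (1 + ‖y‖) * (1 + ‖w‖) := by
    refine (norm_sub_le _ _).trans ?_
    nlinarith [norm_nonneg y, norm_nonneg w, mul_nonneg (norm_nonneg y) (norm_nonneg w)]
  exact pow_le_pow_left₀ (norm_nonneg _) h1 2

theorem p2_rho_pgr (y : E d) (p : ℕ) : Pgr (fun w : E d => (‖w - y‖ ^ 2) ^ p) := by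
  refine ⟨2 * p, (1 + ‖y‖) ^ (2 * p), fun w => ?_⟩
  rw [Real.norm_eq_abs, abs_of_nonneg (by positivity), ← mul_pow, pow_mul]
  exact pow_le_pow_left₀ (by positivity) (p2_rho_le y w) p

theorem p2_rho_fderiv (y w : E d) (p : ℕ) :
    HasFDerivAt (fun w : E d => (‖w - y‖ ^ 2) ^ (p + 1))
      (((p + 1 : ℕ) * (‖w - y‖ ^ 2) ^ p) • ((2 : ℝ) • innerSL ℝ (w - y))) w := by
  have h1 : HasFDerivAt (fun w : E d => w - y) (ContinuousLinearMap.id ℝ (E d)) w :=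
    (hasFDerivAt_id w).sub_const y
  have h2 : HasFDerivAt (fun w : E d => ‖w - y‖ ^ 2) ((2 : ℝ) • innerSL ℝ (w - y)) w := by
    have := h1.norm_sq
    refine this.congr_fderiv ?_
    ext v
    simp
  have h3 := h2.pow (p + 1)
  refine h3.congr_fderiv ?_
  ext v
  simp

theorem p2_rho_fderiv_norm (y w : E d) (p : ℕ) :
    ‖fderiv ℝ (fun w : E d => (‖w - y‖ ^ 2) ^ (p + 1)) w‖ ^ 2 =
      4 * ((p : ℝ) + 1) ^ 2 * (‖w - y‖ ^ 2) ^ (2 * p + 1) := by
  rw [(p2_rho_fderiv y w p).fderiv, norm_smul, norm_smul, innerSL_apply_norm, Real.norm_eq_abs,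
    Real.norm_eq_abs, abs_of_nonneg (by positivity), abs_of_nonneg (by positivity)]
  push_cast
  ring

theorem p2_rho_cont (y : E d) (p : ℕ) : Continuous (fun w : E d => (‖w - y‖ ^ 2) ^ p) := by
  fun_prop

theorem p2_rho_contDiff (y : E d) (p : ℕ) : ContDiff ℝ 2 (fun w : E d => (‖w - y‖ ^ 2) ^ p) :=
  ((contDiff_id.sub contDiff_const).norm_sq ℝ).pow p

theorem p2_rho_fderiv_pgr (y : E d) (p : ℕ) :
    Pgr (fderiv ℝ (fun w : E d => (‖w - y‖ ^ 2) ^ (p + 1))) := by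
  refine ⟨2 * p + 1, (2 * ((p : ℝ) + 1)) * (1 + ‖y‖) ^ (2 * p + 1), fun w => ?_⟩
  apply le_of_sq_le_sq _ (by positivity)
  rw [p2_rho_fderiv_norm]
  have h1 : (‖w - y‖ ^ 2) ^ (2 * p + 1) ≤ (((1 + ‖y‖) * (1 + ‖w‖)) ^ 2) ^ (2 * p + 1) :=
    pow_le_pow_left₀ (by positivity) (p2_rho_le y w) _
  calc 4 * ((p : ℝ) + 1) ^ 2 * (‖w - y‖ ^ 2) ^ (2 * p + 1)
      ≤ 4 * ((p : ℝ) + 1) ^ 2 * (((1 + ‖y‖) * (1 + ‖w‖)) ^ 2) ^ (2 * p + 1) :=
        mul_le_mul_of_nonneg_left h1 (by positivity)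
    _ = _ := by
        rw [← pow_mul, mul_comm 2 (2 * p + 1), pow_mul, mul_pow]
        ring

/-- one step of the recursion for the moments -/
theorem p2_moment_step (hW : KPot ε W) (h0 : 0 < ε) (h1 : ε ≤ 1 / 2) (y : E d) (p : ℕ) :
    ∫ w, (‖w - y‖ ^ 2) ^ (2 * (p + 1)) ∂(post ε W y) ≤
      16 * ((p : ℝ) + 1) ^ 4 * ∫ w, (‖w - y‖ ^ 2) ^ (2 * p) ∂(post ε W y) +
        2 * (1 + ∫ w, (‖w - y‖ ^ 2) ^ (2 * p) ∂(post ε W y) +
          ∫ w, ‖w - y‖ ^ 2 ∂(post ε W y)) ^ 2 := by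
  have hpr := post_prob hW h0 h1 y
  have hs : 0 < ε ^ 2 * (1 - ε ^ 2) := by
    have : 0 < 1 - ε ^ 2 := by nlinarith
    positivity
  have hP := (hW.lpot_pot h0 h1 y).poincare (inv_pos.2 hs) (p2_rho_contDiff y (p + 1))
    (p2_rho_pgr y (p + 1)) (p2_rho_fderiv_pgr y p)
  change ∫ x, ((‖x - y‖ ^ 2) ^ (p + 1) - ∫ w, (‖w - y‖ ^ 2) ^ (p + 1) ∂(post ε W y)) ^ 2
    ∂(post ε W y) ≤ ((ε ^ 2 * (1 - ε ^ 2))⁻¹)⁻¹ *
      ∫ x, ‖fderiv ℝ (fun w : E d => (‖w - y‖ ^ 2) ^ (p + 1)) x‖ ^ 2 ∂(post ε W y) at hP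
  simp only [p2_rho_fderiv_norm] at hP
  rw [inv_inv] at hP
  have hI : ∀ k : ℕ, Integrable (fun w : E d => (‖w - y‖ ^ 2) ^ k) (post ε W y) := fun k =>
    p2_post_int hW h0 h1 y (p2_rho_cont y k) (p2_rho_pgr y k)
  set m := ∫ w, (‖w - y‖ ^ 2) ^ (p + 1) ∂(post ε W y) with hm
  set A := ∫ w, (‖w - y‖ ^ 2) ^ (2 * p) ∂(post ε W y) with hA
  set B := ∫ w, (‖w - y‖ ^ 2) ^ (2 * (p + 1)) ∂(post ε W y) with hB
  have hI1 : Integrable (fun w : E d => ‖w - y‖ ^ 2) (post ε W y) := by simpa using hI 1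
  -- the variance
  have hvar : ∫ x, ((‖x - y‖ ^ 2) ^ (p + 1) - m) ^ 2 ∂(post ε W y) = B - m ^ 2 := by
    have e : ∀ x : E d, ((‖x - y‖ ^ 2) ^ (p + 1) - m) ^ 2 =
        (‖x - y‖ ^ 2) ^ (2 * (p + 1)) - (2 * m) * (‖x - y‖ ^ 2) ^ (p + 1) + m ^ 2 := by
      intro x
      rw [mul_comm 2 (p + 1), pow_mul]
      ring
    simp only [e]
    have j1 := hI (2 * (p + 1))
    have j2 : Integrable (fun x : E d => (2 * m) * (‖x - y‖ ^ 2) ^ (p + 1)) (post ε W y) :=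
      (hI (p + 1)).const_mul _
    have j3 : Integrable (fun x : E d => (‖x - y‖ ^ 2) ^ (2 * (p + 1)) -
        (2 * m) * (‖x - y‖ ^ 2) ^ (p + 1)) (post ε W y) := j1.sub j2
    rw [integral_add j3 (integrable_const _), integral_sub j1 j2, integral_const_mul,
      integral_const]
    simp only [probReal_univ, one_smul, ← hm, ← hB]
    ring
  rw [hvar, integral_const_mul] at hP
  -- the odd moment
  have hodd : ∫ w, (‖w - y‖ ^ 2) ^ (2 * p + 1) ∂(post ε W y) ≤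
      1 / (8 * ((p : ℝ) + 1) ^ 2) * B + 2 * ((p : ℝ) + 1) ^ 2 * A := by
    rw [hA, hB, ← integral_const_mul, ← integral_const_mul,
      ← integral_add ((hI _).const_mul _) ((hI _).const_mul _)]
    refine integral_mono (hI _) (((hI _).const_mul _).add ((hI _).const_mul _)) fun w => ?_
    simp only
    have e1 : (‖w - y‖ ^ 2) ^ (2 * (p + 1)) = (‖w - y‖ ^ 2) ^ (2 * p) * (‖w - y‖ ^ 2) ^ 2 := by
      rw [← pow_add]; ring
    have e2 : (‖w - y‖ ^ 2) ^ (2 * p + 1) = (‖w - y‖ ^ 2) ^ (2 * p) * (‖w - y‖ ^ 2) := by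
      rw [pow_succ]
    rw [e1, e2]
    set r := ‖w - y‖ ^ 2
    have hr : 0 ≤ (r) ^ (2 * p) := by positivity
    set q : ℝ := (p : ℝ) + 1 with hq
    have hq0 : 0 < q := by positivity
    have h3 : r ≤ 1 / (8 * q ^ 2) * r ^ 2 + 2 * q ^ 2 := by
      have h4 : 1 / (8 * q ^ 2) * r ^ 2 + 2 * q ^ 2 - r = (r - 4 * q ^ 2) ^ 2 / (8 * q ^ 2) := by
        field_simp
        ring
      have h5 : 0 ≤ (r - 4 * q ^ 2) ^ 2 / (8 * q ^ 2) := by positivity
      linarith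
    calc r ^ (2 * p) * r ≤ r ^ (2 * p) * (1 / (8 * q ^ 2) * r ^ 2 + 2 * q ^ 2) :=
          mul_le_mul_of_nonneg_left h3 hr
      _ = _ := by ring
  have hB0 : 0 ≤ ∫ w, (‖w - y‖ ^ 2) ^ (2 * p + 1) ∂(post ε W y) :=
    integral_nonneg fun w => by positivity
  have hs1 : ε ^ 2 * (1 - ε ^ 2) ≤ 1 := by nlinarith [sq_nonneg ε]
  have hvarB : B - m ^ 2 ≤ 1 / 2 * B + 8 * ((p : ℝ) + 1) ^ 4 * A := by
    have h5 : ε ^ 2 * (1 - ε ^ 2) * (4 * ((p : ℝ) + 1) ^ 2 *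
        ∫ w, (‖w - y‖ ^ 2) ^ (2 * p + 1) ∂(post ε W y)) ≤
        1 * (4 * ((p : ℝ) + 1) ^ 2 *
          ∫ w, (‖w - y‖ ^ 2) ^ (2 * p + 1) ∂(post ε W y)) :=
      mul_le_mul_of_nonneg_right hs1 (by positivity)
    have h6 : 4 * ((p : ℝ) + 1) ^ 2 * ∫ w, (‖w - y‖ ^ 2) ^ (2 * p + 1) ∂(post ε W y) ≤
        4 * ((p : ℝ) + 1) ^ 2 * (1 / (8 * ((p : ℝ) + 1) ^ 2) * B + 2 * ((p : ℝ) + 1) ^ 2 * A) :=
      mul_le_mul_of_nonneg_left hodd (by positivity)
    have h7 : 4 * ((p : ℝ) + 1) ^ 2 * (1 / (8 * ((p : ℝ) + 1) ^ 2) * B +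
        2 * ((p : ℝ) + 1) ^ 2 * A) = 1 / 2 * B + 8 * ((p : ℝ) + 1) ^ 4 * A := by
      field_simp
      ring
    linarith
  -- the mean
  have hmean : m ≤ 1 + A + ∫ w, ‖w - y‖ ^ 2 ∂(post ε W y) := by
    have hone : (1 : ℝ) = ∫ _w : E d, (1 : ℝ) ∂(post ε W y) := by simp
    have j1 : Integrable (fun _ : E d => (1 : ℝ)) (post ε W y) := integrable_const _
    have j2 : Integrable (fun w : E d => (1 : ℝ) + (‖w - y‖ ^ 2) ^ (2 * p)) (post ε W y) :=
      j1.add (hI _)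
    have j3 : Integrable (fun w : E d => (1 : ℝ) + (‖w - y‖ ^ 2) ^ (2 * p) + ‖w - y‖ ^ 2)
      (post ε W y) := j2.add hI1
    rw [hm, hone, hA, ← integral_add j1 (hI _), ← integral_add j2 hI1]
    refine integral_mono (hI _) j3 fun w => ?_
    simp only
    have hr0 : 0 ≤ ‖w - y‖ ^ 2 := by positivity
    set r := ‖w - y‖ ^ 2
    have hr2 : 0 ≤ r ^ (2 * p) := by positivity
    rcases le_or_gt r 1 with hr | hr
    · have : r ^ (p + 1) ≤ 1 := pow_le_one₀ hr0 hr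
      linarith
    · rcases Nat.eq_zero_or_pos p with hp0 | hp0
      · subst hp0
        simp only [zero_add, pow_one]
        linarith
      · have : r ^ (p + 1) ≤ r ^ (2 * p) := pow_le_pow_right₀ hr.le (by omega)
        linarith
  have hm0 : 0 ≤ m := integral_nonneg fun w => by positivity
  have hm2 : m ^ 2 ≤ (1 + A + ∫ w, ‖w - y‖ ^ 2 ∂(post ε W y)) ^ 2 :=
    pow_le_pow_left₀ hm0 hmean 2
  linarith

theorem p2_moment_one (hW : KPot ε W) (h0 : 0 < ε) (h1 : ε ≤ 1 / 2) :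
    ∃ B : ℝ, 0 ≤ B ∧ ∀ y : E d, ∫ w, ‖w - y‖ ^ 2 ∂(post ε W y) ≤ B * (1 + ‖y‖) ^ 2 := by
  refine ⟨(√d + ‖gradient W 0‖ + 3) ^ 2, by positivity, fun y => ?_⟩
  refine (post_moment hW h0 h1 y).trans ?_
  have h2 := hW.grad_lip h0 h1 y 0
  rw [sub_zero] at h2
  have h3 : ‖gradient W y‖ ≤ ‖gradient W 0‖ + 3 * ‖y‖ := by
    have : gradient W y = gradient W 0 + (gradient W y - gradient W 0) := by abel
    calc ‖gradient W y‖ = ‖gradient W 0 + (gradient W y - gradient W 0)‖ := by rw [← this]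
      _ ≤ ‖gradient W 0‖ + ‖gradient W y - gradient W 0‖ := norm_add_le _ _
      _ ≤ _ := by linarith
  rw [← mul_pow]
  refine pow_le_pow_left₀ (by positivity) ?_ 2
  have hd : 0 ≤ √(d : ℝ) := Real.sqrt_nonneg _
  have hg := norm_nonneg (gradient W 0)
  have hy := norm_nonneg y
  have e1 : ε * √d ≤ √d := by nlinarith
  have e2 : ε ^ 2 * ‖gradient W y‖ ≤ ‖gradient W 0‖ + 3 * ‖y‖ := by
    have : ε ^ 2 ≤ 1 := by nlinarith
    have h4 := norm_nonneg (gradient W y)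
    nlinarith
  nlinarith [mul_nonneg hd hy, mul_nonneg hg hy]

theorem p2_moment (hW : KPot ε W) (h0 : 0 < ε) (h1 : ε ≤ 1 / 2) (p : ℕ) :
    ∃ (k : ℕ) (C : ℝ), 0 ≤ C ∧ ∀ y : E d,
      ∫ w, (‖w - y‖ ^ 2) ^ (2 * p) ∂(post ε W y) ≤ C * (1 + ‖y‖) ^ k := by
  obtain ⟨B, hB, hB1⟩ := p2_moment_one hW h0 h1
  induction p with
  | zero =>
    refine ⟨0, 1, by norm_num, fun y => ?_⟩
    have hpr := post_prob hW h0 h1 y
    simp
  | succ p ih =>
    obtain ⟨k, C, hC, h⟩ := ih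
    refine ⟨2 * (k + 2), 16 * ((p : ℝ) + 1) ^ 4 * C + 2 * (1 + C + B) ^ 2, by positivity,
      fun y => ?_⟩
    have hy : 1 ≤ 1 + ‖y‖ := by linarith [norm_nonneg y]
    have h2 := p2_moment_step hW h0 h1 y p
    have h3 := h y
    have h4 := hB1 y
    set A := ∫ w, (‖w - y‖ ^ 2) ^ (2 * p) ∂(post ε W y)
    set R := ∫ w, ‖w - y‖ ^ 2 ∂(post ε W y)
    have hA0 : 0 ≤ A := integral_nonneg fun w => by positivity
    have hR0 : 0 ≤ R := integral_nonneg fun w => by positivity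
    set t := 1 + ‖y‖
    have a1 : A ≤ C * t ^ (2 * (k + 2)) := by
      refine h3.trans (mul_le_mul_of_nonneg_left (pow_le_pow_right₀ hy (by omega)) hC)
    have a2 : 1 + A + R ≤ (1 + C + B) * t ^ (k + 2) := by
      have b1 : (1 : ℝ) ≤ t ^ (k + 2) := one_le_pow₀ hy
      have b2 : A ≤ C * t ^ (k + 2) :=
        h3.trans (mul_le_mul_of_nonneg_left (pow_le_pow_right₀ hy (by omega)) hC)
      have b3 : R ≤ B * t ^ (k + 2) :=
        h4.trans (mul_le_mul_of_nonneg_left (pow_le_pow_right₀ hy (by omega)) hB)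
      linarith
    have a3 : (1 + A + R) ^ 2 ≤ (1 + C + B) ^ 2 * t ^ (2 * (k + 2)) := by
      have := pow_le_pow_left₀ (by positivity) a2 2
      calc (1 + A + R) ^ 2 ≤ ((1 + C + B) * t ^ (k + 2)) ^ 2 := this
        _ = _ := by rw [mul_pow, ← pow_mul, mul_comm 2 (k + 2)]
    have a4 : 16 * ((p : ℝ) + 1) ^ 4 * A ≤ 16 * ((p : ℝ) + 1) ^ 4 * (C * t ^ (2 * (k + 2))) :=
      mul_le_mul_of_nonneg_left a1 (by positivity)
    linarith

/-- posterior expectations have polynomial growth -/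
theorem p2_pe_bound (hW : KPot ε W) (h0 : 0 < ε) (h1 : ε ≤ 1 / 2) {F : E d → ℝ}
    (hF : Continuous F) (hp : Pgr F) :
    ∃ (k : ℕ) (C : ℝ), 0 ≤ C ∧ ∀ y, |pe ε W F y| ≤ C * (1 + ‖y‖) ^ k := by
  obtain ⟨k, C, h⟩ := hp
  obtain ⟨l, D, hD, h'⟩ := p2_moment hW h0 h1 k
  refine ⟨k + l, |C| * 2 ^ k * (2 + D), by positivity, fun y => ?_⟩
  have hpr := post_prob hW h0 h1 y
  have hI : ∀ k : ℕ, Integrable (fun w : E d => (‖w - y‖ ^ 2) ^ k) (post ε W y) := fun k =>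
    p2_post_int hW h0 h1 y (p2_rho_cont y k) (p2_rho_pgr y k)
  have hy : 1 ≤ 1 + ‖y‖ := by linarith [norm_nonneg y]
  have h2 : ∀ w : E d, ‖F w‖ ≤ (|C| * 2 ^ k * (1 + ‖y‖) ^ k) * (2 + (‖w - y‖ ^ 2) ^ (2 * k)) := by
    intro w
    have b1 : 1 + ‖w‖ ≤ (1 + ‖y‖) * (1 + ‖w - y‖) := by
      have : ‖w‖ ≤ ‖w - y‖ + ‖y‖ := by
        have e : w = (w - y) + y := by abel
        calc ‖w‖ = ‖(w - y) + y‖ := by rw [← e]
          _ ≤ _ := norm_add_le _ _
      nlinarith [norm_nonneg y, norm_nonneg (w - y), mul_nonneg (norm_nonneg y)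
        (norm_nonneg (w - y))]
    have b2 : (1 + ‖w - y‖) ^ k ≤ 2 ^ k * (2 + (‖w - y‖ ^ 2) ^ (2 * k)) := by
      have hr0 := norm_nonneg (w - y)
      set r := ‖w - y‖
      rcases le_or_gt r 1 with hr | hr
      · have c1 : (1 + r) ^ k ≤ 2 ^ k := pow_le_pow_left₀ (by positivity) (by linarith) k
        have c2 : (0 : ℝ) ≤ (r ^ 2) ^ (2 * k) := by positivity
        have c3 : (0 : ℝ) < 2 ^ k := by positivity
        nlinarith
      · have c1 : (1 + r) ^ k ≤ (2 * r) ^ k := pow_le_pow_left₀ (by positivity) (by linarith) k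
        rw [mul_pow] at c1
        refine c1.trans (mul_le_mul_of_nonneg_left ?_ (by positivity))
        have c4 : r ^ k ≤ (r ^ 2) ^ (2 * k) := by
          rw [← pow_mul]
          exact pow_le_pow_right₀ hr.le (by omega)
        linarith
    have b3 : (1 + ‖w‖) ^ k ≤ (1 + ‖y‖) ^ k * (2 ^ k * (2 + (‖w - y‖ ^ 2) ^ (2 * k))) := by
      refine (pow_le_pow_left₀ (by positivity) b1 k).trans ?_
      rw [mul_pow]
      exact mul_le_mul_of_nonneg_left b2 (by positivity)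
    calc ‖F w‖ ≤ |C| * (1 + ‖w‖) ^ k :=
          (h w).trans (mul_le_mul_of_nonneg_right (le_abs_self C) (by positivity))
      _ ≤ |C| * ((1 + ‖y‖) ^ k * (2 ^ k * (2 + (‖w - y‖ ^ 2) ^ (2 * k)))) :=
          mul_le_mul_of_nonneg_left b3 (abs_nonneg C)
      _ = _ := by ring
  have hFi : Integrable F (post ε W y) := p2_post_int hW h0 h1 y hF ⟨k, C, h⟩
  have h3 : |pe ε W F y| ≤ ∫ w, (|C| * 2 ^ k * (1 + ‖y‖) ^ k) * (2 + (‖w - y‖ ^ 2) ^ (2 * k))
      ∂(post ε W y) := by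
    unfold pe
    rw [← Real.norm_eq_abs]
    refine (norm_integral_le_integral_norm _).trans ?_
    exact integral_mono hFi.norm (((integrable_const _).add (hI _)).const_mul _) h2
  refine h3.trans ?_
  rw [integral_const_mul, integral_add (integrable_const _) (hI _), integral_const]
  simp only [probReal_univ, one_smul]
  have h4 := h' y
  have h5 : 2 + ∫ w, (‖w - y‖ ^ 2) ^ (2 * k) ∂(post ε W y) ≤ (2 + D) * (1 + ‖y‖) ^ l := by
    have : (1 : ℝ) ≤ (1 + ‖y‖) ^ l := one_le_pow₀ hy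
    linarith
  calc |C| * 2 ^ k * (1 + ‖y‖) ^ k * (2 + ∫ w, (‖w - y‖ ^ 2) ^ (2 * k) ∂(post ε W y))
      ≤ |C| * 2 ^ k * (1 + ‖y‖) ^ k * ((2 + D) * (1 + ‖y‖) ^ l) :=
        mul_le_mul_of_nonneg_left h5 (by positivity)
    _ = _ := by rw [pow_add]; ring

/-! ### Truncated temperate growth -/

/-- smooth with polynomial bounds for the derivatives of order at most `n` -/
def TB {F : Type*} [NormedAddCommGroup F] [NormedSpace ℝ F] (n : ℕ) (f : E d → F) : Prop :=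
  ContDiff ℝ ∞ f ∧ ∃ (k : ℕ) (C : ℝ), 0 ≤ C ∧ ∀ j ≤ n, ∀ x,
    ‖iteratedFDeriv ℝ j f x‖ ≤ C * (1 + ‖x‖) ^ k

section TB

variable {F : Type*} [NormedAddCommGroup F] [NormedSpace ℝ F]
variable {G : Type*} [NormedAddCommGroup G] [NormedSpace ℝ G]

theorem TB.add {n : ℕ} {f g : E d → F} (hf : TB n f) (hg : TB n g) :
    TB n (fun x => f x + g x) := by
  obtain ⟨hf1, k, C, hC, h⟩ := hf
  obtain ⟨hg1, l, D, hD, h'⟩ := hg
  refine ⟨hf1.add hg1, k + l, C + D, by positivity, fun j hj x => ?_⟩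
  have hx : 1 ≤ 1 + ‖x‖ := by linarith [norm_nonneg x]
  have e : iteratedFDeriv ℝ j (fun x => f x + g x) x =
      iteratedFDeriv ℝ j f x + iteratedFDeriv ℝ j g x :=
    iteratedFDeriv_add_apply (hf1.of_le (by exact_mod_cast le_top)).contDiffAt
      (hg1.of_le (by exact_mod_cast le_top)).contDiffAt
  rw [e]
  refine (norm_add_le _ _).trans ?_
  have a1 : C * (1 + ‖x‖) ^ k ≤ C * (1 + ‖x‖) ^ (k + l) :=
    mul_le_mul_of_nonneg_left (pow_le_pow_right₀ hx (by omega)) hC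
  have a2 : D * (1 + ‖x‖) ^ l ≤ D * (1 + ‖x‖) ^ (k + l) :=
    mul_le_mul_of_nonneg_left (pow_le_pow_right₀ hx (by omega)) hD
  have := h j hj x
  have := h' j hj x
  linarith

theorem TB.clm {n : ℕ} {f : E d → F} (hf : TB n f) (L : F →L[ℝ] G) :
    TB n (fun x => L (f x)) := by
  obtain ⟨hf1, k, C, hC, h⟩ := hf
  refine ⟨L.contDiff.comp hf1, k, ‖L‖ * C, by positivity, fun j hj x => ?_⟩
  have := L.norm_iteratedFDeriv_comp_left (x := x) (n := j) (N := ∞) hf1.contDiffAt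
    (by exact_mod_cast le_top)
  refine this.trans ?_
  rw [mul_assoc]
  exact mul_le_mul_of_nonneg_left (h j hj x) (norm_nonneg _)

theorem TB.zero_fun {n : ℕ} : TB n (fun _ : E d => (0 : F)) := by
  refine ⟨contDiff_const, 0, 0, le_rfl, fun j hj x => ?_⟩
  have : iteratedFDeriv ℝ j (fun _ : E d => (0 : F)) = 0 := iteratedFDeriv_fun_zero
  rw [this]
  simp

theorem TB.sum {n : ℕ} {ι : Type*} (s : Finset ι) {f : ι → E d → F} (hf : ∀ i ∈ s, TB n (f i)) :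
    TB n (fun x => ∑ i ∈ s, f i x) := by
  classical
  induction s using Finset.induction_on with
  | empty => simpa using TB.zero_fun
  | insert a s ha ih =>
    have h1 := hf a (Finset.mem_insert_self a s)
    have h2 := ih fun i hi => hf i (Finset.mem_insert_of_mem hi)
    have := h1.add h2
    simpa only [Finset.sum_insert ha] using this

theorem TB.mul {n : ℕ} {f g : E d → ℝ} (hf : TB n f) (hg : TB n g) :
    TB n (fun x => f x * g x) := by
  obtain ⟨hf1, k, C, hC, h⟩ := hf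
  obtain ⟨hg1, l, D, hD, h'⟩ := hg
  refine ⟨hf1.mul hg1, k + l, 2 ^ n * (C * D), by positivity, fun j hj x => ?_⟩
  refine (norm_iteratedFDeriv_mul_le hf1 hg1 x (n := j) (by exact_mod_cast le_top)).trans ?_
  have h2 : ∀ i ∈ Finset.range (j + 1),
      (j.choose i : ℝ) * ‖iteratedFDeriv ℝ i f x‖ * ‖iteratedFDeriv ℝ (j - i) g x‖ ≤
      (j.choose i : ℝ) * ((C * D) * (1 + ‖x‖) ^ (k + l)) := by
    intro i hi
    rw [Finset.mem_range] at hi
    have a1 := h i (by omega) x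
    have a2 := h' (j - i) (by omega) x
    rw [mul_assoc]
    refine mul_le_mul_of_nonneg_left ?_ (by positivity)
    calc ‖iteratedFDeriv ℝ i f x‖ * ‖iteratedFDeriv ℝ (j - i) g x‖
        ≤ (C * (1 + ‖x‖) ^ k) * (D * (1 + ‖x‖) ^ l) :=
          mul_le_mul a1 a2 (norm_nonneg _) (by positivity)
      _ = _ := by rw [pow_add]; ring
  refine (Finset.sum_le_sum h2).trans ?_
  rw [← Finset.sum_mul]
  have h3 : ∑ i ∈ Finset.range (j + 1), (j.choose i : ℝ) = 2 ^ j := by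
    exact_mod_cast Nat.sum_range_choose j
  rw [h3, mul_assoc (2 ^ n)]
  refine mul_le_mul_of_nonneg_right (pow_le_pow_right₀ (by norm_num) hj) (by positivity)

theorem TB.const_mul {n : ℕ} {f : E d → ℝ} (hf : TB n f) (c : ℝ) : TB n (fun x => c * f x) := by
  have := hf.clm (c • ContinuousLinearMap.id ℝ ℝ)
  simpa using this

theorem TB.succ {n : ℕ} {f : E d → F} (hf : ContDiff ℝ ∞ f)
    (hb : ∃ (k : ℕ) (C : ℝ), 0 ≤ C ∧ ∀ x, ‖f x‖ ≤ C * (1 + ‖x‖) ^ k) (h : TB n (fderiv ℝ f)) :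
    TB (n + 1) f := by
  obtain ⟨-, k, C, hC, h⟩ := h
  obtain ⟨l, D, hD, h'⟩ := hb
  refine ⟨hf, k + l, C + D, by positivity, fun j hj x => ?_⟩
  have hx : 1 ≤ 1 + ‖x‖ := by linarith [norm_nonneg x]
  have a1 : C * (1 + ‖x‖) ^ k ≤ C * (1 + ‖x‖) ^ (k + l) :=
    mul_le_mul_of_nonneg_left (pow_le_pow_right₀ hx (by omega)) hC
  have a2 : D * (1 + ‖x‖) ^ l ≤ D * (1 + ‖x‖) ^ (k + l) :=
    mul_le_mul_of_nonneg_left (pow_le_pow_right₀ hx (by omega)) hD
  have a3 : 0 ≤ C * (1 + ‖x‖) ^ (k + l) := by positivity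
  have a4 : 0 ≤ D * (1 + ‖x‖) ^ (k + l) := by positivity
  rcases j with _ | j
  · rw [norm_iteratedFDeriv_zero]
    have := h' x
    linarith
  · rw [← norm_iteratedFDeriv_fderiv]
    have := h j (by omega) x
    linarith

end TB

theorem p2_clm_eq (l : E d →L[ℝ] ℝ) : l = ∑ i, l (bas d i) • innerSL ℝ (bas d i) := by
  ext h
  have h1 : h = ∑ i, h i • bas d i := by
    ext j
    simp [bas, Pi.single_apply]
  have h2 : l h = ∑ i, h i * l (bas d i) := by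
    conv_lhs => rw [h1]
    rw [map_sum]
    simp
  rw [h2]
  simp only [_root_.sum_apply, smul_apply, innerSL_apply_apply, smul_eq_mul]
  refine Finset.sum_congr rfl fun i _ => ?_
  have : (inner ℝ (bas d i) h : ℝ) = h i := by
    simp [bas, EuclideanSpace.inner_single_left]
  rw [this, mul_comm]

theorem p2_TB (hW : KPot ε W) (h0 : 0 < ε) (h1 : ε ≤ 1 / 2) (n : ℕ) :
    ∀ F : E d → ℝ, Continuous F → Pgr F → TB n (pe ε W F) := by
  induction n with
  | zero =>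
    intro F hF hp
    obtain ⟨k, C, hC, h⟩ := p2_pe_bound hW h0 h1 hF hp
    refine ⟨p2_pe_contDiff hW h0 h1 hF hp, k, C, hC, fun j hj x => ?_⟩
    rw [Nat.le_zero] at hj
    subst hj
    rw [norm_iteratedFDeriv_zero, Real.norm_eq_abs]
    exact h x
  | succ n ih =>
    intro F hF hp
    refine TB.succ (p2_pe_contDiff hW h0 h1 hF hp) (p2_pe_bound hW h0 h1 hF hp) ?_
    have e : fderiv ℝ (pe ε W F) = fun y => ∑ i : Fin d,
        (ContinuousLinearMap.smulRight (ContinuousLinearMap.id ℝ ℝ) (innerSL ℝ (bas d i)))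
          ((ε ^ 2)⁻¹ * (pe ε W (fun w => F w * inner ℝ w (bas d i)) y +
            (-1) * (pe ε W F y * pe ε W (fun w => inner ℝ w (bas d i)) y))) := by
      funext y
      rw [p2_clm_eq (fderiv ℝ (pe ε W F) y)]
      refine Finset.sum_congr rfl fun i _ => ?_
      rw [pe_fderiv hW h0 h1 hF hp y (bas d i)]
      simp only [ContinuousLinearMap.smulRight_apply, ContinuousLinearMap.id_apply]
      congr 1
      ring
    rw [e]
    refine TB.sum _ fun i _ => TB.clm ?_ _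
    refine TB.const_mul ?_ _
    refine TB.add (ih _ (by fun_prop) (p2_pgr_mul hp (p2_pgr_inner _))) ?_
    exact TB.const_mul ((ih F hF hp).mul (ih _ (p2_inner_cont _) (p2_pgr_inner _))) _

theorem pe_temp (hW : KPot ε W) (h0 : 0 < ε) (h1 : ε ≤ 1 / 2) {F : E d → ℝ}
    (hF : Continuous F) (hp : Pgr F) : HasTemperateGrowth (pe ε W F) := by
  refine ⟨p2_pe_contDiff hW h0 h1 hF hp, fun n => ?_⟩
  obtain ⟨-, k, C, hC, h⟩ := p2_TB hW h0 h1 n F hF hp
  exact ⟨k, C, h n le_rfl⟩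

end P347S
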