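import Vale.Agent.P347S.Level
import Vale.Agent.P347S.Disint
import Vale.Agent.P347S.BaseTV

/-!
Module Rec: the complete sampler with `J` levels.

Proof by induction on `J` (for all `V`, `lam` simultaneously); `J = 0` is `base_tv`.  Step:
`samp (J+1) = y + θ · samp J (∇(np θ y V))`, `y = r • outS …` of law `ν_1`, `TV(ν_1, cv V τ²) ≤` the
bound of `level_tv`.  Replace `ν_1` by `cv V τ²` (`TVle.prod_right`, `TVle.map`), then for fixed `y`
use the induction hypothesis for `np θ y V` (class `lam θ²`, `∇(np θ y V)(0) = θ∇V(y)`) and integrate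
over `y ∼ cv V τ²` with `cv_grad_sq` (so `E|∇V(y)|² ≤ 12 d`); `disint` identifies the law of
`y + θu`, `u ∼ gibbs (np θ y V)`, with `gibbs V`.
(For `J ≥ 1` the gradient `∇V(0)` only enters through the first level; prove that stronger form.)
-/

open MeasureTheory ProbabilityTheory Function
open scoped ENNReal BigOperators

namespace P347S

open P347Q

section meas

theorem rec_cs {d : ℕ} {α : Type} [MeasurableSpace α] {f : α → E d} (hf : Measurable f) (c : ℝ) :
    Measurable (fun x => c • f x) := hf.const_smul c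

variable {d m N : ℕ} {Y : Type} [MeasurableSpace Y] {G : Y → E d → E d}

theorem rec_frc_meas (R : Rule m N) (hG : Measurable (fun p : Y × E d => G p.1 p.2)) (ε η : ℝ)
    (i : Fin N) :
    Measurable (fun p : Y × ((E d × E d) × (Fin N → E d)) => frc R (G p.1) ε η p.2.1 p.2.2 i) := by
  have a1 : Measurable (fun p : Y × ((E d × E d) × (Fin N → E d)) => p.1) := measurable_fst
  have a2 : Measurable (fun p : Y × ((E d × E d) × (Fin N → E d)) => p.2.1.1) := by fun_prop
  have a3 : Measurable (fun p : Y × ((E d × E d) × (Fin N → E d)) => p.2.1.2) := by fun_prop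
  have a4 : Measurable (fun p : Y × ((E d × E d) × (Fin N → E d)) => p.2.2 i) := by fun_prop
  have h1 : Measurable (fun p : Y × ((E d × E d) × (Fin N → E d)) => G p.1 p.2.1.1) :=
    hG.comp (a1.prodMk a2)
  have h2 : Measurable (fun p : Y × ((E d × E d) × (Fin N → E d)) =>
      p.2.1.1 + (η * R.t i) • p.2.1.2 - ((η * R.t i) ^ 2 / 2 + ε ^ 2) • G p.1 p.2.1.1 +
        ε • p.2.2 i) :=
    ((a2.add (rec_cs a3 (η * R.t i))).sub (rec_cs h1 ((η * R.t i) ^ 2 / 2 + ε ^ 2))).add
      (rec_cs a4 ε)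
  exact hG.comp (a1.prodMk h2)

theorem rec_alg_meas (R : Rule m N) (hG : Measurable (fun p : Y × E d => G p.1 p.2)) (ε η : ℝ) :
    Measurable (fun p : Y × ((E d × E d) × Nz N d) => alg R (G p.1) ε η p.2.1 p.2.2) := by
  have a1 : Measurable (fun p : Y × ((E d × E d) × Nz N d) => p.1) := measurable_fst
  have a2 : Measurable (fun p : Y × ((E d × E d) × Nz N d) => p.2.1) := measurable_snd.fst
  have a3 : Measurable (fun p : Y × ((E d × E d) × Nz N d) => p.2.1.1) := a2.fst
  have a4 : Measurable (fun p : Y × ((E d × E d) × Nz N d) => p.2.1.2) := a2.snd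
  have a5 : Measurable (fun p : Y × ((E d × E d) × Nz N d) => p.2.2.1) := measurable_snd.snd.fst
  have a6 : Measurable (fun p : Y × ((E d × E d) × Nz N d) => p.2.2.2) := measurable_snd.snd.snd
  have hf : ∀ i, Measurable (fun p : Y × ((E d × E d) × Nz N d) =>
      frc R (G p.1) ε η p.2.1 p.2.2.1 i) := fun i =>
    (rec_frc_meas R hG ε η i).comp (a1.prodMk (a2.prodMk a5))
  have s1 : Measurable (fun p : Y × ((E d × E d) × Nz N d) =>
      ∑ i, (R.w i * (1 - R.t i)) • frc R (G p.1) ε η p.2.1 p.2.2.1 i) :=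
    Finset.measurable_fun_sum _ fun i _ => rec_cs (hf i) _
  have s2 : Measurable (fun p : Y × ((E d × E d) × Nz N d) =>
      ∑ i, R.w i • frc R (G p.1) ε η p.2.1 p.2.2.1 i) :=
    Finset.measurable_fun_sum _ fun i _ => rec_cs (hf i) _
  have h1 : Measurable (fun p : Y × ((E d × E d) × Nz N d) =>
      p.2.1.1 + η • p.2.1.2 - η ^ 2 • ∑ i, (R.w i * (1 - R.t i)) •
        frc R (G p.1) ε η p.2.1 p.2.2.1 i) :=
    (a3.add (rec_cs a4 η)).sub (rec_cs s1 (η ^ 2))
  have h2 : Measurable (fun p : Y × ((E d × E d) × Nz N d) =>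
      p.2.1.2 - η • ∑ i, R.w i • frc R (G p.1) ε η p.2.1 p.2.2.1 i) :=
    a4.sub (rec_cs s2 η)
  have h3 : Measurable (fun p : Y × ((E d × E d) × Nz N d) =>
      (1 - 2 * η) • (p.2.1.2 - η • ∑ i, R.w i • frc R (G p.1) ε η p.2.1 p.2.2.1 i) +
        √(1 - (1 - 2 * η) ^ 2) • p.2.2.2) :=
    (rec_cs h2 _).add (rec_cs a6 _)
  exact h1.prodMk h3

theorem rec_runS_meas (R : Rule m N) (hG : Measurable (fun p : Y × E d => G p.1 p.2)) (ε η : ℝ)
    (n : ℕ) :
    Measurable (fun p : Y × (Fin n → Nz N d) => runS R (G p.1) ε η n (0, 0) p.2) := by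
  induction n with
  | zero => exact measurable_const
  | succ n ih =>
    have a1 : Measurable (fun p : Y × (Fin (n + 1) → Nz N d) => p.1) := measurable_fst
    have a2 : Measurable (fun p : Y × (Fin (n + 1) → Nz N d) =>
        fun i : Fin n => p.2 i.castSucc) :=
      measurable_pi_lambda _ fun i => (measurable_pi_apply _).comp measurable_snd
    have h3 : Measurable (fun p : Y × (Fin (n + 1) → Nz N d) => p.2 (Fin.last n)) :=
      (measurable_pi_apply _).comp measurable_snd
    have h4 : Measurable (fun p : Y × (Fin (n + 1) → Nz N d) =>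
        runS R (G p.1) ε η n (0, 0) (fun i : Fin n => p.2 i.castSucc)) :=
      ih.comp (a1.prodMk a2)
    have h5 := (rec_alg_meas R hG ε η).comp (a1.prodMk (h4.prodMk h3))
    simp only [runS]
    exact h5

theorem rec_outS_meas (R : Rule m N) (hG : Measurable (fun p : Y × E d => G p.1 p.2))
    (ε η σ : ℝ) (n : ℕ) :
    Measurable (fun p : Y × Lz n N d => outS R (G p.1) ε η σ n p.2) := by
  have a1 : Measurable (fun p : Y × Lz n N d => p.1) := measurable_fst
  have a2 : Measurable (fun p : Y × Lz n N d => p.2.1) := measurable_snd.fst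
  have a3 : Measurable (fun p : Y × Lz n N d => p.2.2) := measurable_snd.snd
  have h1 : Measurable (fun p : Y × Lz n N d => runS R (G p.1) ε η n (0, 0) p.2.1) :=
    (rec_runS_meas R hG ε η n).comp (a1.prodMk a2)
  exact h1.fst.add (rec_cs a3 σ)

theorem rec_rg_meas (hG : Measurable (fun p : Y × E d => G p.1 p.2)) (ε : ℝ) :
    Measurable (fun p : Y × E d => rg ε (G p.1) p.2) := by
  have a1 : Measurable (fun p : Y × E d => p.1) := measurable_fst
  have a2 : Measurable (fun p : Y × E d => p.2) := measurable_snd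
  have h1 : Measurable (fun p : Y × E d => G p.1 (rs ε • p.2)) :=
    hG.comp (a1.prodMk (rec_cs a2 (rs ε)))
  exact rec_cs h1 (rs ε)

theorem rec_ng_meas (hG : Measurable (fun p : Y × E d => G p.1 p.2)) (θ : ℝ) :
    Measurable (fun p : (Y × E d) × E d => ng θ p.1.2 (G p.1.1) p.2) := by
  have a1 : Measurable (fun p : (Y × E d) × E d => p.1.1) := measurable_fst.fst
  have a2 : Measurable (fun p : (Y × E d) × E d => p.1.2) := measurable_fst.snd
  have a3 : Measurable (fun p : (Y × E d) × E d => p.2) := measurable_snd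
  have h1 : Measurable (fun p : (Y × E d) × E d => G p.1.1 (p.1.2 + θ • p.2)) :=
    hG.comp (a1.prodMk (a2.add (rec_cs a3 θ)))
  exact (rec_cs h1 θ).add (rec_cs a3 (1 - θ ^ 2))

theorem rec_samp_meas (R : Rule m N) (ε η σ : ℝ) (n J : ℕ) :
    ∀ {Y : Type} [MeasurableSpace Y] {G : Y → E d → E d},
      Measurable (fun p : Y × E d => G p.1 p.2) →
      Measurable (fun p : Y × ((Fin J → Lz n N d) × E d) => samp R ε η σ n J (G p.1) p.2) := by
  induction J with
  | zero =>
    intro Y _ G hG
    have a1 : Measurable (fun p : Y × ((Fin 0 → Lz n N d) × E d) => p.1) := measurable_fst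
    have h1 : Measurable (fun p : Y × ((Fin 0 → Lz n N d) × E d) => G p.1 0) :=
      hG.comp (a1.prodMk measurable_const)
    exact h1.neg.add measurable_snd.snd
  | succ J ih =>
    intro Y _ G hG
    have a1 : Measurable (fun p : Y × ((Fin (J + 1) → Lz n N d) × E d) => p.1) := measurable_fst
    have h0 : Measurable (fun p : Y × ((Fin (J + 1) → Lz n N d) × E d) => p.2.1 0) :=
      (measurable_pi_apply _).comp measurable_snd.fst
    have h1' : Measurable (fun p : Y × ((Fin (J + 1) → Lz n N d) × E d) =>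
        outS R (rg ε (G p.1)) ε η σ n (p.2.1 0)) :=
      (rec_outS_meas R (G := fun y => rg ε (G y)) (rec_rg_meas hG ε) ε η σ n).comp (a1.prodMk h0)
    have h1 : Measurable (fun p : Y × ((Fin (J + 1) → Lz n N d) × E d) =>
        rs ε • outS R (rg ε (G p.1)) ε η σ n (p.2.1 0)) := rec_cs h1' _
    have h2 := rec_ng_meas hG (√(th2 ε σ))
    have h3 := ih (Y := Y × E d) (G := fun q => ng (√(th2 ε σ)) q.2 (G q.1)) h2
    have h4 : Measurable (fun p : Y × ((Fin (J + 1) → Lz n N d) × E d) =>
        ((fun i : Fin J => p.2.1 i.succ), p.2.2)) := by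
      refine Measurable.prodMk (measurable_pi_lambda _ fun i => ?_) measurable_snd.snd
      exact (measurable_pi_apply _).comp measurable_snd.fst
    have h5 : Measurable (fun p : Y × ((Fin (J + 1) → Lz n N d) × E d) =>
        samp R ε η σ n J (ng (√(th2 ε σ)) (rs ε • outS R (rg ε (G p.1)) ε η σ n (p.2.1 0))
          (G p.1)) (Fin.tail p.2.1, p.2.2)) :=
      h3.comp ((a1.prodMk h1).prodMk h4)
    exact h1.add (rec_cs h5 _)

end meas

section inst

instance rec_gN_prob (N d : ℕ) : IsProbabilityMeasure (gN N d) := by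
  unfold gN; infer_instance

instance rec_nzM_prob (N d : ℕ) : IsProbabilityMeasure (nzM N d) := by
  unfold nzM; infer_instance

instance rec_lzM_prob (n N d : ℕ) : IsProbabilityMeasure (lzM n N d) := by
  unfold lzM; infer_instance

instance rec_smM_prob (n N J d : ℕ) : IsProbabilityMeasure (smM n N J d) := by
  unfold smM; infer_instance

end inst

theorem CPot.prob {d : ℕ} {lam : ℝ} {V : E d → ℝ} (hV : CPot lam V) :
    IsProbabilityMeasure (gibbs V) := hV.lpot.prob one_pos

theorem CPot.grad_meas {d : ℕ} {lam : ℝ} {V : E d → ℝ} (hV : CPot lam V) :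
    Measurable (gradient V) := by
  have h : Continuous (fun x => (InnerProductSpace.toDual ℝ (E d)).symm (fderiv ℝ V x)) :=
    (LinearIsometryEquiv.continuous _).comp (hV.smooth.continuous_fderiv (by norm_num))
  exact h.measurable

theorem cv_prob {d : ℕ} {lam : ℝ} {V : E d → ℝ} (hV : CPot lam V) (t : ℝ) :
    IsProbabilityMeasure (cv V t) := by
  have := hV.prob
  unfold cv
  exact Measure.isProbabilityMeasure_map (by fun_prop)

/-- the noise of `J+1` levels is the noise of one level and of `J` levels -/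
theorem rec_smM_succ (n N J d : ℕ) :
    MeasurePreserving (fun ω : (Fin (J + 1) → Lz n N d) × E d =>
      (ω.1 0, (Fin.tail ω.1, ω.2))) (smM n N (J + 1) d) ((lzM n N d).prod (smM n N J d)) := by
  have h1 := measurePreserving_piFinSuccAbove (fun _ : Fin (J + 1) => lzM n N d) 0
  have h3 := h1.prod (MeasurePreserving.id (stdGaussian (E d)))
  have h4 := measurePreserving_prodAssoc (lzM n N d) (Measure.pi fun _ : Fin J => lzM n N d)
    (stdGaussian (E d))
  exact h4.comp h3

/-- one level of the recursion -/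
theorem rec_step {m N : ℕ} (R : Rule m N) {d n J : ℕ} {V : E d → ℝ} {lam ε η σ b0 a b c : ℝ}
    (hV : CPot lam V) (hl0 : 0 ≤ lam) (hl1 : lam ≤ 1) (ht : 0 < tau2 ε σ) (ht1 : tau2 ε σ ≤ 1)
    (hb : 0 ≤ b) (hc : 0 ≤ c)
    (h1 : TVle ((lzM n N d).map (fun ω => rs ε • outS R (rg ε (gradient V)) ε η σ n ω))
      (cv V (tau2 ε σ)) b0)
    (h2 : ∀ y : E d, TVle ((smM n N J d).map (samp R ε η σ n J (gradient (np (√(th2 ε σ)) y V))))
      (gibbs (np (√(th2 ε σ)) y V)) (a + b * ‖gradient V y‖ + c * ‖gradient V y‖ ^ 2)) :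
    TVle ((smM n N (J + 1) d).map (samp R ε η σ n (J + 1) (gradient V))) (gibbs V)
      (b0 + (a + b * (4 * √d) + c * (12 * d))) := by
  have hp := hV.prob
  have hcv := cv_prob hV (tau2 ε σ)
  set θ := √(th2 ε σ) with hθ
  have hth : 0 ≤ th2 ε σ := by unfold th2; positivity
  have hth1 : th2 ε σ ≤ 1 := by
    unfold th2; rw [div_le_one (by positivity)]; linarith
  have hθ2 : θ ^ 2 = th2 ε σ := Real.sq_sqrt hth
  have hgm := hV.grad_meas
  have hG : Measurable (fun p : Unit × E d => (fun _ : Unit => gradient V) p.1 p.2) :=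
    hgm.comp measurable_snd
  have hG2 := rec_rg_meas (G := fun _ : Unit => gradient V) hG ε
  -- the map of one level
  have hout : Measurable (fun ω : Lz n N d => rs ε • outS R (rg ε (gradient V)) ε η σ n ω) := by
    have h8 : Measurable (fun ω : Lz n N d => ((() : Unit), ω)) := measurable_prodMk_left
    have h9 : Measurable (fun ω : Lz n N d => outS R (rg ε (gradient V)) ε η σ n ω) :=
      (rec_outS_meas R (G := fun _ : Unit => rg ε (gradient V)) hG2 ε η σ n).comp h8
    exact rec_cs h9 _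
  -- the combination map
  have hng : Measurable (fun p : E d × E d => ng θ p.1 (gradient V) p.2) := by
    have b1 : Measurable (fun p : E d × E d => p.1) := measurable_fst
    have b2 : Measurable (fun p : E d × E d => p.2) := measurable_snd
    have b3 : Measurable (fun p : E d × E d => gradient V (p.1 + θ • p.2)) :=
      hgm.comp (b1.add (rec_cs b2 θ))
    exact (rec_cs b3 θ).add (rec_cs b2 (1 - θ ^ 2))
  have hs := rec_samp_meas R ε η σ n J (Y := E d) (G := fun y => ng θ y (gradient V)) hng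
  set g1 : E d × ((Fin J → Lz n N d) × E d) → E d :=
    fun p => p.1 + θ • samp R ε η σ n J (ng θ p.1 (gradient V)) p.2 with hg1
  have hg1m : Measurable g1 := measurable_fst.add (rec_cs hs θ)
  have hlaw1 : IsProbabilityMeasure
      ((lzM n N d).map (fun ω => rs ε • outS R (rg ε (gradient V)) ε η σ n ω)) :=
    Measure.isProbabilityMeasure_map hout.aemeasurable
  have hfull : (smM n N (J + 1) d).map (samp R ε η σ n (J + 1) (gradient V)) =
      (((lzM n N d).map (fun ω => rs ε • outS R (rg ε (gradient V)) ε η σ n ω)).prod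
        (smM n N J d)).map g1 := by
    have hmp := rec_smM_succ n N J d
    have e1 : samp R ε η σ n (J + 1) (gradient V) =
        (g1 ∘ (Prod.map (fun ω => rs ε • outS R (rg ε (gradient V)) ε η σ n ω) id)) ∘
        (fun ω : (Fin (J + 1) → Lz n N d) × E d => (ω.1 0, (Fin.tail ω.1, ω.2))) := by
      funext ω
      rfl
    have hm2 : Measurable (Prod.map (fun ω => rs ε • outS R (rg ε (gradient V)) ε η σ n ω)
        (id : ((Fin J → Lz n N d) × E d) → _)) := hout.prodMap measurable_id
    rw [e1, ← Measure.map_map (hg1m.comp hm2) hmp.measurable, hmp.map_eq,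
      ← Measure.map_map hg1m hm2, ← Measure.map_prod_map _ _ hout measurable_id, Measure.map_id]
  rw [hfull]
  have hA := (h1.prod_right (smM n N J d)).map hg1m
  refine hA.trans ?_
  -- second comparison
  intro f hf h0 h1'
  obtain ⟨i2, b2⟩ := cv_grad_sq hV hl0 hl1 ht.le ht1
  have i1 : Integrable (fun y => ‖gradient V y‖) (cv V (tau2 ε σ)) := by
    refine Integrable.mono' ((integrable_const (1 : ℝ)).add i2) hgm.norm.aestronglyMeasurable
      (Filter.Eventually.of_forall fun y => ?_)
    simp only [norm_norm, Pi.add_apply]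
    nlinarith [sq_nonneg (‖gradient V y‖ - 1 / 2), norm_nonneg (gradient V y)]
  have b1 : ∫ y, ‖gradient V y‖ ∂(cv V (tau2 ε σ)) ≤ 4 * √d := by
    set e := ∫ y, ‖gradient V y‖ ∂(cv V (tau2 ε σ)) with he
    have hvar : 0 ≤ ∫ y, (‖gradient V y‖ - e) ^ 2 ∂(cv V (tau2 ε σ)) :=
      integral_nonneg fun y => sq_nonneg _
    have hexp : ∫ y, (‖gradient V y‖ - e) ^ 2 ∂(cv V (tau2 ε σ)) =
        ∫ y, ‖gradient V y‖ ^ 2 ∂(cv V (tau2 ε σ)) - e ^ 2 := by
      have e3 : (fun y => (‖gradient V y‖ - e) ^ 2) =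
          fun y => ‖gradient V y‖ ^ 2 - 2 * e * ‖gradient V y‖ + e ^ 2 := by
        funext y; ring
      have e4 : Integrable (fun y => ‖gradient V y‖ ^ 2 - 2 * e * ‖gradient V y‖)
          (cv V (tau2 ε σ)) := i2.sub (i1.const_mul (2 * e))
      rw [e3, integral_add e4 (integrable_const _),
        integral_sub i2 (i1.const_mul (2 * e)), integral_const_mul, ← he, integral_const]
      simp
      ring
    have h6 : e ^ 2 ≤ (4 * √d) ^ 2 := by
      rw [mul_pow, Real.sq_sqrt (Nat.cast_nonneg d)]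
      have : (0 : ℝ) ≤ d := Nat.cast_nonneg d
      linarith
    exact (abs_le_of_sq_le_sq' h6 (by positivity)).2
  -- rewriting the two integrals
  have hbound : ∀ y, |∫ ω, f (g1 (y, ω)) ∂(smM n N J d) -
      ∫ u, f (y + θ • u) ∂(gibbs (np θ y V))| ≤
        a + b * ‖gradient V y‖ + c * ‖gradient V y‖ ^ 2 := by
    intro y
    have hfy : Measurable (fun u : E d => f (y + θ • u)) :=
      hf.comp (measurable_const.add (rec_cs measurable_id θ))
    have h7 := h2 y (fun u => f (y + θ • u)) hfy (fun _ => h0 _) (fun _ => h1' _)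
    have hgr : gradient (np θ y V) = ng θ y (gradient V) :=
      (np_cpot hV (by rw [hθ2]; exact hth1) y).2
    have hsm : Measurable (samp R ε η σ n J (gradient (np θ y V))) := by
      rw [hgr]
      have h8 : Measurable (fun ω : (Fin J → Lz n N d) × E d => (y, ω)) := measurable_prodMk_left
      have h9 := hs.comp h8
      exact h9
    rw [integral_map hsm.aemeasurable hfy.aestronglyMeasurable] at h7
    rw [hgr] at h7
    exact h7
  rw [integral_map hg1m.aemeasurable hf.aestronglyMeasurable,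
    integral_prod (fun p => f (g1 p))
      (int01 _ (hf.comp hg1m) (fun _ => h0 _) (fun _ => h1' _))]
  have hdis : ∫ x, f x ∂(gibbs V) =
      ∫ y, (∫ u, f (y + θ • u) ∂(gibbs (np θ y V))) ∂(cv V (tau2 ε σ)) := by
    rw [hθ]
    unfold th2
    exact (disint hV ht hf h0 h1').symm
  rw [hdis]
  -- measurability of the two functions
  have hm1 : Measurable (fun y => ∫ ω, f (g1 (y, ω)) ∂(smM n N J d)) :=
    ((hf.comp hg1m).stronglyMeasurable.integral_prod_right' (ν := smM n N J d)).measurable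
  have hVc : Continuous V := hV.smooth.continuous
  have hnpm : Measurable (fun p : E d × E d => np θ p.1 V p.2) := by
    unfold np
    fun_prop
  have hcl : ∀ y : E d, ∃ c' : ℝ, ∀ x, c' + ‖x‖ ^ 2 / 4 ≤ np θ y V x := by
    intro y
    have hy := (np_cpot hV (θ := θ) (by rw [hθ2]; exact hth1) y).1
    refine ⟨np θ y V 0 - ‖fderiv ℝ (np θ y V) 0‖ ^ 2, fun x => ?_⟩
    have h := second_order_lower hy.smooth 0 x (‖x‖ ^ 2) (fun t _ => hy.lower _ _)
    rw [zero_add] at h
    have h1 : -(‖fderiv ℝ (np θ y V) 0‖ * ‖x‖) ≤ fderiv ℝ (np θ y V) 0 x := by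
      have := (fderiv ℝ (np θ y V) 0).le_opNorm x
      rw [Real.norm_eq_abs] at this
      exact (abs_le.1 this).1
    have h2 : ‖fderiv ℝ (np θ y V) 0‖ * ‖x‖ ≤ ‖fderiv ℝ (np θ y V) 0‖ ^ 2 + ‖x‖ ^ 2 / 4 := by
      nlinarith [sq_nonneg (‖fderiv ℝ (np θ y V) 0‖ - ‖x‖ / 2)]
    linarith
  have hm2 : Measurable (fun y => ∫ u, f (y + θ • u) ∂(gibbs (np θ y V))) := by
    have e4 : (fun y => ∫ u, f (y + θ • u) ∂(gibbs (np θ y V))) =
        fun y => (∫ u, Real.exp (-np θ y V u))⁻¹ *
          ∫ u, Real.exp (-np θ y V u) * f (y + θ • u) := by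
      funext y
      obtain ⟨c', hc'⟩ := hcl y
      have hy := (np_cpot hV (θ := θ) (by rw [hθ2]; exact hth1) y).1
      exact integral_gibbs hy.smooth.continuous hc' _
    rw [e4]
    have hexp : Measurable (fun p : E d × E d => Real.exp (-np θ p.1 V p.2)) :=
      hnpm.neg.exp
    have hff : Measurable (fun p : E d × E d => f (p.1 + θ • p.2)) :=
      hf.comp (measurable_fst.add (rec_cs measurable_snd θ))
    have a1 : Measurable (fun y : E d => ∫ u, Real.exp (-np θ y V u)) :=
      (hexp.stronglyMeasurable.integral_prod_right' (ν := volume)).measurable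
    have a2 : Measurable (fun y : E d => ∫ u, Real.exp (-np θ y V u) * f (y + θ • u)) :=
      ((hexp.mul hff).stronglyMeasurable.integral_prod_right' (ν := volume)).measurable
    exact a1.inv.mul a2
  have hx1 : ∀ y, 0 ≤ ∫ ω, f (g1 (y, ω)) ∂(smM n N J d) ∧
      ∫ ω, f (g1 (y, ω)) ∂(smM n N J d) ≤ 1 := fun y =>
    int01_mem _ (f := fun ω => f (g1 (y, ω))) ((hf.comp hg1m).comp measurable_prodMk_left)
      (fun _ => h0 _) (fun _ => h1' _)
  have hx2 : ∀ y, 0 ≤ ∫ u, f (y + θ • u) ∂(gibbs (np θ y V)) ∧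
      ∫ u, f (y + θ • u) ∂(gibbs (np θ y V)) ≤ 1 := by
    intro y
    have hy := (np_cpot hV (θ := θ) (by rw [hθ2]; exact hth1) y).1
    have := hy.prob
    exact int01_mem _ (f := fun u => f (y + θ • u))
      (hf.comp (measurable_const.add (rec_cs measurable_id θ))) (fun _ => h0 _)
      (fun _ => h1' _)
  have j1 := int01 (cv V (tau2 ε σ)) hm1 (fun y => (hx1 y).1) (fun y => (hx1 y).2)
  have j2 := int01 (cv V (tau2 ε σ)) hm2 (fun y => (hx2 y).1) (fun y => (hx2 y).2)
  have hδ : Integrable (fun y => a + b * ‖gradient V y‖ + c * ‖gradient V y‖ ^ 2)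
      (cv V (tau2 ε σ)) :=
    ((integrable_const a).add (i1.const_mul b)).add (i2.const_mul c)
  rw [← integral_sub j1 j2]
  calc |∫ y, (∫ ω, f (g1 (y, ω)) ∂(smM n N J d) -
        ∫ u, f (y + θ • u) ∂(gibbs (np θ y V))) ∂(cv V (tau2 ε σ))|
      ≤ ∫ y, |∫ ω, f (g1 (y, ω)) ∂(smM n N J d) -
        ∫ u, f (y + θ • u) ∂(gibbs (np θ y V))| ∂(cv V (tau2 ε σ)) :=
        abs_integral_le_integral_abs
    _ ≤ ∫ y, (a + b * ‖gradient V y‖ + c * ‖gradient V y‖ ^ 2) ∂(cv V (tau2 ε σ)) :=
        integral_mono (j1.sub j2).abs hδ hbound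
    _ = a + b * ∫ y, ‖gradient V y‖ ∂(cv V (tau2 ε σ)) +
        c * ∫ y, ‖gradient V y‖ ^ 2 ∂(cv V (tau2 ε σ)) := by
        have k1 : Integrable (fun y => a + b * ‖gradient V y‖) (cv V (tau2 ε σ)) :=
          (integrable_const a).add (i1.const_mul b)
        rw [integral_add k1 (i2.const_mul c),
          integral_add (integrable_const a) (i1.const_mul b), integral_const_mul,
          integral_const_mul, integral_const]
        simp
    _ ≤ a + b * (4 * √d) + c * (12 * d) := by
        have := mul_le_mul_of_nonneg_left b1 hb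
        have := mul_le_mul_of_nonneg_left b2 hc
        linarith

theorem samp_tv {m N : ℕ} (R : Rule m N) (hm : 2 ≤ m) (hR : Monotone R.t) :
    ∃ C c0 : ℝ, 0 < C ∧ 0 < c0 ∧ c0 ≤ 1 / 4 ∧ ∀ (J : ℕ) (d : ℕ) (V : E d → ℝ) (lam ε η σ : ℝ),
      CPot lam V → 0 ≤ lam → lam ≤ 1 → 0 < ε → ε ≤ c0 → 0 < η → η ≤ c0 → 0 < σ → σ ≤ 1 / 2 →
      ∀ n : ℕ,
      TVle ((smM n N J d).map (samp R ε η σ n J (gradient V))) (gibbs V)
        (C * (J * lvE m d ε η σ n + (1 - η / 4) ^ n / σ * ‖gradient V 0‖) +
          C * lam * (th2 ε σ) ^ J * (d + ‖gradient V 0‖ ^ 2)) := by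
  obtain ⟨C0, c0, hC0, hc0, hc04, hlev⟩ := level_tv R hm hR
  refine ⟨5 * C0 + 7, c0, by positivity, hc0, hc04, ?_⟩
  intro J d V lam ε η σ hV hl0 hl1 hε0 hε1 hη0 hη1 hσ0 hσ1 n
  -- parameters
  have hε2 : ε ^ 2 ≤ 1 / 16 := by
    have : ε ≤ 1 / 4 := hε1.trans hc04
    nlinarith
  have hσ2 : σ ^ 2 ≤ 1 / 4 := by nlinarith
  have hrs : (rs ε) ^ 2 = (1 - ε ^ 2)⁻¹ := by
    unfold rs
    rw [inv_pow, Real.sq_sqrt (by linarith)]
  have ht0 : 0 < tau2 ε σ := by
    unfold tau2
    rw [hrs]
    have : 0 < 1 - ε ^ 2 := by linarith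
    positivity
  have ht1 : tau2 ε σ ≤ 1 := by
    unfold tau2
    rw [hrs, inv_mul_le_iff₀ (by linarith)]
    linarith
  have hth : 0 ≤ th2 ε σ := by unfold th2; positivity
  have hth1 : th2 ε σ ≤ 1 := by
    unfold th2; rw [div_le_one (by positivity)]; linarith
  have hθ2 : √(th2 ε σ) ^ 2 = th2 ε σ := Real.sq_sqrt hth
  have hθ0 : 0 ≤ √(th2 ε σ) := Real.sqrt_nonneg _
  have hθ1 : √(th2 ε σ) ≤ 1 := Real.sqrt_le_one.2 hth1
  have hη4 : 0 ≤ 1 - η / 4 := by linarith [hη1.trans hc04]
  have hq0 : 0 ≤ (1 - η / 4) ^ n / σ := by positivity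
  have hL : (1 - η / 4) ^ n / σ * √d ≤ lvE m d ε η σ n := by
    unfold lvE locE
    have a1 : 0 ≤ √(d : ℝ) * n * (η ^ 2 * ε ^ 2 + η * ε ^ 3) := by positivity
    have a2 : 0 ≤ √(d : ℝ) * (η * (η ^ 3 + η ^ 2 * ε + η * ε ^ 2) + ε * (η / ε) ^ m) / (σ * η) := by
      positivity
    linarith
  have hL0 : 0 ≤ lvE m d ε η σ n := le_trans (by positivity) hL
  set L := lvE m d ε η σ n with hLdef
  set q := (1 - η / 4) ^ n / σ with hq
  -- gradient of the next potential at the origin
  have hgr0 : ∀ {V : E d → ℝ} {lam : ℝ}, CPot lam V → ∀ y : E d,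
      ‖gradient (np (√(th2 ε σ)) y V) 0‖ ≤ ‖gradient V y‖ := by
    intro V lam hV y
    rw [(np_cpot hV (by rw [hθ2]; exact hth1) y).2]
    unfold ng
    rw [smul_zero, add_zero, smul_zero, add_zero, norm_smul, Real.norm_of_nonneg hθ0]
    exact mul_le_of_le_one_left (norm_nonneg _) hθ1
  -- the stronger form
  have key : ∀ (J : ℕ) (V : E d → ℝ) (lam : ℝ), CPot lam V → 0 ≤ lam → lam ≤ 1 →
      TVle ((smM n N J d).map (samp R ε η σ n J (gradient V))) (gibbs V)
        (5 * C0 * (J * L) + C0 * (q * ‖gradient V 0‖) +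
          (if J = 0 then lam / 2 * (d + ‖gradient V 0‖ ^ 2)
            else 13 / 2 * (lam * (th2 ε σ) ^ J * d))) := by
    intro J
    induction J with
    | zero =>
      intro V lam hV hl0 hl1
      have hb := base_tv hV hl0
      have e : (smM n N 0 d).map (samp R ε η σ n 0 (gradient V)) =
          (stdGaussian (E d)).map (fun z => -gradient V 0 + z) := by
        have e1 : samp R ε η σ n 0 (gradient V) = (fun z : E d => -gradient V 0 + z) ∘
            (Prod.snd : (Fin 0 → Lz n N d) × E d → E d) := by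
          funext ω; rfl
        have hz : Measurable (fun z : E d => -gradient V 0 + z) := by fun_prop
        rw [e1, ← Measure.map_map hz measurable_snd]
        congr 1
        unfold smM
        exact measurePreserving_snd.map_eq
      rw [e]
      refine hb.mono ?_
      simp only [if_true, Nat.cast_zero, zero_mul, mul_zero, zero_add]
      have : 0 ≤ C0 * (q * ‖gradient V 0‖) := by positivity
      linarith
    | succ J ih =>
      intro V lam hV hl0 hl1
      have h1 := hlev d V lam ε η σ hV hl1 hε0 hε1 hη0 hη1 hσ0 (by linarith) n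
      have hlt : lam * th2 ε σ ≤ 1 := mul_le_one₀ hl1 hth hth1
      have hlt0 : 0 ≤ lam * th2 ε σ := by positivity
      have hih : ∀ y : E d, TVle
          ((smM n N J d).map (samp R ε η σ n J (gradient (np (√(th2 ε σ)) y V))))
          (gibbs (np (√(th2 ε σ)) y V))
          (5 * C0 * (J * L) + C0 * (q * ‖gradient (np (√(th2 ε σ)) y V) 0‖) +
          (if J = 0 then lam * th2 ε σ / 2 * (d + ‖gradient (np (√(th2 ε σ)) y V) 0‖ ^ 2)
            else 13 / 2 * (lam * th2 ε σ * (th2 ε σ) ^ J * d))) := by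
        intro y
        have hy := (np_cpot hV (θ := √(th2 ε σ)) (by rw [hθ2]; exact hth1) y).1
        rw [hθ2] at hy
        exact ih _ _ hy hlt0 hlt
      rcases Nat.eq_zero_or_pos J with hJ | hJ
      · subst hJ
        have h2 : ∀ y : E d, TVle
            ((smM n N 0 d).map (samp R ε η σ n 0 (gradient (np (√(th2 ε σ)) y V))))
            (gibbs (np (√(th2 ε σ)) y V))
            (lam * th2 ε σ / 2 * d + C0 * q * ‖gradient V y‖ +
              lam * th2 ε σ / 2 * ‖gradient V y‖ ^ 2) := by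
          intro y
          refine (hih y).mono ?_
          simp only [if_true, Nat.cast_zero, zero_mul, mul_zero, zero_add]
          have a1 : C0 * (q * ‖gradient (np (√(th2 ε σ)) y V) 0‖) ≤ C0 * q * ‖gradient V y‖ := by
            rw [← mul_assoc]
            exact mul_le_mul_of_nonneg_left (hgr0 hV y) (by positivity)
          have a2 : ‖gradient (np (√(th2 ε σ)) y V) 0‖ ^ 2 ≤ ‖gradient V y‖ ^ 2 :=
            pow_le_pow_left₀ (norm_nonneg _) (hgr0 hV y) 2
          have a3 := mul_le_mul_of_nonneg_left a2 (by positivity : 0 ≤ lam * th2 ε σ / 2)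
          rw [mul_add]
          linarith
        refine (rec_step R hV hl0 hl1 ht0 ht1 (by positivity) (by positivity) h1 h2).mono ?_
        rw [if_neg (by norm_num)]
        have a4 : C0 * q * (4 * √d) ≤ 4 * C0 * L := by
          calc C0 * q * (4 * √d) = 4 * C0 * (q * √d) := by ring
            _ ≤ 4 * C0 * L := mul_le_mul_of_nonneg_left hL (by positivity)
        have e5 : (th2 ε σ) ^ (0 + 1) = th2 ε σ := by simp
        rw [e5]
        push_cast
        have e6 : C0 * (L + q * ‖gradient V 0‖) = C0 * L + C0 * (q * ‖gradient V 0‖) := by ring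
        rw [e6]
        have e7 : lam * th2 ε σ / 2 * (12 * (d : ℝ)) = 12 / 2 * (lam * th2 ε σ * d) := by ring
        have e8 : lam * th2 ε σ / 2 * (d : ℝ) = 1 / 2 * (lam * th2 ε σ * d) := by ring
        rw [e7, e8]
        linarith
      · have hJ0 : J ≠ 0 := hJ.ne'
        have h2 : ∀ y : E d, TVle
            ((smM n N J d).map (samp R ε η σ n J (gradient (np (√(th2 ε σ)) y V))))
            (gibbs (np (√(th2 ε σ)) y V))
            (5 * C0 * (J * L) + 13 / 2 * (lam * th2 ε σ * (th2 ε σ) ^ J * d) +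
              C0 * q * ‖gradient V y‖ + 0 * ‖gradient V y‖ ^ 2) := by
          intro y
          refine (hih y).mono ?_
          rw [if_neg hJ0]
          have a1 : C0 * (q * ‖gradient (np (√(th2 ε σ)) y V) 0‖) ≤ C0 * q * ‖gradient V y‖ := by
            rw [← mul_assoc]
            exact mul_le_mul_of_nonneg_left (hgr0 hV y) (by positivity)
          linarith
        refine (rec_step R hV hl0 hl1 ht0 ht1 (by positivity) le_rfl h1 h2).mono ?_
        rw [if_neg (Nat.succ_ne_zero J)]
        have a4 : C0 * q * (4 * √d) ≤ 4 * C0 * L := by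
          calc C0 * q * (4 * √d) = 4 * C0 * (q * √d) := by ring
            _ ≤ 4 * C0 * L := mul_le_mul_of_nonneg_left hL (by positivity)
        have e6 : C0 * (L + q * ‖gradient V 0‖) = C0 * L + C0 * (q * ‖gradient V 0‖) := by ring
        rw [e6]
        push_cast
        have e7 : lam * th2 ε σ * (th2 ε σ) ^ J = lam * (th2 ε σ) ^ (J + 1) := by ring
        rw [e7]
        have e8 : 5 * C0 * (((J : ℝ) + 1) * L) = 5 * C0 * (J * L) + 5 * (C0 * L) := by ring
        rw [e8]
        linarith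
  refine (key J V lam hV hl0 hl1).mono ?_
  have hJL : 0 ≤ (J : ℝ) * L := by positivity
  have hqG : 0 ≤ q * ‖gradient V 0‖ := by positivity
  have hd0 : (0 : ℝ) ≤ d := Nat.cast_nonneg d
  have hlast : (if J = 0 then lam / 2 * ((d : ℝ) + ‖gradient V 0‖ ^ 2)
      else 13 / 2 * (lam * (th2 ε σ) ^ J * d)) ≤
      (5 * C0 + 7) * lam * (th2 ε σ) ^ J * (d + ‖gradient V 0‖ ^ 2) := by
    split_ifs with h
    · subst h
      rw [pow_zero, mul_one]
      apply mul_le_mul_of_nonneg_right _ (by positivity)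
      nlinarith
    · have a1 : 0 ≤ lam * (th2 ε σ) ^ J := by positivity
      have a2 : lam * (th2 ε σ) ^ J * (d : ℝ) ≤
          lam * (th2 ε σ) ^ J * (d + ‖gradient V 0‖ ^ 2) :=
        mul_le_mul_of_nonneg_left (by linarith [sq_nonneg ‖gradient V 0‖]) a1
      have a3 : 0 ≤ lam * (th2 ε σ) ^ J * (d + ‖gradient V 0‖ ^ 2) := by positivity
      have e : (5 * C0 + 7) * lam * (th2 ε σ) ^ J * (d + ‖gradient V 0‖ ^ 2) =
          (5 * C0 + 7) * (lam * (th2 ε σ) ^ J * (d + ‖gradient V 0‖ ^ 2)) := by ring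
      rw [e]
      have a4 : 7 * (lam * (th2 ε σ) ^ J * (d + ‖gradient V 0‖ ^ 2)) ≤
          (5 * C0 + 7) * (lam * (th2 ε σ) ^ J * (d + ‖gradient V 0‖ ^ 2)) :=
        mul_le_mul_of_nonneg_right (by linarith) a3
      linarith
  have e9 : (5 * C0 + 7) * ((J : ℝ) * L + q * ‖gradient V 0‖) =
      5 * C0 * (J * L) + C0 * (q * ‖gradient V 0‖) +
        (7 * (J * L) + (4 * C0 + 7) * (q * ‖gradient V 0‖)) := by ring
  rw [e9]
  have : 0 ≤ 7 * ((J : ℝ) * L) + (4 * C0 + 7) * (q * ‖gradient V 0‖) := by positivity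
  linarith

end P347S
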